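import Vale.Agent.P226h19.CertDefs

open MeasureTheory ProbabilityTheory Real Set Filter Topology
open scoped RealInnerProductSpace ENNReal NNReal

namespace Vale.Agent.P226h19

open Vale.Agent.P226h14
open Vale.Agent.P226h6

/-- the layer function -/
noncomputable def realD (k W e R c P xi al : ℝ) : ℝ :=
  W ^ 2 * ((2 / k) * (-R * e - c) + e / k ^ 2) + W * (xi * e + (2 / k) * P)
    + (al - xi * (k / (k - 1))) * e

/-- the base multiplier -/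
noncomputable def nu0 (k al xi W : ℝ) : ℝ :=
  W - (al + xi * (W - k / (k - 1)) + (W / k) ^ 2) / (2 * W / k)

lemma realD_corner {k : ℤ} (hk : 2 ≤ k) (X Y RH cI PI xiI alI : ℤ) :
    realD k ((X : ℝ) / 64) ((Y : ℝ) / (Dd : ℝ)) ((RH : ℝ) / (Dd : ℝ)) ((cI : ℝ) / (Sc : ℝ) ^ 2)
        ((PI : ℝ) / ((Sc : ℝ) * 128)) ((xiI : ℝ) / (Sc : ℝ)) ((alI : ℝ) / (Sc : ℝ)) *
      (64 * 128 * (Dd : ℝ) ^ 2 * (k : ℝ) ^ 2 * (Sc : ℝ) ^ 2 * ((k : ℝ) - 1)) =
      (DI k X Y RH cI PI xiI alI : ℝ) := by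
  have hk2 : (2 : ℝ) ≤ (k : ℝ) := by exact_mod_cast hk
  have hk0 : (k : ℝ) ≠ 0 := by linarith
  have hk1 : (k : ℝ) - 1 ≠ 0 := by linarith
  have hD : (Dd : ℝ) ≠ 0 := by
    have : (Dd : ℤ) ≠ 0 := by
      unfold Dd
      norm_num
    exact_mod_cast this
  have hS : (Sc : ℝ) ≠ 0 := by
    have : (Sc : ℤ) ≠ 0 := by
      unfold Sc
      norm_num
    exact_mod_cast this
  simp only [realD, DI]
  push_cast
  field_simp
  ring

lemma AI_sign {k : ℤ} (hk : 2 ≤ k) (Y RH cI : ℤ) :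
    (2 / (k : ℝ)) * (-((RH : ℝ) / (Dd : ℝ)) * ((Y : ℝ) / (Dd : ℝ)) - (cI : ℝ) / (Sc : ℝ) ^ 2) +
        ((Y : ℝ) / (Dd : ℝ)) / (k : ℝ) ^ 2 =
      (AI k Y RH cI : ℝ) / ((k : ℝ) ^ 2 * (Dd : ℝ) ^ 2 * (Sc : ℝ) ^ 2) := by
  have hk2 : (2 : ℝ) ≤ (k : ℝ) := by exact_mod_cast hk
  have hk0 : (k : ℝ) ≠ 0 := by linarith
  have hD : (Dd : ℝ) ≠ 0 := by
    have : (Dd : ℤ) ≠ 0 := by
      unfold Dd
      norm_num
    exact_mod_cast this
  have hS : (Sc : ℝ) ≠ 0 := by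
    have : (Sc : ℤ) ≠ 0 := by
      unfold Sc
      norm_num
    exact_mod_cast this
  simp only [AI]
  push_cast
  field_simp
  ring

/-- a concave quadratic that is nonnegative at the two ends of an interval -/
lemma concave_quad_nonneg {a b c x1 x2 x : ℝ} (ha : a ≤ 0) (h1 : 0 ≤ a * x1 ^ 2 + b * x1 + c)
    (h2 : 0 ≤ a * x2 ^ 2 + b * x2 + c) (hx1 : x1 ≤ x) (hx2 : x ≤ x2) :
    0 ≤ a * x ^ 2 + b * x + c := by
  rcases eq_or_lt_of_le (hx1.trans hx2) with h | h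
  · have e1 : x = x1 := le_antisymm (by rw [h]; exact hx2) hx1
    rw [e1]
    exact h1
  · have hd : 0 < x2 - x1 := sub_pos.2 h
    have key : (x2 - x1) * (a * x ^ 2 + b * x + c) =
        (x2 - x) * (a * x1 ^ 2 + b * x1 + c) + (x - x1) * (a * x2 ^ 2 + b * x2 + c)
          + (-a) * (x - x1) * (x2 - x) * (x2 - x1) := by
      ring
    have t1 : 0 ≤ (x2 - x) * (a * x1 ^ 2 + b * x1 + c) := mul_nonneg (by linarith) h1
    have t2 : 0 ≤ (x - x1) * (a * x2 ^ 2 + b * x2 + c) := mul_nonneg (by linarith) h2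
    have t3 : 0 ≤ (-a) * (x - x1) * (x2 - x) * (x2 - x1) :=
      mul_nonneg (mul_nonneg (mul_nonneg (by linarith) (by linarith)) (by linarith)) hd.le
    have t4 : 0 ≤ (x2 - x1) * (a * x ^ 2 + b * x + c) := by
      rw [key]
      linarith
    exact nonneg_of_mul_nonneg_right t4 hd

/-- an affine function that is nonnegative at the two ends of an interval -/
lemma affine_nonneg {u v e1 e2 e : ℝ} (h1 : 0 ≤ u * e1 + v) (h2 : 0 ≤ u * e2 + v)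
    (he1 : e1 ≤ e) (he2 : e ≤ e2) : 0 ≤ u * e + v :=
  by
  have := concave_quad_nonneg (a := 0) (b := u) (c := v) le_rfl (x1 := e1) (x2 := e2) (x := e)
    (by linarith) (by linarith) he1 he2
  linarith

theorem box_sound {k Wa Wb eL eH RH cI PI xiI alI : ℤ} (hk : 2 ≤ k)
    (h : boxOK k Wa Wb eL eH RH cI PI xiI alI = true)
    {W e : ℝ} (h1 : (Wa : ℝ) / 64 ≤ W) (h2 : W ≤ (Wb : ℝ) / 64)
    (h3 : (eL : ℝ) / (Dd : ℝ) ≤ e) (h4 : e ≤ (eH : ℝ) / (Dd : ℝ)) :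
    0 ≤ realD k W e ((RH : ℝ) / (Dd : ℝ)) ((cI : ℝ) / (Sc : ℝ) ^ 2)
      ((PI : ℝ) / ((Sc : ℝ) * 128)) ((xiI : ℝ) / (Sc : ℝ)) ((alI : ℝ) / (Sc : ℝ)) := by
  simp only [boxOK, Bool.and_eq_true, decide_eq_true_eq] at h
  obtain ⟨⟨⟨⟨⟨d1, d2⟩, d3⟩, d4⟩, a1⟩, a2⟩ := h
  have hk2 : (2 : ℝ) ≤ (k : ℝ) := by exact_mod_cast hk
  have hk0 : (0 : ℝ) < k := by linarith
  have hk1 : (0 : ℝ) < (k : ℝ) - 1 := by linarith
  have hD : (0 : ℝ) < (Dd : ℝ) := by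
    have : (0 : ℤ) < Dd := by
      unfold Dd
      norm_num
    exact_mod_cast this
  have hS : (0 : ℝ) < (Sc : ℝ) := by
    have : (0 : ℤ) < Sc := by
      unfold Sc
      norm_num
    exact_mod_cast this
  set L : ℝ := 64 * 128 * (Dd : ℝ) ^ 2 * (k : ℝ) ^ 2 * (Sc : ℝ) ^ 2 * ((k : ℝ) - 1) with hL
  have hL0 : 0 < L := by positivity
  set R : ℝ := (RH : ℝ) / (Dd : ℝ) with hR
  set c : ℝ := (cI : ℝ) / (Sc : ℝ) ^ 2 with hc
  set P : ℝ := (PI : ℝ) / ((Sc : ℝ) * 128) with hP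
  set xi : ℝ := (xiI : ℝ) / (Sc : ℝ) with hxi
  set al : ℝ := (alI : ℝ) / (Sc : ℝ) with hal
  -- corners
  have corner : ∀ X Y : ℤ, 0 ≤ DI k X Y RH cI PI xiI alI →
      0 ≤ realD k ((X : ℝ) / 64) ((Y : ℝ) / (Dd : ℝ)) R c P xi al := by
    intro X Y hXY
    have e1 := realD_corner hk X Y RH cI PI xiI alI
    have e2 : (0 : ℝ) ≤ (DI k X Y RH cI PI xiI alI : ℝ) := by exact_mod_cast hXY
    rw [← e1] at e2
    exact nonneg_of_mul_nonneg_left e2 hL0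
  -- the coefficient of the square
  have quad : ∀ Y : ℤ, AI k Y RH cI ≤ 0 →
      (2 / (k : ℝ)) * (-R * ((Y : ℝ) / (Dd : ℝ)) - c) + ((Y : ℝ) / (Dd : ℝ)) / (k : ℝ) ^ 2 ≤ 0 := by
    intro Y hY
    rw [AI_sign hk Y RH cI]
    have : (AI k Y RH cI : ℝ) ≤ 0 := by exact_mod_cast hY
    exact div_nonpos_of_nonpos_of_nonneg this (by positivity)
  -- the expression as a quadratic in the width
  have hquad : ∀ (w y : ℝ), realD k w y R c P xi al =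
      ((2 / (k : ℝ)) * (-R * y - c) + y / (k : ℝ) ^ 2) * w ^ 2 + (xi * y + (2 / (k : ℝ)) * P) * w +
        ((al - xi * ((k : ℝ) / ((k : ℝ) - 1))) * y) := by
    intro w y
    simp only [realD]
    ring
  have hW : ∀ Y : ℤ, 0 ≤ DI k Wa Y RH cI PI xiI alI → 0 ≤ DI k Wb Y RH cI PI xiI alI →
      AI k Y RH cI ≤ 0 → 0 ≤ realD k W ((Y : ℝ) / (Dd : ℝ)) R c P xi al := by
    intro Y hA hB hQ
    have c1 := corner Wa Y hA
    have c2 := corner Wb Y hB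
    rw [hquad] at c1 c2 ⊢
    exact concave_quad_nonneg (quad Y hQ) c1 c2 h1 h2
  have e1 := hW eL d1 d3 a1
  have e2 := hW eH d2 d4 a2
  have haff : ∀ y : ℝ, realD k W y R c P xi al =
      (((2 / (k : ℝ)) * (-R) + 1 / (k : ℝ) ^ 2) * W ^ 2 + xi * W + (al - xi * ((k : ℝ) / ((k : ℝ) - 1)))) * y
        + (W ^ 2 * ((2 / (k : ℝ)) * (-c)) + W * ((2 / (k : ℝ)) * P)) := by
    intro y
    simp only [realD]
    ring
  rw [haff] at e1 e2 ⊢
  exact affine_nonneg e1 e2 h3 h4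

theorem pt_of_D {k W R c P xi al m : ℝ} (hk : 1 < k) (hW : 0 < W) (hR : Tf m ≤ R * ph m)
    (hD : 0 ≤ realD k W (Real.exp (-m ^ 2 / 2)) R c P xi al) :
    nu0 k al xi W * ph m ≤ W * (m * Qf m) + ph 0 * (P - W * c) := by
  have hk0 : 0 < k := by linarith
  have hk1 : k - 1 ≠ 0 := by
    have : 0 < k - 1 := by linarith
    exact this.ne'
  set e : ℝ := Real.exp (-m ^ 2 / 2) with he
  have hphm : ph m = ph 0 * e := ph_eq m
  have hp0 : 0 < ph 0 := ph_pos 0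
  have hfact : realD k W e R c P xi al =
      (2 * W / k) * ((W * (1 - R) - nu0 k al xi W) * e + P - W * c) := by
    simp only [realD, nu0]
    field_simp
    ring
  have hfac : 0 < 2 * W / k := by positivity
  rw [hfact] at hD
  have hpos : 0 ≤ (W * (1 - R) - nu0 k al xi W) * e + P - W * c :=
    nonneg_of_mul_nonneg_right hD hfac
  have hmQ : m * Qf m = ph m - Tf m := by
    simp only [Tf]
    ring
  have h1 : W * (1 - R) * ph m ≤ W * (m * Qf m) := by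
    rw [hmQ]
    have : (1 - R) * ph m ≤ ph m - Tf m := by linarith
    have h2 := mul_le_mul_of_nonneg_left this hW.le
    calc W * (1 - R) * ph m = W * ((1 - R) * ph m) := by ring
      _ ≤ _ := h2
  have h3 := mul_nonneg hp0.le hpos
  have h4 : ph 0 * ((W * (1 - R) - nu0 k al xi W) * e + P - W * c) =
      W * (1 - R) * (ph 0 * e) - nu0 k al xi W * (ph 0 * e) + ph 0 * (P - W * c) := by
    ring
  rw [h4, ← hphm] at h3
  linarith

/-- ratio monotonicity: from `Tf_le_RH` at the lower grid point -/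
theorem Tf_le_RH_of_le {i : ℕ} (hi : i ≤ 400) {m : ℝ} (hm : (i : ℝ) / 64 ≤ m) :
    Tf m ≤ ((RH i : ℤ) : ℝ) / (Dd : ℝ) * ph m := by
  have h1 := Tf_ratio hm
  have h2 := Tf_le_RH hi
  have hp : 0 < ph ((i : ℝ) / 64) := ph_pos _
  have hpm : 0 < ph m := ph_pos _
  have hDd : ((Dd : ℤ) : ℝ) = ((D : ℕ) : ℝ) := by
    simp [Dd, D]
  have h3 : ((RH i : ℤ) : ℝ) = ((RH i : ℕ) : ℝ) := by
    simp
  rw [hDd, h3]
  have h4 : Tf m * ph ((i : ℝ) / 64) ≤ ((RH i : ℝ) / (D : ℝ) * ph m) * ph ((i : ℝ) / 64) := by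
    calc Tf m * ph ((i : ℝ) / 64) ≤ Tf ((i : ℝ) / 64) * ph m := h1
      _ ≤ ((RH i : ℝ) / (D : ℝ) * ph ((i : ℝ) / 64)) * ph m :=
          mul_le_mul_of_nonneg_right h2 hpm.le
      _ = _ := by ring
  exact le_of_mul_le_mul_right h4 hp

/-- exponential bracket on a sublayer -/
theorem exp_bracket {i : ℕ} (hi : i + 1 ≤ 400) {m : ℝ} (h0 : (i : ℝ) / 64 ≤ m)
    (h1 : m ≤ ((i : ℝ) + 1) / 64) :
    ((EL (i + 1) : ℤ) : ℝ) / (Dd : ℝ) ≤ Real.exp (-m ^ 2 / 2) ∧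
      Real.exp (-m ^ 2 / 2) ≤ ((EH i : ℤ) : ℝ) / (Dd : ℝ) := by
  have hDd : ((Dd : ℤ) : ℝ) = ((D : ℕ) : ℝ) := by
    simp [Dd, D]
  have hi0 : (0 : ℝ) ≤ (i : ℝ) / 64 := by positivity
  have hm0 : 0 ≤ m := hi0.trans h0
  constructor
  · have h2 := EL_le_exp hi
    have h3 : (((i + 1 : ℕ) : ℝ) / 64) = ((i : ℝ) + 1) / 64 := by
      push_cast
      ring
    rw [h3] at h2
    have h4 : Real.exp (-(((i : ℝ) + 1) / 64) ^ 2 / 2) ≤ Real.exp (-m ^ 2 / 2) := by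
      apply Real.exp_le_exp.2
      have : m ^ 2 ≤ (((i : ℝ) + 1) / 64) ^ 2 := pow_le_pow_left₀ hm0 h1 2
      linarith
    rw [hDd]
    have h5 : ((EL (i + 1) : ℤ) : ℝ) = ((EL (i + 1) : ℕ) : ℝ) := by
      simp
    rw [h5]
    linarith
  · have h2 := exp_le_EH (show i ≤ 400 by omega)
    have h4 : Real.exp (-m ^ 2 / 2) ≤ Real.exp (-((i : ℝ) / 64) ^ 2 / 2) := by
      apply Real.exp_le_exp.2
      have : ((i : ℝ) / 64) ^ 2 ≤ m ^ 2 := pow_le_pow_left₀ hi0 h0 2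
      linarith
    rw [hDd]
    have h5 : ((EH i : ℤ) : ℝ) = ((EH i : ℕ) : ℝ) := by
      simp
    rw [h5]
    linarith

end Vale.Agent.P226h19
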