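import Vale.Agent.P226h19.MillsUp

/-! Integer definitions of the certificate for the deletion step: the box check, the comparison
values for the Gaussian mass polynomials, the bonus lower bound, and the table check. -/

namespace Vale.Agent.P226h19

/-- scale of the exponential tables -/
def Dd : ℤ := 10 ^ 12

/-- scale of the multipliers -/
def Sc : ℤ := 10 ^ 10

/-- the scaled value of the layer function at the corner `W = X / 64`, `e = Y / Dd` -/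
def DI (k X Y RH cI PI xiI alI : ℤ) : ℤ :=
  (k - 1) * (X ^ 2 * Y * (Dd - 2 * k * RH) * 2 * Sc ^ 2 - X ^ 2 * 2 * k * cI * 2 * Dd ^ 2
      + X * Y * xiI * 128 * Dd * k ^ 2 * Sc + X * 2 * k * PI * Dd ^ 2 * Sc)
    + (alI * (k - 1) - xiI * k) * Y * 64 * 128 * Dd * k ^ 2 * Sc

/-- the scaled quadratic coefficient of the layer function -/
def AI (k Y RH cI : ℤ) : ℤ := Y * (Dd - 2 * k * RH) * Sc ^ 2 - 2 * k * cI * Dd ^ 2

/-- the check of the layer function on a box -/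
def boxOK (k Wa Wb eL eH RH cI PI xiI alI : ℤ) : Bool :=
  decide (0 ≤ DI k Wa eL RH cI PI xiI alI) && decide (0 ≤ DI k Wa eH RH cI PI xiI alI) &&
  decide (0 ≤ DI k Wb eL RH cI PI xiI alI) && decide (0 ≤ DI k Wb eH RH cI PI xiI alI) &&
  decide (AI k eL RH cI ≤ 0) && decide (AI k eH RH cI ≤ 0)

/-- numerator of the comparison polynomial `pK 10 16` at `a / b` -/
def pnum (a b : ℤ) : ℤ :=
  7 * 13749310575 * b ^ 11 + 7 * 4583103525 * a * b ^ 10 + 7 * 916620705 * a ^ 2 * b ^ 9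
    + 7 * 130945815 * a ^ 3 * b ^ 8 + 7 * 14549535 * a ^ 4 * b ^ 7 + 7 * 1322685 * a ^ 5 * b ^ 6
    + 7 * 101745 * a ^ 6 * b ^ 5 + 7 * 6783 * a ^ 7 * b ^ 4 + 7 * 399 * a ^ 8 * b ^ 3
    + 7 * 21 * a ^ 9 * b ^ 2 + 7 * a ^ 10 * b + a ^ 11

/-- upper value for `pK 10 16 (a / b)`, scale `Sc` -/
def JI (a b : ℤ) : ℤ := (Sc * 2 * pnum a b) / (7 * 13749310575 * b ^ 11) + 1

/-- numerator of the comparison polynomial `P0K 10 16` at `a / b` -/
def p0num (a b : ℤ) : ℤ :=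
  8 * 40874803200 * b ^ 11 + 8 * 10218700800 * a * b ^ 10 + 8 * 1703116800 * a ^ 2 * b ^ 9
    + 8 * 212889600 * a ^ 3 * b ^ 8 + 8 * 21288960 * a ^ 4 * b ^ 7 + 8 * 1774080 * a ^ 5 * b ^ 6
    + 8 * 126720 * a ^ 6 * b ^ 5 + 8 * 7920 * a ^ 7 * b ^ 4 + 8 * 440 * a ^ 8 * b ^ 3
    + 8 * 22 * a ^ 9 * b ^ 2 + 8 * a ^ 10 * b + a ^ 11

/-- upper value for `P0K 10 16 (a / b)`, scale `Sc` -/
def J0I (a b : ℤ) : ℤ := (Sc * p0num a b) / (8 * 81749606400 * b ^ 11) + 1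

/-- lower value for the second arm at `W ≥ Wa / 64`, `m ≤ i / 64`, scale `Sc * 128` -/
def BnI (k Wa : ℤ) (i : ℕ) : ℤ :=
  if Wa * (k - 1) - 64 * k ≤ 0 then 0
  else (Sc * 128 * (k - 1) * (Wa * (k - 1) - 64 * k) *
      (TL ((Wa * k * i + (Wa * (k - 1) - 64 * k) - 1) / (Wa * (k - 1) - 64 * k)).toNat : ℤ))
        / ((k - 2) * 64 * k * Dd)

/-- the small part of a table -/
structure Head where
  k : ℤ
  NL : ℕ
  xiI : ℤ
  alB : ℤ
  alE : ℤ
  Kh : ℤ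
  W1a : ℤ
  W1b : ℤ
  VaN : ℤ
  VaD : ℤ
  VbN : ℤ
  VbD : ℤ
  kapI : ℤ
  rows : List (ℤ × ℤ)

/-- the multiplier lists of a table -/
structure Data where
  lam : List ℤ
  kap : List ℤ
  eta : List ℤ
  tails : List ℤ

section check

variable (h : Head) (d : Data)

/-- the half weight of a layer, scale `Sc * 64` -/
def piH (q : ℕ) : ℤ :=
  h.k * 64 * d.lam.getD q 0 + (h.k * 64 - h.W1b) * (d.kap.getD q 0 + d.eta.getD q 0)

/-- the tail list is correct -/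
def tailsOK : Bool :=
  (List.range h.NL).all (fun q => decide (d.tails.getD q 0 = 2 * piH h d q + d.tails.getD (q + 1) 0))
    && decide (d.tails.getD h.NL 0 = 0)

/-- the two sublayers of layer `q` -/
def layOK (Wa Wb al : ℤ) (q : ℕ) (c : ℤ) : Bool :=
  boxOK h.k Wa Wb (EL (2 * q + 3)) (EH (2 * q + 2)) (RH (2 * q + 2)) c
      (d.tails.getD (q + 1) 0 + piH h d q + BnI h.k Wa (2 * q + 3)) h.xiI al &&
  boxOK h.k Wa Wb (EL (2 * q + 4)) (EH (2 * q + 3)) (RH (2 * q + 3)) c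
      (d.tails.getD (q + 1) 0 + BnI h.k Wa (2 * q + 4)) h.xiI al

/-- bottom and top checks of one class -/
def endsOK (Wa Wb al : ℤ) : Bool :=
  boxOK h.k Wa Wb (EL 2) Dd Dd 0 (d.tails.getD 0 0 + BnI h.k Wa 2) h.xiI al &&
  boxOK h.k Wa Wb Dd Dd (RH (2 * h.NL + 2)) 0 0 h.xiI al

/-- the layer value of a row -/
def rowC (Wb : ℤ) (q : ℕ) : ℤ :=
  (d.lam.getD q 0 + d.kap.getD q 0 + d.eta.getD q 0) * ((q : ℤ) + 2) *
    JI (((q : ℤ) + 2) ^ 2 * Wb ^ 2) (1024 * (h.kapI * 4096 - (Wb - 64) ^ 2))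

/-- the check of one row -/
def rowOK (r : ℤ × ℤ) : Bool :=
  decide (0 < r.1) && decide (r.1 ≤ r.2) && decide (64 ≤ r.2) && decide (r.2 ≤ 128) &&
  decide (0 < h.kapI * 4096 - (r.2 - 64) ^ 2) &&
  endsOK h d r.1 r.2 h.alB &&
  (List.range h.NL).all (fun q =>
    decide (((q : ℤ) + 2) ^ 2 * r.2 ^ 2 ≤ 16 * (1024 * (h.kapI * 4096 - (r.2 - 64) ^ 2))) &&
    layOK h d r.1 r.2 h.alB q (rowC h d r.2 q))

/-- the layer value of the exceptional cell -/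
def cellC (q : ℕ) : ℤ :=
  (if d.lam.getD q 0 = 0 ∧ d.eta.getD q 0 = 0 then 0
   else ((q : ℤ) + 2) *
     (d.lam.getD q 0 * JI (((q : ℤ) + 2) ^ 2 * h.VaD) (1024 * h.VaN)
       + d.eta.getD q 0 * J0I (((q : ℤ) + 2) ^ 2 * h.VaD) (1024 * h.VaN)))
  - (d.kap.getD q 0 * h.VaN * 1024 * Sc) / (h.VaD * ((q : ℤ) + 2))

/-- the check of the exceptional cell -/
def cellOK : Bool :=
  decide (0 < h.W1a) && decide (h.W1a ≤ h.W1b) && decide (0 < h.VaD) && decide (0 ≤ h.VaN) &&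
  endsOK h d h.W1a h.W1b h.alE &&
  (List.range h.NL).all (fun q =>
    ((decide (d.lam.getD q 0 = 0) && decide (d.eta.getD q 0 = 0)) ||
      (decide (0 < h.VaN) && decide (((q : ℤ) + 2) ^ 2 * h.VaD ≤ 16 * (1024 * h.VaN)))) &&
    layOK h d h.W1a h.W1b h.alE q (cellC h d q))

/-- the rows cover the interval from `lo` to `hi` -/
def chainOK : List (ℤ × ℤ) → ℤ → ℤ → Bool
  | [], lo, hi => decide (hi ≤ lo)
  | r :: rs, lo, hi => decide (r.1 ≤ lo) && chainOK rs r.2 hi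

/-- the whole check of a table -/
def checkT : Bool :=
  decide (h.k = 5) && decide (h.NL = 67) && decide (h.kapI = 12) &&
  decide (h.W1b ≤ 128) && decide (64 ≤ h.W1a) &&
  d.lam.all (fun x => decide (0 ≤ x)) && d.kap.all (fun x => decide (0 ≤ x)) &&
  d.eta.all (fun x => decide (0 ≤ x)) && decide (0 ≤ h.Kh) &&
  tailsOK h d &&
  chainOK h.rows 64 (192 - h.W1a) &&
  (List.range h.NL).all (fun q =>
    decide (d.kap.getD q 0 * 1024 * Dd ≤ h.Kh * (EL (2 * q + 4) : ℤ) * ((q : ℤ) + 2))) &&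
  decide (0 < h.VbD) &&
  decide ((h.alE + (h.k - 2) * h.alB) * h.k * 4096 * h.VbD + 2 * h.Kh * h.W1b ^ 2 * h.VbN
    ≤ Sc * h.k * 4096 * h.VbD) &&
  h.rows.all (rowOK h d) && cellOK h d

end check

end Vale.Agent.P226h19
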