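import Vale.Agent.P226h6.Mills

/-! T4: comparison bound for the central Gaussian mass: `1 - 2 Q(x) ≤ x ph(x) p(x²)`. -/

open Real Set

namespace Vale.Agent.P226h19

open Vale.Agent.P226h14 Vale.Agent.P226h6

lemma Qf_zero : Qf 0 = 1 / 2 := by
  rw [Qf_eq]
  have h : ∀ r : ℝ, ph r = (√(2 * π))⁻¹ * Real.exp (-(1 / 2) * r ^ 2) := by
    intro r
    unfold ph
    congr 2
    ring
  simp_rw [h]
  rw [MeasureTheory.integral_const_mul, integral_gaussian_Ioi]
  have h2 : π / (1 / 2) = 2 * π := by ring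
  rw [h2]
  have hp : 0 < √(2 * π) := by positivity
  field_simp

/-- the comparison bound for any differentiable `p` with `(1-s) p(s) + 2 s p'(s) ≥ 2` on `[0, smax]`. -/
theorem jbound_of_ineq (p p' : ℝ → ℝ) {smax : ℝ}
    (hd : ∀ s, HasDerivAt p (p' s) s)
    (hode : ∀ s, 0 ≤ s → s ≤ smax → 2 ≤ (1 - s) * p s + 2 * s * p' s)
    {x : ℝ} (hx : 0 ≤ x) (hxs : x ^ 2 ≤ smax) :
    1 - 2 * Qf x ≤ x * ph x * p (x ^ 2) := by
  -- g(u) = u ph(u) p(u²) - (1 - 2 Q(u))
  set g : ℝ → ℝ := fun u => u * ph u * p (u ^ 2) - (1 - 2 * Qf u) with hg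
  have hgd : ∀ u, HasDerivAt g
      (ph u * ((1 - u ^ 2) * p (u ^ 2) + 2 * u ^ 2 * p' (u ^ 2) - 2)) u := by
    intro u
    have h1 : HasDerivAt (fun w : ℝ => w ^ 2) (2 * u) u := by
      have := hasDerivAt_pow 2 u
      simpa using this
    have h2 : HasDerivAt (fun w : ℝ => p (w ^ 2)) (p' (u ^ 2) * (2 * u)) u :=
      (hd (u ^ 2)).comp u h1
    have h3 : HasDerivAt (fun w : ℝ => w * ph w) (1 * ph u + u * (-(u * ph u))) u :=
      (hasDerivAt_id u).mul (hasDerivAt_ph u)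
    have h4 := (h3.mul h2).sub (((hasDerivAt_Qf u).const_mul 2).const_sub 1)
    refine h4.congr_deriv ?_
    ring
  have hmono : MonotoneOn g (Icc 0 x) := by
    apply monotoneOn_of_deriv_nonneg (convex_Icc 0 x)
    · exact fun u _ => (hgd u).continuousAt.continuousWithinAt
    · exact fun u _ => (hgd u).differentiableAt.differentiableWithinAt
    · intro u hu
      rw [interior_Icc] at hu
      rw [(hgd u).deriv]
      have hu2 : u ^ 2 ≤ smax := by
        have : u ^ 2 ≤ x ^ 2 := by nlinarith [hu.1, hu.2]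
        linarith
      have := hode (u ^ 2) (by positivity) hu2
      have hp := ph_pos u
      apply mul_nonneg hp.le
      linarith
  have h0 : g 0 = 0 := by
    simp [hg, Qf_zero]
  have := hmono (left_mem_Icc.mpr hx) (right_mem_Icc.mpr hx) hx
  rw [h0] at this
  have h5 : g x = x * ph x * p (x ^ 2) - (1 - 2 * Qf x) := rfl
  linarith

/-- the explicit family: partial sum of the series for `1 - 2 Q` plus a geometric tail term -/
noncomputable def pK (K : ℕ) (smax s : ℝ) : ℝ :=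
  2 * (∑ q ∈ Finset.range (K + 1), s ^ q / (Nat.doubleFactorial (2 * q + 1) : ℝ))
    + 2 * s ^ (K + 1) / ((Nat.doubleFactorial (2 * K + 1) : ℝ) * (2 * K + 3 - smax))

/-- derivative of the family -/
noncomputable def pK' (K : ℕ) (smax s : ℝ) : ℝ :=
  2 * (∑ q ∈ Finset.range (K + 1), (q : ℝ) * s ^ (q - 1) / (Nat.doubleFactorial (2 * q + 1) : ℝ))
    + 2 * (((K + 1 : ℕ) : ℝ) * s ^ K) / ((Nat.doubleFactorial (2 * K + 1) : ℝ) * (2 * K + 3 - smax))

lemma hasDerivAt_pK (K : ℕ) (smax s : ℝ) : HasDerivAt (pK K smax) (pK' K smax s) s := by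
  unfold pK pK'
  have h1 : HasDerivAt (fun w : ℝ => ∑ q ∈ Finset.range (K + 1),
      w ^ q / (Nat.doubleFactorial (2 * q + 1) : ℝ))
      (∑ q ∈ Finset.range (K + 1), (q : ℝ) * s ^ (q - 1) / (Nat.doubleFactorial (2 * q + 1) : ℝ)) s := by
    apply HasDerivAt.fun_sum
    intro q _
    exact (hasDerivAt_pow q s).div_const _
  have h2 : HasDerivAt (fun w : ℝ => 2 * w ^ (K + 1))
      (2 * (((K + 1 : ℕ) : ℝ) * s ^ K)) s := by
    have := (hasDerivAt_pow (K + 1) s).const_mul 2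
    simpa using this
  exact (h1.const_mul 2).add (h2.div_const _)

/-- telescoping identity for the partial sum -/
lemma pK_tele (K : ℕ) (s : ℝ) :
    (1 - s) * (∑ q ∈ Finset.range (K + 1), s ^ q / (Nat.doubleFactorial (2 * q + 1) : ℝ))
      + 2 * s * (∑ q ∈ Finset.range (K + 1),
          (q : ℝ) * s ^ (q - 1) / (Nat.doubleFactorial (2 * q + 1) : ℝ))
      = 1 - s ^ (K + 1) / (Nat.doubleFactorial (2 * K + 1) : ℝ) := by
  induction K with
  | zero => simp [Nat.doubleFactorial]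
  | succ K ih =>
    rw [Finset.sum_range_succ, Finset.sum_range_succ (n := K + 1)]
    have hdf : (Nat.doubleFactorial (2 * (K + 1) + 1) : ℝ)
        = (2 * (K + 1) + 1 : ℝ) * (Nat.doubleFactorial (2 * K + 1) : ℝ) := by
      have : 2 * (K + 1) + 1 = (2 * K + 1) + 2 := by ring
      rw [this, Nat.doubleFactorial]
      push_cast
      ring
    have hpos : (0 : ℝ) < (Nat.doubleFactorial (2 * K + 1) : ℝ) := by
      exact_mod_cast Nat.doubleFactorial_pos _
    have hne : (2 * ((K : ℝ) + 1) + 1) ≠ 0 := by positivity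
    rw [hdf]
    set A := ∑ q ∈ Finset.range (K + 1), s ^ q / (Nat.doubleFactorial (2 * q + 1) : ℝ)
    set B := ∑ q ∈ Finset.range (K + 1),
      (q : ℝ) * s ^ (q - 1) / (Nat.doubleFactorial (2 * q + 1) : ℝ)
    set D := (Nat.doubleFactorial (2 * K + 1) : ℝ)
    have hs : s ^ (K + 1 - 1) = s ^ K := by simp
    rw [hs]
    have key : (1 - s) * (A + s ^ (K + 1) / ((2 * ((K : ℝ) + 1) + 1) * D))
        + 2 * s * (B + ((K + 1 : ℕ) : ℝ) * s ^ K / ((2 * ((K : ℝ) + 1) + 1) * D))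
        = ((1 - s) * A + 2 * s * B)
          + (1 - s) * (s ^ (K + 1) / ((2 * ((K : ℝ) + 1) + 1) * D))
          + 2 * s * (((K + 1 : ℕ) : ℝ) * s ^ K / ((2 * ((K : ℝ) + 1) + 1) * D)) := by ring
    rw [key, ih]
    push_cast
    field_simp
    ring

/-- the family satisfies the comparison inequality on `[0, smax]`. -/
lemma pK_ode (K : ℕ) {smax s : ℝ} (hsm : smax < 2 * K + 3) (hs0 : 0 ≤ s) (hs : s ≤ smax) :
    2 ≤ (1 - s) * pK K smax s + 2 * s * pK' K smax s := by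
  have htele := pK_tele K s
  have hdf : (0 : ℝ) < (Nat.doubleFactorial (2 * K + 1) : ℝ) := by
    exact_mod_cast Nat.doubleFactorial_pos _
  have hgap : (0 : ℝ) < 2 * K + 3 - smax := by linarith
  unfold pK pK'
  set A := ∑ q ∈ Finset.range (K + 1), s ^ q / (Nat.doubleFactorial (2 * q + 1) : ℝ)
  set B := ∑ q ∈ Finset.range (K + 1),
    (q : ℝ) * s ^ (q - 1) / (Nat.doubleFactorial (2 * q + 1) : ℝ)
  set D := (Nat.doubleFactorial (2 * K + 1) : ℝ)
  have hmain : (1 - s) * (2 * A + 2 * s ^ (K + 1) / (D * (2 * K + 3 - smax)))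
      + 2 * s * (2 * B + 2 * (((K + 1 : ℕ) : ℝ) * s ^ K) / (D * (2 * K + 3 - smax)))
      = 2 * ((1 - s) * A + 2 * s * B)
        + 2 * s ^ (K + 1) * (2 * K + 3 - s) / (D * (2 * K + 3 - smax)) := by
    push_cast
    field_simp
    ring
  rw [hmain, htele]
  have hpow : 0 ≤ s ^ (K + 1) := by positivity
  have hfrac : s ^ (K + 1) / D ≤ s ^ (K + 1) * (2 * K + 3 - s) / (D * (2 * K + 3 - smax)) := by
    rw [div_le_div_iff₀ hdf (by positivity)]
    have : (2 * K + 3 - smax) ≤ (2 * K + 3 - s) := by linarith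
    have h2 : s ^ (K + 1) * D * (2 * K + 3 - smax) ≤ s ^ (K + 1) * D * (2 * K + 3 - s) :=
      mul_le_mul_of_nonneg_left this (by positivity)
    nlinarith [h2]
  have e : 2 * s ^ (K + 1) * (2 * K + 3 - s) / (D * (2 * K + 3 - smax))
      = 2 * (s ^ (K + 1) * (2 * K + 3 - s) / (D * (2 * K + 3 - smax))) := by ring
  rw [e]
  linarith

/-- **T4.** The explicit family bound: for `0 ≤ x`, `x² ≤ smax < 2K+3`,
`1 - 2 Q(x) ≤ x ph(x) p_K(x²)`. -/
theorem jbound (K : ℕ) {smax x : ℝ} (hsm : smax < 2 * K + 3) (hx : 0 ≤ x) (hxs : x ^ 2 ≤ smax) :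
    1 - 2 * Qf x ≤ x * ph x * pK K smax (x ^ 2) :=
  jbound_of_ineq (pK K smax) (pK' K smax) (hasDerivAt_pK K smax)
    (fun _ hs0 hs => pK_ode K hsm hs0 hs) hx hxs

end Vale.Agent.P226h19
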