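import Vale.Agent.P226h19.JBound

/-! P2a: comparison bound for the central density gap: `ph 0 - ph x ≤ ph x · x² · P(x²)`. -/

open Real Set

namespace Vale.Agent.P226h19

open Vale.Agent.P226h14 Vale.Agent.P226h6

/-- the comparison bound for any differentiable `P` with `(2-s) P(s) + 2 s P'(s) ≥ 1` on `[0, smax]`. -/
theorem jbound0_of_ineq (P P' : ℝ → ℝ) {smax : ℝ}
    (hd : ∀ s, HasDerivAt P (P' s) s)
    (hode : ∀ s, 0 ≤ s → s ≤ smax → 1 ≤ (2 - s) * P s + 2 * s * P' s)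
    {x : ℝ} (hx : 0 ≤ x) (hxs : x ^ 2 ≤ smax) :
    ph 0 - ph x ≤ ph x * x ^ 2 * P (x ^ 2) := by
  set g : ℝ → ℝ := fun u => ph u * u ^ 2 * P (u ^ 2) + ph u - ph 0 with hg
  have hgd : ∀ u, HasDerivAt g
      (ph u * u * ((2 - u ^ 2) * P (u ^ 2) + 2 * u ^ 2 * P' (u ^ 2) - 1)) u := by
    intro u
    have h1 : HasDerivAt (fun w : ℝ => w ^ 2) (2 * u) u := by
      have := hasDerivAt_pow 2 u
      simpa using this
    have h2 : HasDerivAt (fun w : ℝ => P (w ^ 2)) (P' (u ^ 2) * (2 * u)) u :=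
      (hd (u ^ 2)).comp u h1
    have h3 : HasDerivAt (fun w : ℝ => ph w * w ^ 2) (-(u * ph u) * u ^ 2 + ph u * (2 * u)) u :=
      (hasDerivAt_ph u).mul h1
    have h4 := ((h3.mul h2).add (hasDerivAt_ph u)).sub_const (ph 0)
    refine h4.congr_deriv ?_
    ring
  have hmono : MonotoneOn g (Icc 0 x) := by
    apply monotoneOn_of_deriv_nonneg (convex_Icc 0 x)
    · exact fun u _ => (hgd u).continuousAt.continuousWithinAt
    · exact fun u _ => (hgd u).differentiableAt.differentiableWithinAt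
    · intro u hu
      rw [interior_Icc] at hu
      rw [(hgd u).deriv]
      have hu2 : u ^ 2 ≤ smax := by
        have : u ^ 2 ≤ x ^ 2 := by nlinarith [hu.1, hu.2]
        linarith
      have := hode (u ^ 2) (by positivity) hu2
      have hp := ph_pos u
      apply mul_nonneg (mul_nonneg hp.le hu.1.le)
      linarith
  have h0 : g 0 = 0 := by
    simp [hg]
  have := hmono (left_mem_Icc.mpr hx) (right_mem_Icc.mpr hx) hx
  rw [h0] at this
  have h5 : g x = ph x * x ^ 2 * P (x ^ 2) + ph x - ph 0 := rfl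
  linarith

/-- the coefficient `1 / (2^(p+1) (p+1)!)` -/
noncomputable def c0K (p : ℕ) : ℝ := 1 / (2 ^ (p + 1) * (Nat.factorial (p + 1) : ℝ))

/-- the explicit family `P0K` -/
noncomputable def P0K (K : ℕ) (smax s : ℝ) : ℝ :=
  (∑ p ∈ Finset.range (K + 1), c0K p * s ^ p) + c0K K / (2 * K + 4 - smax) * s ^ (K + 1)

/-- derivative of the family -/
noncomputable def P0K' (K : ℕ) (smax s : ℝ) : ℝ :=
  (∑ p ∈ Finset.range (K + 1), c0K p * ((p : ℝ) * s ^ (p - 1)))
    + c0K K / (2 * K + 4 - smax) * (((K + 1 : ℕ) : ℝ) * s ^ K)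

lemma hasDerivAt_P0K (K : ℕ) (smax s : ℝ) : HasDerivAt (P0K K smax) (P0K' K smax s) s := by
  unfold P0K P0K'
  have h1 : HasDerivAt (fun w : ℝ => ∑ p ∈ Finset.range (K + 1), c0K p * w ^ p)
      (∑ p ∈ Finset.range (K + 1), c0K p * ((p : ℝ) * s ^ (p - 1))) s := by
    apply HasDerivAt.fun_sum
    intro p _
    exact (hasDerivAt_pow p s).const_mul _
  have h2 : HasDerivAt (fun w : ℝ => c0K K / (2 * K + 4 - smax) * w ^ (K + 1))
      (c0K K / (2 * K + 4 - smax) * (((K + 1 : ℕ) : ℝ) * s ^ K)) s := by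
    have := (hasDerivAt_pow (K + 1) s).const_mul (c0K K / (2 * K + 4 - smax))
    simpa using this
  exact h1.add h2

lemma c0K_succ (p : ℕ) : c0K (p + 1) * (2 * ((p : ℝ) + 1) + 2) = c0K p := by
  unfold c0K
  have hf : (Nat.factorial (p + 1 + 1) : ℝ) = ((p : ℝ) + 2) * (Nat.factorial (p + 1) : ℝ) := by
    rw [Nat.factorial_succ (p + 1)]
    push_cast
    ring
  rw [hf, pow_succ 2 (p + 1)]
  have hp : (0 : ℝ) < (Nat.factorial (p + 1) : ℝ) := by exact_mod_cast Nat.factorial_pos _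
  have h2 : (p : ℝ) + 2 ≠ 0 := by positivity
  field_simp
  ring

/-- telescoping identity -/
lemma P0K_tele (K : ℕ) (s : ℝ) :
    (2 - s) * (∑ p ∈ Finset.range (K + 1), c0K p * s ^ p)
      + 2 * s * (∑ p ∈ Finset.range (K + 1), c0K p * ((p : ℝ) * s ^ (p - 1)))
      = 1 - c0K K * s ^ (K + 1) := by
  induction K with
  | zero =>
    simp [c0K]
    ring
  | succ K ih =>
    rw [Finset.sum_range_succ, Finset.sum_range_succ (n := K + 1)]
    have hs : s ^ (K + 1 - 1) = s ^ K := by simp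
    have e1 := c0K_succ K
    have key : (2 - s) * ((∑ p ∈ Finset.range (K + 1), c0K p * s ^ p) + c0K (K + 1) * s ^ (K + 1))
        + 2 * s * ((∑ p ∈ Finset.range (K + 1), c0K p * ((p : ℝ) * s ^ (p - 1)))
          + c0K (K + 1) * (((K + 1 : ℕ) : ℝ) * s ^ (K + 1 - 1)))
        = ((2 - s) * (∑ p ∈ Finset.range (K + 1), c0K p * s ^ p)
            + 2 * s * (∑ p ∈ Finset.range (K + 1), c0K p * ((p : ℝ) * s ^ (p - 1))))
          + (2 - s) * (c0K (K + 1) * s ^ (K + 1))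
          + 2 * s * (c0K (K + 1) * (((K + 1 : ℕ) : ℝ) * s ^ (K + 1 - 1))) := by ring
    rw [key, ih, hs, ← e1]
    push_cast
    ring

/-- the family satisfies the comparison inequality on `[0, smax]`. -/
lemma P0K_ode (K : ℕ) {smax s : ℝ} (hsm : smax < 2 * K + 4) (hs0 : 0 ≤ s) (hs : s ≤ smax) :
    1 ≤ (2 - s) * P0K K smax s + 2 * s * P0K' K smax s := by
  have htele := P0K_tele K s
  have hc : 0 < c0K K := by
    unfold c0K
    have : (0 : ℝ) < (Nat.factorial (K + 1) : ℝ) := by exact_mod_cast Nat.factorial_pos _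
    positivity
  have hgap : (0 : ℝ) < 2 * K + 4 - smax := by linarith
  unfold P0K P0K'
  set A := ∑ p ∈ Finset.range (K + 1), c0K p * s ^ p
  set B := ∑ p ∈ Finset.range (K + 1), c0K p * ((p : ℝ) * s ^ (p - 1))
  set G := 2 * (K : ℝ) + 4 - smax with hG
  have hmain : (2 - s) * (A + c0K K / G * s ^ (K + 1))
      + 2 * s * (B + c0K K / G * (((K + 1 : ℕ) : ℝ) * s ^ K))
      = ((2 - s) * A + 2 * s * B) + c0K K / G * s ^ (K + 1) * (2 * K + 4 - s) := by
    push_cast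
    ring
  rw [hmain, htele]
  have hpow : 0 ≤ s ^ (K + 1) := by positivity
  have hfrac : c0K K * s ^ (K + 1) ≤ c0K K / G * s ^ (K + 1) * (2 * K + 4 - s) := by
    have h1 : G ≤ 2 * K + 4 - s := by rw [hG]; linarith
    have h2 : c0K K * s ^ (K + 1) = c0K K / G * s ^ (K + 1) * G := by
      field_simp
    rw [h2]
    exact mul_le_mul_of_nonneg_left h1 (by positivity)
  linarith

/-- **P2a.** For `0 ≤ x`, `x² ≤ smax < 2K+4`: `ph 0 - ph x ≤ ph x · x² · P0K(x²)`. -/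
theorem jbound0 (K : ℕ) {smax x : ℝ} (hsm : smax < 2 * K + 4) (hx : 0 ≤ x) (hxs : x ^ 2 ≤ smax) :
    ph 0 - ph x ≤ ph x * x ^ 2 * P0K K smax (x ^ 2) :=
  jbound0_of_ineq (P0K K smax) (P0K' K smax) (hasDerivAt_P0K K smax)
    (fun _ hs0 hs => P0K_ode K hsm hs0 hs) hx hxs

end Vale.Agent.P226h19
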