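import Vale.Agent.P226h19.CertDefs
import Vale.Agent.P226h19.JBound
import Vale.Agent.P226h19.JBound0

/-! Module C: comparison of the real functions `pK`, `P0K`, `bonT` with their integer values. -/

open Real Set Filter Topology

namespace Vale.Agent.P226h19

open Vale.Agent.P226h14
open Vale.Agent.P226h6

lemma Sc_real : (Sc : ℝ) = 10 ^ 10 := by
  norm_num [Sc]

lemma Dd_real : (Dd : ℝ) = 10 ^ 12 := by
  norm_num [Dd]

lemma D_real : ((D : ℕ) : ℝ) = 10 ^ 12 := by
  norm_num [D]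

/-- explicit form of `pK 10 16` -/
lemma pK_explicit (s : ℝ) : pK 10 16 s = 2 * (1 + s / 3 + s ^ 2 / 15 + s ^ 3 / 105 + s ^ 4 / 945 +
    s ^ 5 / 10395 + s ^ 6 / 135135 + s ^ 7 / 2027025 + s ^ 8 / 34459425 + s ^ 9 / 654729075 +
    s ^ 10 / 13749310575) + 2 * s ^ 11 / (13749310575 * 7) := by
  unfold pK
  simp only [Finset.sum_range_succ, Finset.sum_range_zero]
  have e : ∀ n : ℕ, Nat.doubleFactorial (n + 2) = (n + 2) * Nat.doubleFactorial n := fun n => rfl
  norm_num [Nat.doubleFactorial]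

/-- explicit form of `P0K 10 16` -/
lemma P0K_explicit (s : ℝ) : P0K 10 16 s = 1 / 2 + s / 8 + s ^ 2 / 48 + s ^ 3 / 384 + s ^ 4 / 3840 +
    s ^ 5 / 46080 + s ^ 6 / 645120 + s ^ 7 / 10321920 + s ^ 8 / 185794560 + s ^ 9 / 3715891200 +
    s ^ 10 / 81749606400 + s ^ 11 / (81749606400 * 8) := by
  unfold P0K c0K
  simp only [Finset.sum_range_succ, Finset.sum_range_zero]
  norm_num [Nat.factorial]
  ring

/-- the floor plus one dominates -/
lemma ediv_add_one_ge (n d : ℤ) (hd : 0 < d) : (n : ℝ) / (d : ℝ) ≤ ((n / d + 1 : ℤ) : ℝ) := by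
  have h := Int.lt_ediv_add_one_mul_self n hd
  have h2 : (n : ℝ) < ((n / d + 1 : ℤ) : ℝ) * (d : ℝ) := by exact_mod_cast h
  have hd' : (0 : ℝ) < (d : ℝ) := by exact_mod_cast hd
  rw [div_le_iff₀ hd']
  exact h2.le

theorem pK_le_JI {a b : ℤ} (ha : 0 ≤ a) (hb : 0 < b) {s : ℝ} (hs0 : 0 ≤ s)
    (hs : s ≤ (a : ℝ) / (b : ℝ)) : pK 10 16 s ≤ (JI a b : ℝ) / (Sc : ℝ) := by
  have hb' : (0 : ℝ) < (b : ℝ) := by exact_mod_cast hb
  set x : ℝ := (a : ℝ) / (b : ℝ) with hx
  have hmono : pK 10 16 s ≤ pK 10 16 x := by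
    rw [pK_explicit, pK_explicit]
    have p2 := pow_le_pow_left₀ hs0 hs 2
    have p3 := pow_le_pow_left₀ hs0 hs 3
    have p4 := pow_le_pow_left₀ hs0 hs 4
    have p5 := pow_le_pow_left₀ hs0 hs 5
    have p6 := pow_le_pow_left₀ hs0 hs 6
    have p7 := pow_le_pow_left₀ hs0 hs 7
    have p8 := pow_le_pow_left₀ hs0 hs 8
    have p9 := pow_le_pow_left₀ hs0 hs 9
    have p10 := pow_le_pow_left₀ hs0 hs 10
    have p11 := pow_le_pow_left₀ hs0 hs 11
    linarith
  have hval : pK 10 16 x = (2 * (pnum a b : ℝ)) / (7 * 13749310575 * (b : ℝ) ^ 11) := by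
    rw [pK_explicit, hx]
    unfold pnum
    push_cast
    field_simp
    ring
  have hfloor := ediv_add_one_ge (Sc * 2 * pnum a b) (7 * 13749310575 * b ^ 11) (by positivity)
  have hJ : (JI a b : ℝ) = ((Sc * 2 * pnum a b / (7 * 13749310575 * b ^ 11) + 1 : ℤ) : ℝ) := rfl
  refine hmono.trans ?_
  rw [hval, le_div_iff₀ (by rw [Sc_real]; positivity), hJ]
  refine le_trans (le_of_eq ?_) hfloor
  push_cast
  rw [Sc_real]
  field_simp
  ring

theorem P0K_le_J0I {a b : ℤ} (ha : 0 ≤ a) (hb : 0 < b) {s : ℝ} (hs0 : 0 ≤ s)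
    (hs : s ≤ (a : ℝ) / (b : ℝ)) : P0K 10 16 s ≤ (J0I a b : ℝ) / (Sc : ℝ) := by
  have hb' : (0 : ℝ) < (b : ℝ) := by exact_mod_cast hb
  set x : ℝ := (a : ℝ) / (b : ℝ) with hx
  have hmono : P0K 10 16 s ≤ P0K 10 16 x := by
    rw [P0K_explicit, P0K_explicit]
    have p2 := pow_le_pow_left₀ hs0 hs 2
    have p3 := pow_le_pow_left₀ hs0 hs 3
    have p4 := pow_le_pow_left₀ hs0 hs 4
    have p5 := pow_le_pow_left₀ hs0 hs 5
    have p6 := pow_le_pow_left₀ hs0 hs 6
    have p7 := pow_le_pow_left₀ hs0 hs 7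
    have p8 := pow_le_pow_left₀ hs0 hs 8
    have p9 := pow_le_pow_left₀ hs0 hs 9
    have p10 := pow_le_pow_left₀ hs0 hs 10
    have p11 := pow_le_pow_left₀ hs0 hs 11
    linarith
  have hval : P0K 10 16 x = (p0num a b : ℝ) / (8 * 81749606400 * (b : ℝ) ^ 11) := by
    rw [P0K_explicit, hx]
    unfold p0num
    push_cast
    field_simp
    ring
  have hfloor := ediv_add_one_ge (Sc * p0num a b) (8 * 81749606400 * b ^ 11) (by positivity)
  have hJ : (J0I a b : ℝ) = ((Sc * p0num a b / (8 * 81749606400 * b ^ 11) + 1 : ℤ) : ℝ) := rfl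
  refine hmono.trans ?_
  rw [hval, le_div_iff₀ (by rw [Sc_real]; positivity), hJ]
  refine le_trans (le_of_eq ?_) hfloor
  push_cast
  rw [Sc_real]
  field_simp
  ring

/-- the second arm term, `N` the number of facets -/
noncomputable def bonT (N W m : ℝ) : ℝ :=
  (N / (N - 1)) * max (W * N / (N + 1) - 1) 0 * Tf ((W / (W * N / (N + 1) - 1)) * m)

theorem bonT_nonneg {N : ℝ} (hN : 1 < N) (W m : ℝ) : 0 ≤ bonT N W m := by
  unfold bonT
  have h1 : 0 ≤ N / (N - 1) := div_nonneg (by linarith) (by linarith)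
  exact mul_nonneg (mul_nonneg h1 (le_max_right _ _)) (Tf_nonneg _)

lemma Tf_antitone : Antitone Tf := by
  apply antitone_of_deriv_nonpos
  · exact fun u => (hasDerivAt_Tf u).differentiableAt
  · intro u
    rw [(hasDerivAt_Tf u).deriv]
    linarith [Qf_nonneg u]

lemma TL_gt (i : ℕ) (hi : 400 < i) : TL i = 0 := by
  unfold TL
  have hlen : TLT.length ≤ i := by
    have : TLT.length = 401 := by decide +kernel
    omega
  rw [List.getD_eq_default _ _ hlen]

theorem bonT_ge {k Wa : ℤ} {i : ℕ} (hk : 3 ≤ k) (hWa : 0 < Wa) {W m : ℝ}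
    (hW : (Wa : ℝ) / 64 ≤ W) (hm0 : 0 ≤ m) (hm : m ≤ (i : ℝ) / 64) :
    ph 0 * ((BnI k Wa i : ℝ) / ((Sc : ℝ) * 128)) ≤ bonT ((k : ℝ) - 1) W m := by
  have hk' : (3 : ℝ) ≤ (k : ℝ) := by exact_mod_cast hk
  have hWa' : (0 : ℝ) < (Wa : ℝ) := by exact_mod_cast hWa
  have hN1 : (1 : ℝ) < (k : ℝ) - 1 := by linarith
  unfold BnI
  set d : ℤ := Wa * (k - 1) - 64 * k with hd
  by_cases hd0 : d ≤ 0
  · rw [if_pos hd0]
    simp only [Int.cast_zero, zero_div, mul_zero]
    exact bonT_nonneg hN1 W m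
  · rw [if_neg hd0]
    push Not at hd0
    have hdr : (0 : ℝ) < (d : ℝ) := by exact_mod_cast hd0
    have hdval : (d : ℝ) = (Wa : ℝ) * ((k : ℝ) - 1) - 64 * (k : ℝ) := by
      rw [hd]
      push_cast
      ring
    have hk0 : (0 : ℝ) < (k : ℝ) := by linarith
    unfold bonT
    have e1 : (k : ℝ) - 1 + 1 = (k : ℝ) := by ring
    have e2 : (k : ℝ) - 1 - 1 = (k : ℝ) - 2 := by ring
    rw [e1, e2]
    set b : ℝ := W * ((k : ℝ) - 1) / (k : ℝ) - 1 with hb
    have hW0 : 0 < W := lt_of_lt_of_le (by positivity) hW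
    have hbge : (d : ℝ) / (64 * (k : ℝ)) ≤ b := by
      rw [hb, hdval, div_le_iff₀ (by positivity)]
      have e3 : (W * ((k : ℝ) - 1) / (k : ℝ) - 1) * (64 * (k : ℝ)) = 64 * W * ((k : ℝ) - 1) - 64 * (k : ℝ) := by
        field_simp
      rw [e3]
      have h4 : (Wa : ℝ) ≤ 64 * W := by
        have := hW
        rw [div_le_iff₀ (by norm_num)] at this
        linarith
      have h5 : (0 : ℝ) ≤ (k : ℝ) - 1 := by linarith
      nlinarith
    have hb0 : 0 < b := lt_of_lt_of_le (by positivity) hbge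
    rw [max_eq_left hb0.le]
    -- the index
    set idx : ℤ := (Wa * k * (i : ℤ) + d - 1) / d with hidx
    have hnum0 : 0 ≤ Wa * k * (i : ℤ) + d - 1 := by
      have h1 : 0 ≤ Wa * k * (i : ℤ) := by positivity
      omega
    have hidx0 : 0 ≤ idx := Int.ediv_nonneg hnum0 hd0.le
    have hidxle : Wa * k * (i : ℤ) ≤ idx * d := by
      have h := Int.lt_ediv_add_one_mul_self (Wa * k * (i : ℤ) + d - 1) hd0
      rw [← hidx] at h
      have h2 : Wa * k * (i : ℤ) + d - 1 < idx * d + d := by linarith [h]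
      omega
    have hcast : ((idx.toNat : ℕ) : ℝ) = (idx : ℝ) := by
      have := Int.toNat_of_nonneg hidx0
      exact_mod_cast this
    -- the argument of Tf
    have harg : (W / b) * m ≤ ((idx.toNat : ℕ) : ℝ) / 64 := by
      rw [hcast]
      have h1 : W / b ≤ (Wa : ℝ) * (k : ℝ) / (d : ℝ) := by
        rw [div_le_div_iff₀ hb0 hdr, hb, hdval]
        have h4 : (Wa : ℝ) ≤ 64 * W := by
          have := hW
          rw [div_le_iff₀ (by norm_num)] at this
          linarith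
        have e5 : (Wa : ℝ) * (k : ℝ) * (W * ((k : ℝ) - 1) / (k : ℝ) - 1) =
            (Wa : ℝ) * (W * ((k : ℝ) - 1)) - (Wa : ℝ) * (k : ℝ) := by
          field_simp
        rw [e5]
        nlinarith
      have h2 : (W / b) * m ≤ ((Wa : ℝ) * (k : ℝ) / (d : ℝ)) * ((i : ℝ) / 64) := by
        have h3 : (W / b) * m ≤ ((Wa : ℝ) * (k : ℝ) / (d : ℝ)) * m :=
          mul_le_mul_of_nonneg_right h1 hm0
        refine h3.trans ?_
        exact mul_le_mul_of_nonneg_left hm (by positivity)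
      refine h2.trans ?_
      have h5 : (Wa : ℝ) * (k : ℝ) * (i : ℝ) ≤ (idx : ℝ) * (d : ℝ) := by exact_mod_cast hidxle
      rw [div_mul_div_comm, div_le_div_iff₀ (by positivity) (by norm_num)]
      nlinarith
    have hTf : ph 0 * ((TL idx.toNat : ℝ) / D) ≤ Tf ((W / b) * m) := by
      by_cases hi400 : idx.toNat ≤ 400
      · exact (TL_le_Tf hi400).trans (Tf_antitone harg)
      · rw [TL_gt _ (not_le.1 hi400)]
        simp only [Nat.cast_zero, zero_div, mul_zero]
        exact Tf_nonneg _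
    -- the floor
    set num : ℤ := Sc * 128 * (k - 1) * d * (TL idx.toNat : ℤ) with hnum
    set den : ℤ := (k - 2) * 64 * k * Dd with hden
    have hden0 : 0 < den := by
      rw [hden]
      have h1 : 0 < k - 2 := by omega
      have h2 : 0 < k := by omega
      have h3 : 0 < Dd := by norm_num [Dd]
      positivity
    have hfl : ((num / den : ℤ) : ℝ) ≤ (num : ℝ) / (den : ℝ) := by
      have hden' : (0 : ℝ) < (den : ℝ) := by exact_mod_cast hden0
      rw [le_div_iff₀ hden']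
      have := Int.ediv_mul_le num (ne_of_gt hden0)
      exact_mod_cast this
    have hph : 0 < ph 0 := ph_pos 0
    have hTL0 : (0 : ℝ) ≤ (TL idx.toNat : ℝ) := by positivity
    have hk2 : (0 : ℝ) < (k : ℝ) - 2 := by linarith
    have hfac : (0 : ℝ) ≤ ((k : ℝ) - 1) / ((k : ℝ) - 2) := div_nonneg (by linarith) hk2.le
    have hnumr : (num : ℝ) / (den : ℝ) / ((Sc : ℝ) * 128) =
        ((k : ℝ) - 1) / ((k : ℝ) - 2) * ((d : ℝ) / (64 * (k : ℝ))) * ((TL idx.toNat : ℝ) / D) := by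
      rw [hnum, hden]
      push_cast
      rw [Sc_real, Dd_real, D_real]
      field_simp
    calc ph 0 * (((num / den : ℤ) : ℝ) / ((Sc : ℝ) * 128))
        ≤ ph 0 * ((num : ℝ) / (den : ℝ) / ((Sc : ℝ) * 128)) := by
          apply mul_le_mul_of_nonneg_left _ hph.le
          apply div_le_div_of_nonneg_right hfl
          rw [Sc_real]
          positivity
      _ = ((k : ℝ) - 1) / ((k : ℝ) - 2) * ((d : ℝ) / (64 * (k : ℝ))) * (ph 0 * ((TL idx.toNat : ℝ) / D)) := by
          rw [hnumr]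
          ring
      _ ≤ ((k : ℝ) - 1) / ((k : ℝ) - 2) * b * (ph 0 * ((TL idx.toNat : ℝ) / D)) := by
          apply mul_le_mul_of_nonneg_right _ (by positivity)
          exact mul_le_mul_of_nonneg_left hbge hfac
      _ ≤ ((k : ℝ) - 1) / ((k : ℝ) - 2) * b * Tf ((W / b) * m) := by
          apply mul_le_mul_of_nonneg_left hTf
          exact mul_nonneg hfac hb0.le

end Vale.Agent.P226h19
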