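import Vale.Agent.P226h19.Defs

/-! T2: Gaussian integration by parts for the tent of the maximum. -/

open MeasureTheory ProbabilityTheory Real Set Filter Topology
open scoped RealInnerProductSpace ENNReal NNReal

namespace Vale.Agent.P226h19

open Vale.Agent.P226h14 Vale.Agent.P226h6

/-- the a.e. derivative of the tent -/
noncomputable def tentD (t T m : ℝ) : ℝ :=
  if t < m ∧ m ≤ T then -(1 / (T - t)) else 0

lemma measurable_tentD (t T : ℝ) : Measurable (tentD t T) := by
  unfold tentD
  apply Measurable.ite
  · exact (measurableSet_Ioi).inter measurableSet_Iic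
  · exact measurable_const
  · exact measurable_const

lemma tent_nonneg (t T m : ℝ) : 0 ≤ tent t T m := le_max_left _ _

lemma tent_le_one (t T m : ℝ) : tent t T m ≤ 1 :=
  max_le zero_le_one (min_le_left _ _)

lemma abs_tentD_le {t T : ℝ} (htT : t < T) (m : ℝ) : |tentD t T m| ≤ 1 / (T - t) := by
  have h : 0 < T - t := sub_pos.2 htT
  unfold tentD
  split_ifs
  · rw [abs_neg, abs_of_pos (by positivity)]
  · simp only [abs_zero]
    positivity

lemma tent_lip {t T : ℝ} (htT : t < T) (a b : ℝ) :
    |tent t T a - tent t T b| ≤ 1 / (T - t) * |a - b| := by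
  have h : 0 < T - t := sub_pos.2 htT
  have e : 1 / (T - t) * |a - b| = |(T - a) / (T - t) - (T - b) / (T - t)| := by
    have : (T - a) / (T - t) - (T - b) / (T - t) = (b - a) / (T - t) := by ring
    rw [this, abs_div, abs_of_pos h, abs_sub_comm b a]
    ring
  rw [e]
  unfold tent
  set x := (T - a) / (T - t)
  set y := (T - b) / (T - t)
  have h1 : |max 0 (min 1 x) - max 0 (min 1 y)| ≤ |min 1 x - min 1 y| := by
    have := abs_max_sub_max_le_max (0 : ℝ) (min 1 x) 0 (min 1 y)
    simpa using this
  have h2 : |min 1 x - min 1 y| ≤ |x - y| := by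
    have := abs_min_sub_min_le_max (1 : ℝ) x 1 y
    simpa using this
  exact h1.trans h2

lemma hasDerivAt_tent {t T m : ℝ} (htT : t < T) (h1 : m ≠ t) (h2 : m ≠ T) :
    HasDerivAt (tent t T) (tentD t T m) m := by
  have h : 0 < T - t := sub_pos.2 htT
  rcases lt_or_gt_of_ne h1 with hlt | hgt
  · -- below the plateau end
    have hD : tentD t T m = 0 := by
      unfold tentD
      rw [if_neg]
      intro hc
      linarith [hc.1]
    rw [hD]
    have hev : tent t T =ᶠ[𝓝 m] fun _ => (1 : ℝ) := by
      filter_upwards [gt_mem_nhds hlt] with m' hm'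
      unfold tent
      have h3 : 1 ≤ (T - m') / (T - t) := by
        rw [le_div_iff₀ h]
        linarith
      rw [min_eq_left h3]
      simp
    exact (hasDerivAt_const m (1 : ℝ)).congr_of_eventuallyEq hev
  · rcases lt_or_gt_of_ne h2 with hlt2 | hgt2
    · have hD : tentD t T m = -(1 / (T - t)) := by
        unfold tentD
        rw [if_pos ⟨hgt, hlt2.le⟩]
      rw [hD]
      have hev : tent t T =ᶠ[𝓝 m] fun m' => (T - m') / (T - t) := by
        filter_upwards [lt_mem_nhds hgt, gt_mem_nhds hlt2] with m' hm1 hm2
        unfold tent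
        have h3 : (T - m') / (T - t) ≤ 1 := by
          rw [div_le_iff₀ h]
          linarith
        have h4 : 0 ≤ (T - m') / (T - t) := by
          apply div_nonneg <;> linarith
        rw [min_eq_right h3, max_eq_right h4]
      have hd : HasDerivAt (fun m' : ℝ => (T - m') / (T - t)) (-(1 / (T - t))) m := by
        have := ((hasDerivAt_id m).const_sub T).div_const (T - t)
        refine this.congr_deriv ?_
        ring
      exact hd.congr_of_eventuallyEq hev
    · have hD : tentD t T m = 0 := by
        unfold tentD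
        rw [if_neg]
        intro hc
        linarith [hc.2]
      rw [hD]
      have hev : tent t T =ᶠ[𝓝 m] fun _ => (0 : ℝ) := by
        filter_upwards [lt_mem_nhds hgt2] with m' hm'
        unfold tent
        have h3 : (T - m') / (T - t) ≤ 0 := by
          apply div_nonpos_of_nonpos_of_nonneg <;> linarith
        have h5 : min 1 ((T - m') / (T - t)) ≤ 0 := (min_le_right _ _).trans h3
        rw [max_eq_left h5]
      exact (hasDerivAt_const m (0 : ℝ)).congr_of_eventuallyEq hev

lemma measurable_tent (t T : ℝ) : Measurable (tent t T) := by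
  unfold tent
  fun_prop

variable {E : Type*} [NormedAddCommGroup E] [InnerProductSpace ℝ E] [FiniteDimensional ℝ E]
  [MeasurableSpace E] [BorelSpace E]

/-- affine hyperplanes are Gaussian null sets -/
lemma hyperplane_null' {u : E} (hu : u ≠ 0) (c : ℝ) : stdGaussian E {y | ⟪u, y⟫ = c} = 0 := by
  set s : ℝ := ‖u‖ with hs
  have hs0 : 0 < s := norm_pos_iff.2 hu
  set n : E := s⁻¹ • u with hn
  have hn1 : ‖n‖ = 1 := by
    rw [hn, norm_smul, norm_inv, norm_norm, ← hs]
    field_simp
  have hun : ⟪u, n⟫ = s := by
    rw [hn, inner_smul_right, real_inner_self_eq_norm_sq, ← hs]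
    field_simp
  have hnx : ∀ x, ⟪n, x⟫ = s⁻¹ * ⟪u, x⟫ := by
    intro x
    rw [hn, inner_smul_left]
    simp
  have hm : MeasurableSet {y : E | ⟪u, y⟫ = c} :=
    measurableSet_eq_fun (measurable_inner_left u) measurable_const
  rw [measure_slice n hn1 hm]
  have hz : ∀ x : E, gaussianReal 0 1 {r | slice n (x, r) ∈ {y : E | ⟪u, y⟫ = c}} = 0 := by
    intro x
    have hsub : {r | slice n (x, r) ∈ {y : E | ⟪u, y⟫ = c}} ⊆ {c / s} := by
      intro r hr
      have h1 : ⟪u, slice n (x, r)⟫ = c := hr
      rw [inner_slice, hun, hnx] at h1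
      have h3 : (r - s⁻¹ * ⟪u, x⟫) * s = r * s - ⟪u, x⟫ := by
        field_simp
      rw [h3] at h1
      have h2 : r * s = c := by linarith
      show r = c / s
      rw [eq_div_iff hs0.ne', h2]
    have := nullSingletonClass_gaussianReal (μ := 0) (v := 1) one_ne_zero
    exact measure_mono_null hsub (measure_singleton _)
  rw [lintegral_congr hz]
  simp

variable {ι : Type*} [Fintype ι] [LinearOrder ι] [Nonempty ι]

omit [Nonempty ι] in
/-- the functionals miss a fixed nonzero level almost surely -/
lemma ae_no_level (v : ι → E) {c : ℝ} (hc : c ≠ 0) :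
    ∀ᵐ y ∂(stdGaussian E), ∀ j, ⟪v j, y⟫ ≠ c := by
  rw [ae_all_iff]
  intro j
  by_cases hj : v j = 0
  · exact Eventually.of_forall fun y => by
      rw [hj, inner_zero_left]
      exact hc.symm
  · exact measure_eq_zero_iff_ae_notMem.1 (hyperplane_null' hj c)

/-- Gaussian integration by parts for the tent of the maximum, unit direction. -/
theorem stein_tent_unit (v : ι → E) (hd : ∀ j l, j ≠ l → v j ≠ v l) {b : E} (hb : ‖b‖ = 1)
    {t T : ℝ} (ht : 0 < t) (htT : t < T) :
    ∫ y, ⟪b, y⟫ * tent t T (wid v y) ∂(stdGaussian E)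
      = -(1 / (T - t)) * ∑ j, ⟪v j, b⟫ * (stdGaussian E).real (layer v j t T) := by
  classical
  have hT : 0 < T := ht.trans htT
  have hgap : 0 < T - t := sub_pos.2 htT
  have hbb : ⟪b, b⟫ = 1 := by
    rw [real_inner_self_eq_norm_sq, hb]
    norm_num
  set C : ℝ := 1 / (T - t) with hC
  have hC0 : 0 < C := by positivity
  set S : ℝ := ∑ l, ‖v l‖ with hS
  have hS0 : 0 ≤ S := Finset.sum_nonneg fun l _ => norm_nonneg _
  have hvS : ∀ l, |⟪v l, b⟫| ≤ S := by
    intro l
    have h1 := abs_real_inner_le_norm (v l) b
    rw [hb, mul_one] at h1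
    exact h1.trans (Finset.single_le_sum (f := fun l => ‖v l‖) (fun l _ => norm_nonneg _)
      (Finset.mem_univ l))
  have hUm := measurable_wid v
  set Ψ : E → ℝ := fun y => tent t T (wid v y) with hΨ
  have hΨm : Measurable Ψ := (measurable_tent t T).comp hUm
  have hΨb : ∀ y, |Ψ y| ≤ 1 := by
    intro y
    rw [abs_of_nonneg (tent_nonneg _ _ _)]
    exact tent_le_one _ _ _
  set D : E → ℝ := fun y => tentD t T (wid v y) * ∑ j, (vcell v j).indicator (fun _ => ⟪v j, b⟫) y
    with hD
  have hsumm : Measurable fun y => ∑ j, (vcell v j).indicator (fun _ => ⟪v j, b⟫) y := by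
    apply Finset.measurable_fun_sum
    intro j _
    exact measurable_const.indicator (measurableSet_vcell v j)
  have hDm : Measurable D :=
    ((measurable_tentD t T).comp hUm).mul hsumm
  have hcell : ∀ y j, y ∈ vcell v j →
      ∑ i, (vcell v i).indicator (fun _ => ⟪v i, b⟫) y = ⟪v j, b⟫ := by
    intro y j hy
    rw [Finset.sum_eq_single j]
    · exact indicator_of_mem hy _
    · intro i _ hi
      apply indicator_of_notMem
      intro hc
      exact Set.disjoint_left.1 (disjoint_vcell v hi) hc hy
    · intro hc
      exact absurd (Finset.mem_univ j) hc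
  have hDb : ∀ y, |D y| ≤ C * S := by
    intro y
    obtain ⟨j, hj⟩ := exists_mem_vcell v y
    simp only [hD]
    rw [hcell y j hj, abs_mul]
    exact mul_le_mul (abs_tentD_le htT _) (hvS j) (abs_nonneg _) hC0.le
  have hI1 : Integrable (fun y => ⟪b, y⟫ * Ψ y) (stdGaussian E) := by
    apply (integrable_inner_std b).mul_bdd (c := 1) hΨm.aestronglyMeasurable
    exact Eventually.of_forall fun y => by simpa using hΨb y
  have hI2 : Integrable D (stdGaussian E) :=
    Integrable.of_bound hDm.aestronglyMeasurable (C * S)
      (Eventually.of_forall fun y => by simpa using hDb y)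
  have hibp : ∫ y, ⟪b, y⟫ * Ψ y ∂(stdGaussian E) = ∫ y, D y ∂(stdGaussian E) := by
    rw [integral_slice b hb hI1, integral_slice b hb hI2]
    have hae := ae_slice b hb (ae_no_tie v hd)
    have hae1 := ae_slice b hb (ae_no_level v ht.ne')
    have hae2 := ae_slice b hb (ae_no_level v hT.ne')
    apply integral_congr_ae
    filter_upwards [hae, hae1, hae2] with x hx hx1 hx2
    set g : ℝ → ℝ := fun r => Ψ (slice b (x, r)) with hg
    have hin : ∀ (l : ι) (r : ℝ), ⟪v l, slice b (x, r)⟫ = ⟪v l, x⟫ + (r - ⟪b, x⟫) * ⟪v l, b⟫ :=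
      fun l r => inner_slice _ _ _ _
    have hwidlip : ∀ r s, wid v (slice b (x, r)) ≤ wid v (slice b (x, s)) + S * |r - s| := by
      intro r s
      apply wid_le
      intro l
      have h1 := le_wid v (slice b (x, s)) l
      have e : ⟪v l, slice b (x, r)⟫ = ⟪v l, slice b (x, s)⟫ + (r - s) * ⟪v l, b⟫ := by
        rw [hin, hin]
        ring
      have h2 : (r - s) * ⟪v l, b⟫ ≤ S * |r - s| := by
        have h3 := le_abs_self ((r - s) * ⟪v l, b⟫)
        rw [abs_mul] at h3
        have h4 : |r - s| * |⟪v l, b⟫| ≤ |r - s| * S :=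
          mul_le_mul_of_nonneg_left (hvS l) (abs_nonneg _)
        linarith
      rw [e]
      linarith
    have hgL : ∀ r s, |g r - g s| ≤ (C * S) * |r - s| := by
      intro r s
      have h1 := tent_lip htT (wid v (slice b (x, r))) (wid v (slice b (x, s)))
      refine h1.trans ?_
      rw [mul_assoc]
      apply mul_le_mul_of_nonneg_left _ hC0.le
      rw [abs_le]
      have h2 := hwidlip r s
      have h3 := hwidlip s r
      rw [abs_sub_comm s r] at h3
      constructor <;> linarith
    have hgB : ∀ r, |g r| ≤ 1 := fun r => hΨb _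
    have hDxm : Measurable fun r => D (slice b (x, r)) :=
      hDm.comp (measurable_slice_right b x)
    have hDxb : ∀ r, |D (slice b (x, r))| ≤ C * S := fun r => hDb _
    have hderiv : ∀ᵐ r ∂(gaussianReal 0 1), HasDerivAt g (D (slice b (x, r))) r := by
      filter_upwards [hx, hx1, hx2] with r hr hr1 hr2
      set y := slice b (x, r) with hy
      obtain ⟨j, hj⟩ := exists_mem_vcell v y
      have hDy : D y = tentD t T ⟪v j, y⟫ * ⟪v j, b⟫ := by
        simp only [hD]
        rw [hcell y j hj, wid_eq_of_mem hj]
      rw [hDy]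
      have hstrict : ∀ l, l ≠ j → ⟪v l, y⟫ < ⟪v j, y⟫ := by
        intro l hl
        exact lt_of_le_of_ne (hj.1 l) (hr l j hl)
      set f : ℝ → ℝ := fun r' => ⟪v j, x⟫ + (r' - ⟪b, x⟫) * ⟪v j, b⟫ with hf
      have hfd : HasDerivAt f ⟪v j, b⟫ r := by
        have h1 := ((hasDerivAt_id r).sub_const ⟪b, x⟫).mul_const ⟪v j, b⟫
        have h2 := h1.const_add ⟪v j, x⟫
        refine h2.congr_deriv ?_
        simp
      have hfy : f r = ⟪v j, y⟫ := (hin j r).symm
      have htd : HasDerivAt (tent t T) (tentD t T (f r)) (f r) :=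
        hasDerivAt_tent htT (by rw [hfy]; exact hr1 j) (by rw [hfy]; exact hr2 j)
      have hcomp : HasDerivAt (fun r' => tent t T (f r')) (tentD t T (f r) * ⟪v j, b⟫) r :=
        htd.comp r hfd
      have hev : ∀ᶠ r' in 𝓝 r, ∀ l, ⟪v l, slice b (x, r')⟫ ≤ f r' := by
        rw [eventually_all]
        intro l
        by_cases hl : l = j
        · subst hl
          exact Eventually.of_forall fun r' => (hin l r').le
        · have hc : Continuous fun r' : ℝ => f r' - ⟪v l, slice b (x, r')⟫ := by
            have e : (fun r' : ℝ => f r' - ⟪v l, slice b (x, r')⟫) = fun r' =>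
                ⟪v j, x⟫ + (r' - ⟪b, x⟫) * ⟪v j, b⟫ - (⟪v l, x⟫ + (r' - ⟪b, x⟫) * ⟪v l, b⟫) := by
              ext r'
              rw [hin l r']
            rw [e]
            fun_prop
          have h0 : 0 < f r - ⟪v l, slice b (x, r)⟫ := by
            rw [hfy]
            have := hstrict l hl
            linarith
          filter_upwards [hc.continuousAt.eventually (lt_mem_nhds h0)] with r' hr'
          linarith
      have heq : g =ᶠ[𝓝 r] fun r' => tent t T (f r') := by
        filter_upwards [hev] with r' hr'
        simp only [hg, hΨ]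
        congr 1
        apply le_antisymm (wid_le v _ hr')
        have := le_wid v (slice b (x, r')) j
        rw [hin j r'] at this
        exact this
      have hfinal := hcomp.congr_of_eventuallyEq heq
      refine hfinal.congr_deriv ?_
      rw [hfy]
    have h1 := ibp_1d hgL hgB hDxm hDxb hderiv
    have e : ∀ r, ⟪b, slice b (x, r)⟫ * Ψ (slice b (x, r)) = r * g r := by
      intro r
      have : ⟪b, slice b (x, r)⟫ = r := by
        rw [inner_slice, hbb]
        ring
      rw [this]
    simp_rw [e]
    exact h1
  rw [hibp]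
  -- expand the right side
  have hDsum : ∀ y, D y = -C * ∑ j, ⟪v j, b⟫ * (layer v j t T).indicator (fun _ => (1 : ℝ)) y := by
    intro y
    obtain ⟨j, hj⟩ := exists_mem_vcell v y
    simp only [hD]
    rw [hcell y j hj, Finset.sum_eq_single j]
    · by_cases hl : t < wid v y ∧ wid v y ≤ T
      · have hmem : y ∈ layer v j t T := ⟨hj, hl⟩
        rw [indicator_of_mem hmem]
        unfold tentD
        rw [if_pos hl]
        ring
      · have hmem : y ∉ layer v j t T := fun hc => hl hc.2
        rw [indicator_of_notMem hmem]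
        unfold tentD
        rw [if_neg hl]
        ring
    · intro i _ hi
      rw [indicator_of_notMem]
      · ring
      · intro hc
        exact Set.disjoint_left.1 (disjoint_vcell v hi) hc.1 hj
    · intro hc
      exact absurd (Finset.mem_univ j) hc
  have hlayerm : ∀ j, MeasurableSet (layer v j t T) := by
    intro j
    unfold layer
    apply (measurableSet_vcell v j).inter
    exact (measurableSet_lt measurable_const hUm).inter (measurableSet_le hUm measurable_const)
  simp_rw [hDsum]
  rw [integral_const_mul, integral_finsetSum]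
  · congr 1
    apply Finset.sum_congr rfl
    intro j _
    rw [integral_const_mul, integral_indicator_const _ (hlayerm j)]
    simp
  · intro j _
    exact ((integrable_const (1 : ℝ)).indicator (hlayerm j)).const_mul _

/-- **T2.** Gaussian integration by parts for the tent of the maximum. -/
theorem stein_tent (v : ι → E) (hd : ∀ j l, j ≠ l → v j ≠ v l) (b : E)
    {t T : ℝ} (ht : 0 < t) (htT : t < T) :
    ∫ y, ⟪b, y⟫ * tent t T (wid v y) ∂(stdGaussian E)
      = -(1 / (T - t)) * ∑ j, ⟪v j, b⟫ * (stdGaussian E).real (layer v j t T) := by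
  by_cases hb : b = 0
  · subst hb
    simp
  · set s : ℝ := ‖b‖ with hs
    have hs0 : 0 < s := norm_pos_iff.2 hb
    set u : E := s⁻¹ • b with hu
    have hu1 : ‖u‖ = 1 := by
      rw [hu, norm_smul, norm_inv, norm_norm, ← hs]
      field_simp
    have hbu : b = s • u := by
      rw [hu, smul_smul]
      field_simp
      simp
    have h := stein_tent_unit v hd hu1 ht htT
    rw [hbu]
    simp only [inner_smul_left, inner_smul_right, conj_trivial, mul_assoc]
    rw [integral_const_mul, h, ← Finset.mul_sum]
    simp only [mul_left_comm]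

end Vale.Agent.P226h19
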