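import Vale.Agent.P226h19.Defs
import Vale.Agent.P226h19.SteinTent

/-!
The dual certificate: from hazard inequalities and pointwise bounds to the flux bound.
-/

open MeasureTheory ProbabilityTheory Real Set Filter Topology
open scoped RealInnerProductSpace ENNReal NNReal

namespace Vale.Agent.P226h19

open Vale.Agent.P226h14 Vale.Agent.P226h6

variable {E : Type*} [NormedAddCommGroup E] [InnerProductSpace ℝ E] [FiniteDimensional ℝ E]
  [MeasurableSpace E] [BorelSpace E]
variable {ι : Type*} [Fintype ι] [LinearOrder ι]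

lemma tent_eq_one {t T m : ℝ} (htT : t < T) (h : m ≤ t) : tent t T m = 1 := by
  unfold tent
  have : 1 ≤ (T - m) / (T - t) := by
    rw [le_div_iff₀ (by linarith)]; linarith
  rw [min_eq_left this, max_eq_right zero_le_one]

lemma tent_eq_zero {t T m : ℝ} (htT : t < T) (h : T ≤ m) : tent t T m = 0 := by
  unfold tent
  have : (T - m) / (T - t) ≤ 0 := div_nonpos_of_nonpos_of_nonneg (by linarith) (by linarith)
  rw [min_eq_right (this.trans zero_le_one), max_eq_left this]

lemma tent_eq_mid {t T m : ℝ} (htT : t < T) (h1 : t < m) (h2 : m ≤ T) :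
    tent t T m = (T - m) / (T - t) := by
  unfold tent
  have h3 : (T - m) / (T - t) ≤ 1 := by
    rw [div_le_one (by linarith)]; linarith
  have h4 : 0 ≤ (T - m) / (T - t) := div_nonneg (by linarith) (by linarith)
  rw [min_eq_right h3, max_eq_right h4]

/-- The tail sum of the weights. -/
noncomputable def tailS (N : ℕ) (p : ℕ → ℝ) (q : ℕ) : ℝ := ∑ i ∈ Finset.Ico q N, p i

section Layers

variable {g : ℕ → ℝ} (hg : StrictMono g) (N : ℕ) (p : ℕ → ℝ)

include hg

lemma sum_tent_low {m : ℝ} (hm : m ≤ g 0) :
    ∑ q ∈ Finset.range N, p q * tent (g q) (g (q + 1)) m = tailS N p 0 := by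
  unfold tailS
  rw [Finset.range_eq_Ico]
  refine Finset.sum_congr rfl fun q _ => ?_
  rw [tent_eq_one (hg (Nat.lt_succ_self q)) (hm.trans (hg.monotone (Nat.zero_le q))), mul_one]

lemma sum_tent_high {m : ℝ} (hm : g N < m) :
    ∑ q ∈ Finset.range N, p q * tent (g q) (g (q + 1)) m = 0 := by
  refine Finset.sum_eq_zero fun q hq => ?_
  have hq' : q + 1 ≤ N := Finset.mem_range.1 hq
  rw [tent_eq_zero (hg (Nat.lt_succ_self q)) ((hg.monotone hq').trans hm.le), mul_zero]

lemma sum_tent_mid {q0 : ℕ} (hq0 : q0 < N) {m : ℝ} (h1 : g q0 < m) (h2 : m ≤ g (q0 + 1)) :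
    ∑ q ∈ Finset.range N, p q * tent (g q) (g (q + 1)) m =
      tailS N p (q0 + 1) + p q0 * ((g (q0 + 1) - m) / (g (q0 + 1) - g q0)) := by
  unfold tailS
  rw [Finset.range_eq_Ico, ← Finset.sum_Ico_consecutive _ (Nat.zero_le q0) hq0.le,
    Finset.sum_eq_sum_Ico_succ_bot hq0]
  have h3 : ∑ q ∈ Finset.Ico 0 q0, p q * tent (g q) (g (q + 1)) m = 0 := by
    refine Finset.sum_eq_zero fun q hq => ?_
    have hq' : q + 1 ≤ q0 := (Finset.mem_Ico.1 hq).2
    rw [tent_eq_zero (hg (Nat.lt_succ_self q)) ((hg.monotone hq').trans h1.le), mul_zero]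
  have h4 : ∑ q ∈ Finset.Ico (q0 + 1) N, p q * tent (g q) (g (q + 1)) m =
      ∑ q ∈ Finset.Ico (q0 + 1) N, p q := by
    refine Finset.sum_congr rfl fun q hq => ?_
    have hq' : q0 + 1 ≤ q := (Finset.mem_Ico.1 hq).1
    rw [tent_eq_one (hg (Nat.lt_succ_self q)) (h2.trans (hg.monotone hq')), mul_one]
  rw [h3, h4, tent_eq_mid (hg (Nat.lt_succ_self q0)) h1 h2]
  ring

omit hg in
/-- Every value is in the low part, the high part or one of the layers. -/
lemma exists_layer {m : ℝ} (h1 : g 0 < m) (h2 : m ≤ g N) :
    ∃ q0, q0 < N ∧ g q0 < m ∧ m ≤ g (q0 + 1) := by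
  induction N with
  | zero => exact absurd h2 (not_le.2 h1)
  | succ N ih =>
    by_cases h3 : m ≤ g N
    · obtain ⟨q0, h4, h5, h6⟩ := ih h3
      exact ⟨q0, by omega, h5, h6⟩
    · exact ⟨N, by omega, not_le.1 h3, h2⟩

end Layers


section Main

variable [Nonempty ι]

omit [LinearOrder ι] [Nonempty ι] in
lemma measurableSet_widLayer (v : ι → E) (t T : ℝ) :
    MeasurableSet {x | t < wid v x ∧ wid v x ≤ T} :=
  (measurableSet_lt measurable_const (measurable_wid v)).inter
    (measurableSet_le (measurable_wid v) measurable_const)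

omit [Nonempty ι] in
lemma measurableSet_layer (v : ι → E) (j : ι) (t T : ℝ) : MeasurableSet (layer v j t T) :=
  (measurableSet_vcell v j).inter (measurableSet_widLayer v t T)

lemma integrable_mQ (v : ι → E) :
    Integrable (fun y => wid v y * Qf (wid v y)) (stdGaussian E) := by
  refine (integrable_wid v).norm.mono'
    ((measurable_wid v).mul (continuous_Qf.measurable.comp (measurable_wid v))).aestronglyMeasurable
    (Eventually.of_forall fun y => ?_)
  rw [Real.norm_eq_abs, Real.norm_eq_abs, abs_mul]
  have h1 : |Qf (wid v y)| ≤ 1 := by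
    rw [abs_of_nonneg (Qf_nonneg _)]; exact Qf_le_one _
  calc _ ≤ |wid v y| * 1 := mul_le_mul_of_nonneg_left h1 (abs_nonneg _)
    _ = _ := mul_one _

lemma integrable_Tf_c (v : ι → E) (c : ℝ) :
    Integrable (fun y => Tf (c * wid v y)) (stdGaussian E) := by
  have hb : Integrable (fun y => ph 0 + |c| * ‖wid v y‖) (stdGaussian E) :=
    (integrable_const _).add ((integrable_wid v).norm.const_mul _)
  refine hb.mono' (continuous_Tf.measurable.comp
    ((measurable_wid v).const_mul c)).aestronglyMeasurable (Eventually.of_forall fun y => ?_)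
  rw [Real.norm_eq_abs, abs_of_nonneg (Tf_nonneg _), Tf]
  have h1 : ph (c * wid v y) ≤ ph 0 := ph_le_ph_zero _
  have h2 : -(c * wid v y * Qf (c * wid v y)) ≤ |c| * ‖wid v y‖ := by
    have h3 : |c * wid v y * Qf (c * wid v y)| ≤ |c| * ‖wid v y‖ := by
      rw [abs_mul, abs_mul, Real.norm_eq_abs]
      have h4 : |Qf (c * wid v y)| ≤ 1 := by
        rw [abs_of_nonneg (Qf_nonneg _)]; exact Qf_le_one _
      calc _ ≤ |c| * |wid v y| * 1 := mul_le_mul_of_nonneg_left h4 (by positivity)
        _ = _ := mul_one _
    exact (neg_le_abs _).trans h3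
  linarith

omit [LinearOrder ι] [Nonempty ι] in
lemma integrable_tent_wid (v : ι → E) (t T : ℝ) :
    Integrable (fun y => tent t T (wid v y)) (stdGaussian E) := by
  refine Integrable.of_bound
    ((measurable_tent t T).comp (measurable_wid v)).aestronglyMeasurable 1
    (Eventually.of_forall fun y => ?_)
  rw [Real.norm_eq_abs, abs_of_nonneg (tent_nonneg _ _ _)]
  exact tent_le_one _ _ _

omit [Nonempty ι] in
lemma setIntegral_layer_ind (v : ι → E) (j : ι) (t T : ℝ) :
    ∫ y in vcell v j, (layer v j t T).indicator (fun _ => (1 : ℝ)) y ∂(stdGaussian E) =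
      Pl v j t T := by
  rw [setIntegral_indicator (measurableSet_layer v j t T)]
  have e : vcell v j ∩ layer v j t T = layer v j t T :=
    Set.inter_eq_right.2 Set.inter_subset_left
  rw [e, setIntegral_const]
  simp [Pl]

/-- The dual sum: hazard inequalities and the layered pointwise bound imply the flux bound. -/
theorem dual_sum (v : ι → E) (hU : ∀ y, 0 ≤ wid v y) (N : ℕ) (g : ℕ → ℝ) (hg : StrictMono g)
    (p : ℕ → ℝ) (C : ι → ℕ → ℝ) (A ν B c : ι → ℝ)
    (hhaz : ∀ q, q < N → p q * EQ v (g q) (g (q + 1)) ≤ ∑ j, C j q * Pl v j (g q) (g (q + 1)))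
    (ha : ∀ j m, 0 ≤ m → m ≤ g 0 →
      ν j * ph m ≤ A j * (m * Qf m) + B j * Tf (c j * m) + tailS N p 0)
    (hb : ∀ j q, q < N → ∀ m, g q < m → m ≤ g (q + 1) →
      ν j * ph m ≤ A j * (m * Qf m) + B j * Tf (c j * m) + tailS N p (q + 1) +
        p q * ((g (q + 1) - m) / (g (q + 1) - g q)) - C j q)
    (hc : ∀ j m, g N < m → ν j * ph m ≤ A j * (m * Qf m) + B j * Tf (c j * m)) :
    ∑ j, ν j * flux v j ≤ ∑ j, (A j * topM v j + B j * bonusM v j (c j)) := by
  classical
  set H : E → ℝ := fun y => ∑ q ∈ Finset.range N, p q * tent (g q) (g (q + 1)) (wid v y) with hH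
  have hHint : Integrable H (stdGaussian E) :=
    integrable_finsetSum _ fun q _ => (integrable_tent_wid v _ _).const_mul _
  set L : ι → ℕ → E → ℝ := fun j q => (layer v j (g q) (g (q + 1))).indicator (fun _ => (1 : ℝ))
    with hL
  have hLint : ∀ j q, Integrable (L j q) (stdGaussian E) := fun j q =>
    (integrable_const _).indicator (measurableSet_layer v j _ _)
  -- the pointwise bound on a cell
  have hpt : ∀ j, ∀ y ∈ vcell v j, ν j * ph (wid v y) ≤
      A j * (wid v y * Qf (wid v y)) + B j * Tf (c j * wid v y) + H y -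
        ∑ q ∈ Finset.range N, C j q * L j q y := by
    intro j y hy
    set m := wid v y with hm
    have hLval : ∀ q, L j q y = if g q < m ∧ m ≤ g (q + 1) then 1 else 0 := by
      intro q
      by_cases h : g q < m ∧ m ≤ g (q + 1)
      · rw [if_pos h]
        exact Set.indicator_of_mem (show y ∈ layer v j _ _ from ⟨hy, h⟩) _
      · rw [if_neg h]
        exact Set.indicator_of_notMem (fun hc => h hc.2) _
    by_cases h0 : m ≤ g 0
    · have hz : ∑ q ∈ Finset.range N, C j q * L j q y = 0 := by
        refine Finset.sum_eq_zero fun q _ => ?_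
        rw [hLval, if_neg, mul_zero]
        intro hh
        exact absurd (hh.1.trans_le h0) (not_lt.2 (hg.monotone (Nat.zero_le q)))
      rw [hz, hH]
      simp only
      rw [sum_tent_low hg N p h0]
      have := ha j m (hU y) h0
      linarith
    · by_cases h1 : m ≤ g N
      · obtain ⟨q0, h2, h3, h4⟩ := exists_layer N (not_le.1 h0) h1
        have hz : ∑ q ∈ Finset.range N, C j q * L j q y = C j q0 := by
          rw [Finset.sum_eq_single q0]
          · rw [hLval, if_pos ⟨h3, h4⟩, mul_one]
          · intro q _ hne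
            rw [hLval, if_neg, mul_zero]
            rintro ⟨h5, h6⟩
            rcases lt_or_gt_of_ne hne with hlt | hgt
            · exact absurd ((h6.trans (hg.monotone hlt)).trans_lt h3) (lt_irrefl m)
            · exact absurd ((h4.trans (hg.monotone hgt)).trans_lt h5) (lt_irrefl m)
          · intro hh
            exact absurd (Finset.mem_range.2 h2) hh
        rw [hz, hH]
        simp only
        rw [sum_tent_mid hg N p h2 h3 h4]
        have := hb j q0 h2 m h3 h4
        linarith
      · have h2 : g N < m := not_le.1 h1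
        have hz : ∑ q ∈ Finset.range N, C j q * L j q y = 0 := by
          refine Finset.sum_eq_zero fun q hq => ?_
          rw [hLval, if_neg, mul_zero]
          rintro ⟨_, h5⟩
          have hq' : q + 1 ≤ N := Finset.mem_range.1 hq
          exact absurd (h5.trans (hg.monotone hq')) (not_le.2 h2)
        rw [hz, hH]
        simp only
        rw [sum_tent_high hg N p h2]
        have := hc j m h2
        linarith
  -- integrate over each cell
  have hcell : ∀ j, ν j * flux v j ≤ A j * topM v j + B j * bonusM v j (c j) +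
      ∫ y in vcell v j, H y ∂(stdGaussian E) -
        ∑ q ∈ Finset.range N, C j q * Pl v j (g q) (g (q + 1)) := by
    intro j
    have hi1 : Integrable (fun y => ν j * ph (wid v y)) (stdGaussian E) :=
      (integrable_ph_wid v).const_mul _
    have hi2 : Integrable (fun y => A j * (wid v y * Qf (wid v y))) (stdGaussian E) :=
      (integrable_mQ v).const_mul _
    have hi3 : Integrable (fun y => B j * Tf (c j * wid v y)) (stdGaussian E) :=
      (integrable_Tf_c v _).const_mul _
    have hi4 : Integrable (fun y => ∑ q ∈ Finset.range N, C j q * L j q y) (stdGaussian E) :=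
      integrable_finsetSum _ fun q _ => (hLint j q).const_mul _
    have hi23 : Integrable (fun y => A j * (wid v y * Qf (wid v y)) + B j * Tf (c j * wid v y))
        (stdGaussian E) := hi2.add hi3
    have hi234 : Integrable (fun y => A j * (wid v y * Qf (wid v y)) + B j * Tf (c j * wid v y) +
        H y) (stdGaussian E) := hi23.add hHint
    have hi5 : Integrable (fun y => A j * (wid v y * Qf (wid v y)) + B j * Tf (c j * wid v y) +
        H y - ∑ q ∈ Finset.range N, C j q * L j q y) (stdGaussian E) := hi234.sub hi4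
    have hmono := setIntegral_mono_on hi1.integrableOn
      hi5.integrableOn (measurableSet_vcell v j) (hpt j)
    have e1 : ∫ y in vcell v j, ν j * ph (wid v y) ∂(stdGaussian E) = ν j * flux v j := by
      rw [integral_const_mul, flux]
    have e2 : ∫ y in vcell v j, (A j * (wid v y * Qf (wid v y)) + B j * Tf (c j * wid v y) + H y -
          ∑ q ∈ Finset.range N, C j q * L j q y) ∂(stdGaussian E) =
        A j * topM v j + B j * bonusM v j (c j) + ∫ y in vcell v j, H y ∂(stdGaussian E) -
          ∑ q ∈ Finset.range N, C j q * Pl v j (g q) (g (q + 1)) := by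
      rw [integral_sub hi234.integrableOn hi4.integrableOn,
        integral_add hi23.integrableOn hHint.integrableOn,
        integral_add hi2.integrableOn hi3.integrableOn,
        integral_const_mul, integral_const_mul,
        integral_finsetSum _ (fun q _ => ((hLint j q).const_mul _).integrableOn)]
      congr 1
      refine Finset.sum_congr rfl fun q _ => ?_
      rw [integral_const_mul, setIntegral_layer_ind]
    rw [e1, e2] at hmono
    exact hmono
  -- sum over the cells
  have hsumH : ∑ j, ∫ y in vcell v j, H y ∂(stdGaussian E) =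
      ∑ q ∈ Finset.range N, p q * EQ v (g q) (g (q + 1)) := by
    rw [sum_setIntegral_part (isPart_vcell v) hHint, hH,
      integral_finsetSum _ (fun q _ => (integrable_tent_wid v _ _).const_mul _)]
    refine Finset.sum_congr rfl fun q _ => ?_
    rw [integral_const_mul, EQ]
  have hhaz2 : ∑ q ∈ Finset.range N, p q * EQ v (g q) (g (q + 1)) ≤
      ∑ j, ∑ q ∈ Finset.range N, C j q * Pl v j (g q) (g (q + 1)) := by
    rw [Finset.sum_comm]
    exact Finset.sum_le_sum fun q hq => hhaz q (Finset.mem_range.1 hq)
  calc ∑ j, ν j * flux v j ≤ ∑ j, (A j * topM v j + B j * bonusM v j (c j) +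
        ∫ y in vcell v j, H y ∂(stdGaussian E) -
        ∑ q ∈ Finset.range N, C j q * Pl v j (g q) (g (q + 1))) :=
        Finset.sum_le_sum fun j _ => hcell j
    _ ≤ _ := by
      rw [Finset.sum_sub_distrib, Finset.sum_add_distrib, hsumH]
      linarith

end Main

end Vale.Agent.P226h19
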