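import Vale.Agent.P226h19.SteinTent
import Vale.Agent.P226h19.JBound0

/-! P2b: the tent integrated hazard inequalities. The chord inequalities are taken as hypotheses in
the form of corollaries (a) and (b) of `tent_chord_gen`. -/

open MeasureTheory ProbabilityTheory Real Set Filter Topology
open scoped RealInnerProductSpace ENNReal NNReal

namespace Vale.Agent.P226h19

open Vale.Agent.P226h14 Vale.Agent.P226h6

variable {E : Type*} [NormedAddCommGroup E] [InnerProductSpace ℝ E] [FiniteDimensional ℝ E]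
  [MeasurableSpace E] [BorelSpace E]
variable {ι : Type*} [Fintype ι] [LinearOrder ι]

omit [LinearOrder ι] in
lemma integrable_tent_wid (v : ι → E) (t T : ℝ) :
    Integrable (fun y => tent t T (wid v y)) (stdGaussian E) := by
  apply Integrable.of_bound ((measurable_tent t T).comp (measurable_wid v)).aestronglyMeasurable 1
  apply Eventually.of_forall
  intro x
  rw [Real.norm_eq_abs, Function.comp_apply, abs_of_nonneg (tent_nonneg _ _ _)]
  exact tent_le_one _ _ _

omit [LinearOrder ι] in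
lemma integrable_inner_tent (v : ι → E) (b : E) (t T : ℝ) :
    Integrable (fun y => ⟪b, y⟫ * tent t T (wid v y)) (stdGaussian E) := by
  apply (integrable_inner_std b).mul_bdd (c := 1)
    ((measurable_tent t T).comp (measurable_wid v)).aestronglyMeasurable
  apply Eventually.of_forall
  intro x
  rw [Real.norm_eq_abs, Function.comp_apply, abs_of_nonneg (tent_nonneg _ _ _)]
  exact tent_le_one _ _ _

omit [LinearOrder ι] in
lemma integral_add_tent (v : ι → E) (b : E) (c t T : ℝ) :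
    ∫ y, (⟪b, y⟫ + c) * tent t T (wid v y) ∂(stdGaussian E)
      = ∫ y, ⟪b, y⟫ * tent t T (wid v y) ∂(stdGaussian E) + c * EQ v t T := by
  have e : ∀ y, (⟪b, y⟫ + c) * tent t T (wid v y)
      = ⟪b, y⟫ * tent t T (wid v y) + c * tent t T (wid v y) := fun y => by ring
  simp_rw [e]
  rw [integral_add (integrable_inner_tent v b t T) ((integrable_tent_wid v t T).const_mul c),
    integral_const_mul]
  rfl

omit [LinearOrder ι] in
/-- the balance makes the weighted sum of the linear integrals vanish -/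
lemma sum_inner_tent (v : ι → E) (W : ι → ℝ) (hbal : ∑ j, W j • v j = 0) (t T : ℝ) :
    ∑ j, W j * ∫ y, ⟪v j, y⟫ * tent t T (wid v y) ∂(stdGaussian E) = 0 := by
  have h1 : ∀ j, W j * ∫ y, ⟪v j, y⟫ * tent t T (wid v y) ∂(stdGaussian E)
      = ∫ y, W j * (⟪v j, y⟫ * tent t T (wid v y)) ∂(stdGaussian E) := fun j =>
    (integral_const_mul _ _).symm
  simp_rw [h1]
  rw [← integral_finsetSum]
  · have h2 : ∀ y, ∑ j, W j * (⟪v j, y⟫ * tent t T (wid v y)) = 0 := by
      intro y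
      have h3 : ⟪∑ j, W j • v j, y⟫ = ∑ j, W j * ⟪v j, y⟫ := by
        rw [sum_inner]
        simp [inner_smul_left]
      rw [hbal, inner_zero_left] at h3
      calc ∑ j, W j * (⟪v j, y⟫ * tent t T (wid v y))
          = (∑ j, W j * ⟪v j, y⟫) * tent t T (wid v y) := by
            rw [Finset.sum_mul]
            exact Finset.sum_congr rfl fun j _ => by ring
        _ = 0 := by rw [← h3, zero_mul]
    simp_rw [h2]
    simp
  · intro j _
    exact (integrable_inner_tent v (v j) t T).const_mul _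

/-- from corollary (a) of the chord inequality and the bound for the central mass -/
lemma chord_a_div {s T t P I B : ℝ} (hs : 0 < s) (ht : 0 < t) (htT : t < T)
    (hch : (T - t) * ph (T / s) * I ≤ T * s * (1 - 2 * Qf (T / s)) * P)
    (hP : 0 ≤ P) (hT : 0 < T)
    (hB : 1 - 2 * Qf (T / s) ≤ (T / s) * ph (T / s) * B) :
    I ≤ T ^ 2 / (T - t) * B * P := by
  have hgap : 0 < T - t := sub_pos.2 htT
  have hph := ph_pos (T / s)
  have h1 : T * s * (1 - 2 * Qf (T / s)) * P ≤ T * s * ((T / s) * ph (T / s) * B) * P := by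
    apply mul_le_mul_of_nonneg_right _ hP
    exact mul_le_mul_of_nonneg_left hB (by positivity)
  have h2 : T * s * ((T / s) * ph (T / s) * B) * P = ph (T / s) * (T ^ 2 * B * P) := by
    field_simp
  have h3 : (T - t) * ph (T / s) * I ≤ ph (T / s) * (T ^ 2 * B * P) := by
    rw [← h2]
    exact hch.trans h1
  have h4 : (T - t) * I ≤ T ^ 2 * B * P := by
    have h5 : ph (T / s) * ((T - t) * I) ≤ ph (T / s) * (T ^ 2 * B * P) := by
      calc ph (T / s) * ((T - t) * I) = (T - t) * ph (T / s) * I := by ring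
        _ ≤ _ := h3
    exact le_of_mul_le_mul_left h5 hph
  have e : T ^ 2 / (T - t) * B * P = (T ^ 2 * B * P) / (T - t) := by
    field_simp
  rw [e, le_div_iff₀ hgap]
  linarith

/-- from corollary (b) of the chord inequality and the bound for the density gap -/
lemma chord_b_div {s T t P I D : ℝ} (hs : 0 < s) (ht : 0 < t) (htT : t < T)
    (hch : (T - t) * ph (T / s) * I ≤ s ^ 2 * (ph 0 - ph (T / s)) * P)
    (hP : 0 ≤ P) (hT : 0 < T)
    (hD : ph 0 - ph (T / s) ≤ ph (T / s) * (T / s) ^ 2 * D) :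
    I ≤ T ^ 2 / (T - t) * D * P := by
  have hgap : 0 < T - t := sub_pos.2 htT
  have hph := ph_pos (T / s)
  have h1 : s ^ 2 * (ph 0 - ph (T / s)) * P ≤ s ^ 2 * (ph (T / s) * (T / s) ^ 2 * D) * P := by
    apply mul_le_mul_of_nonneg_right _ hP
    exact mul_le_mul_of_nonneg_left hD (by positivity)
  have h2 : s ^ 2 * (ph (T / s) * (T / s) ^ 2 * D) * P = ph (T / s) * (T ^ 2 * D * P) := by
    field_simp
  have h3 : (T - t) * ph (T / s) * I ≤ ph (T / s) * (T ^ 2 * D * P) := by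
    rw [← h2]
    exact hch.trans h1
  have h4 : (T - t) * I ≤ T ^ 2 * D * P := by
    have h5 : ph (T / s) * ((T - t) * I) ≤ ph (T / s) * (T ^ 2 * D * P) := by
      calc ph (T / s) * ((T - t) * I) = (T - t) * ph (T / s) * I := by ring
        _ ≤ _ := h3
    exact le_of_mul_le_mul_left h5 hph
  have e : T ^ 2 / (T - t) * D * P = (T ^ 2 * D * P) / (T - t) := by
    field_simp
  rw [e, le_div_iff₀ hgap]
  linarith

lemma Pl_nonneg (v : ι → E) (j : ι) (t T : ℝ) : 0 ≤ Pl v j t T := measureReal_nonneg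

section hazards

variable (v : ι → E) (W B : ι → ℝ) {t T : ℝ}

/-- the chord hypothesis in the form of corollary (a) -/
def ChordA (v : ι → E) (t T : ℝ) : Prop :=
  ∀ j, (T - t) * ph (T / ‖v j‖) * ∫ y, (⟪v j, y⟫ + T) * tent t T (wid v y) ∂(stdGaussian E)
    ≤ T * ‖v j‖ * (1 - 2 * Qf (T / ‖v j‖)) * Pl v j t T

/-- the chord hypothesis in the form of corollary (b) at one index -/
def ChordB (v : ι → E) (t T : ℝ) (j : ι) : Prop :=
  (T - t) * ph (T / ‖v j‖) * ∫ y, ⟪v j, y⟫ * tent t T (wid v y) ∂(stdGaussian E)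
    ≤ ‖v j‖ ^ 2 * (ph 0 - ph (T / ‖v j‖)) * Pl v j t T

/-- **HAZ_T**. -/
theorem haz_T (hW : ∀ j, 0 ≤ W j) (hbal : ∑ j, W j • v j = 0) (hv : ∀ j, v j ≠ 0)
    (ht : 0 < t) (htT : t < T) (hch : ChordA v t T)
    (hB : ∀ j, 1 - 2 * Qf (T / ‖v j‖) ≤ (T / ‖v j‖) * ph (T / ‖v j‖) * B j) :
    (∑ j, W j) * EQ v t T ≤ ∑ j, W j * (T / (T - t)) * B j * Pl v j t T := by
  have hT : 0 < T := ht.trans htT
  have hgap : 0 < T - t := sub_pos.2 htT
  have h1 : ∀ j, W j * ∫ y, (⟪v j, y⟫ + T) * tent t T (wid v y) ∂(stdGaussian E)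
      ≤ W j * (T ^ 2 / (T - t) * B j * Pl v j t T) := fun j =>
    mul_le_mul_of_nonneg_left (chord_a_div (norm_pos_iff.2 (hv j)) ht htT (hch j)
      (Pl_nonneg v j t T) hT (hB j)) (hW j)
  have h2 : ∑ j, W j * ∫ y, (⟪v j, y⟫ + T) * tent t T (wid v y) ∂(stdGaussian E)
      = T * ((∑ j, W j) * EQ v t T) := by
    simp_rw [integral_add_tent, mul_add]
    rw [Finset.sum_add_distrib, sum_inner_tent v W hbal t T, zero_add, Finset.sum_mul,
      Finset.mul_sum]
    exact Finset.sum_congr rfl fun j _ => by ring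
  have h3 := Finset.sum_le_sum fun j (_ : j ∈ Finset.univ) => h1 j
  rw [h2] at h3
  have h4 : ∑ j, W j * (T ^ 2 / (T - t) * B j * Pl v j t T)
      = T * ∑ j, W j * (T / (T - t)) * B j * Pl v j t T := by
    rw [Finset.mul_sum]
    refine Finset.sum_congr rfl fun j _ => ?_
    field_simp
  rw [h4] at h3
  exact le_of_mul_le_mul_left h3 hT

/-- common step for the two forms with one facet removed. -/
lemma haz_removed (hW : ∀ j, 0 ≤ W j) (hbal : ∑ j, W j • v j = 0) (hv : ∀ j, v j ≠ 0)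
    (ht : 0 < t) (htT : t < T) (hch : ChordA v t T)
    (hB : ∀ j, 1 - 2 * Qf (T / ‖v j‖) ≤ (T / ‖v j‖) * ph (T / ‖v j‖) * B j) (j1 : ι) :
    T * ((∑ j, W j - W j1) * EQ v t T)
      ≤ T * ∑ l ∈ Finset.univ.erase j1, W l * (T / (T - t)) * B l * Pl v l t T
        + W j1 * ∫ y, ⟪v j1, y⟫ * tent t T (wid v y) ∂(stdGaussian E) := by
  classical
  have hT : 0 < T := ht.trans htT
  have hgap : 0 < T - t := sub_pos.2 htT
  have h1 : ∀ j, W j * ∫ y, (⟪v j, y⟫ + T) * tent t T (wid v y) ∂(stdGaussian E)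
      ≤ W j * (T ^ 2 / (T - t) * B j * Pl v j t T) := fun j =>
    mul_le_mul_of_nonneg_left (chord_a_div (norm_pos_iff.2 (hv j)) ht htT (hch j)
      (Pl_nonneg v j t T) hT (hB j)) (hW j)
  have h3 := Finset.sum_le_sum fun j (_ : j ∈ Finset.univ.erase j1) => h1 j
  have h4 : ∑ j ∈ Finset.univ.erase j1, W j * (T ^ 2 / (T - t) * B j * Pl v j t T)
      = T * ∑ l ∈ Finset.univ.erase j1, W l * (T / (T - t)) * B l * Pl v l t T := by
    rw [Finset.mul_sum]
    refine Finset.sum_congr rfl fun j _ => ?_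
    field_simp
  rw [h4] at h3
  have h5 : ∑ j ∈ Finset.univ.erase j1,
      W j * ∫ y, (⟪v j, y⟫ + T) * tent t T (wid v y) ∂(stdGaussian E)
      = T * ((∑ j, W j - W j1) * EQ v t T)
        - W j1 * ∫ y, ⟪v j1, y⟫ * tent t T (wid v y) ∂(stdGaussian E) := by
    have h6 := sum_inner_tent v W hbal t T
    have h7 := Finset.add_sum_erase Finset.univ
      (fun j => W j * ∫ y, ⟪v j, y⟫ * tent t T (wid v y) ∂(stdGaussian E)) (Finset.mem_univ j1)
    have h8 := Finset.add_sum_erase Finset.univ W (Finset.mem_univ j1)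
    simp_rw [integral_add_tent, mul_add]
    rw [Finset.sum_add_distrib]
    have h9 : ∑ j ∈ Finset.univ.erase j1, W j * (T * EQ v t T)
        = T * ((∑ j ∈ Finset.univ.erase j1, W j) * EQ v t T) := by
      rw [Finset.sum_mul, Finset.mul_sum]
      exact Finset.sum_congr rfl fun j _ => by ring
    rw [h9]
    have h10 : ∑ j, W j - W j1 = ∑ j ∈ Finset.univ.erase j1, W j := by linarith
    rw [h10]
    linarith
  rw [h5] at h3
  linarith

/-- **HAZ_E** (tangent at the origin on the exceptional facet). -/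
theorem haz_E (hW : ∀ j, 0 ≤ W j) (hbal : ∑ j, W j • v j = 0) (hv : ∀ j, v j ≠ 0)
    (ht : 0 < t) (htT : t < T) (hch : ChordA v t T)
    (hB : ∀ j, 1 - 2 * Qf (T / ‖v j‖) ≤ (T / ‖v j‖) * ph (T / ‖v j‖) * B j) (j1 : ι)
    (hchb : ChordB v t T j1) {D : ℝ}
    (hD : ph 0 - ph (T / ‖v j1‖) ≤ ph (T / ‖v j1‖) * (T / ‖v j1‖) ^ 2 * D) :
    (∑ j, W j - W j1) * EQ v t T
      ≤ ∑ l ∈ Finset.univ.erase j1, W l * (T / (T - t)) * B l * Pl v l t T
        + W j1 * (T / (T - t)) * D * Pl v j1 t T := by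
  have hT : 0 < T := ht.trans htT
  have hgap : 0 < T - t := sub_pos.2 htT
  have h1 := haz_removed v W B hW hbal hv ht htT hch hB j1
  have h2 := chord_b_div (norm_pos_iff.2 (hv j1)) ht htT hchb (Pl_nonneg v j1 t T) hT hD
  have h3 := mul_le_mul_of_nonneg_left h2 (hW j1)
  have h4 : W j1 * (T ^ 2 / (T - t) * D * Pl v j1 t T)
      = T * (W j1 * (T / (T - t)) * D * Pl v j1 t T) := by
    field_simp
  rw [h4] at h3
  have h5 : T * ((∑ j, W j - W j1) * EQ v t T)
      ≤ T * (∑ l ∈ Finset.univ.erase j1, W l * (T / (T - t)) * B l * Pl v l t T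
        + W j1 * (T / (T - t)) * D * Pl v j1 t T) := by
    rw [mul_add]
    linarith
  exact le_of_mul_le_mul_left h5 hT

/-- **HAZ_S** (Stein on the exceptional facet). -/
theorem haz_S [Nonempty ι] (hW : ∀ j, 0 ≤ W j) (hbal : ∑ j, W j • v j = 0) (hv : ∀ j, v j ≠ 0)
    (hd : ∀ j l, j ≠ l → v j ≠ v l)
    (ht : 0 < t) (htT : t < T) (hch : ChordA v t T)
    (hB : ∀ j, 1 - 2 * Qf (T / ‖v j‖) ≤ (T / ‖v j‖) * ph (T / ‖v j‖) * B j) (j1 : ι) :
    (∑ j, W j - W j1) * EQ v t T
      ≤ ∑ l ∈ Finset.univ.erase j1, W l * (T / (T - t)) * B l * Pl v l t T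
        + W j1 / ((T - t) * T) * (∑ l ∈ Finset.univ.erase j1, (-⟪v j1, v l⟫) * Pl v l t T
          - ‖v j1‖ ^ 2 * Pl v j1 t T) := by
  classical
  have hT : 0 < T := ht.trans htT
  have hgap : 0 < T - t := sub_pos.2 htT
  have h1 := haz_removed v W B hW hbal hv ht htT hch hB j1
  have hst := stein_tent v hd (v j1) ht htT
  have h2 : ∫ y, ⟪v j1, y⟫ * tent t T (wid v y) ∂(stdGaussian E)
      = 1 / (T - t) * (∑ l ∈ Finset.univ.erase j1, (-⟪v j1, v l⟫) * Pl v l t T
          - ‖v j1‖ ^ 2 * Pl v j1 t T) := by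
    rw [hst]
    have h3 := Finset.add_sum_erase Finset.univ
      (fun j => ⟪v j, v j1⟫ * (stdGaussian E).real (layer v j t T)) (Finset.mem_univ j1)
    rw [← h3]
    have h4 : ⟪v j1, v j1⟫ = ‖v j1‖ ^ 2 := real_inner_self_eq_norm_sq _
    rw [h4]
    have h5 : ∑ j ∈ Finset.univ.erase j1, ⟪v j, v j1⟫ * (stdGaussian E).real (layer v j t T)
        = -∑ l ∈ Finset.univ.erase j1, (-⟪v j1, v l⟫) * Pl v l t T := by
      rw [← Finset.sum_neg_distrib]
      refine Finset.sum_congr rfl fun l _ => ?_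
      rw [real_inner_comm]
      unfold Pl
      ring
    rw [h5]
    unfold Pl
    ring
  rw [h2] at h1
  have h6 : T * ((∑ j, W j - W j1) * EQ v t T)
      ≤ T * (∑ l ∈ Finset.univ.erase j1, W l * (T / (T - t)) * B l * Pl v l t T
        + W j1 / ((T - t) * T) * (∑ l ∈ Finset.univ.erase j1, (-⟪v j1, v l⟫) * Pl v l t T
          - ‖v j1‖ ^ 2 * Pl v j1 t T)) := by
    rw [mul_add]
    have h7 : T * (W j1 / ((T - t) * T) * (∑ l ∈ Finset.univ.erase j1, (-⟪v j1, v l⟫) * Pl v l t T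
          - ‖v j1‖ ^ 2 * Pl v j1 t T))
        = W j1 * (1 / (T - t) * (∑ l ∈ Finset.univ.erase j1, (-⟪v j1, v l⟫) * Pl v l t T
          - ‖v j1‖ ^ 2 * Pl v j1 t T)) := by
      field_simp
    rw [h7]
    exact h1
  exact le_of_mul_le_mul_left h6 hT

end hazards

end Vale.Agent.P226h19
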