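import Vale.Agent.P226h19.Setup
import Vale.Agent.P226h14.Delete2

open MeasureTheory ProbabilityTheory Real Set Filter Topology
open scoped RealInnerProductSpace ENNReal NNReal

namespace Vale.Agent.P226h19

open Vale.Agent.P226h14 Vale.Agent.P226h6

variable {E : Type*} [NormedAddCommGroup E] [InnerProductSpace ℝ E] [FiniteDimensional ℝ E]
  [MeasurableSpace E] [BorelSpace E]
variable {ι : Type*} [Fintype ι] [LinearOrder ι]

omit [FiniteDimensional ℝ E] [MeasurableSpace E] [BorelSpace E] [LinearOrder ι] in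
/-- Two arms of the width of a balanced family: the vertex itself, and the average of the others. -/
lemma wid_two_arms [Nonempty ι] (y : ι → E) (hsum : ∑ l, y l = 0)
    (hN : 2 ≤ Fintype.card ι) (x : E) (j : ι) :
    ⟪y j, x⟫ + ((Fintype.card ι : ℝ) / ((Fintype.card ι : ℝ) - 1)) * max (-⟪y j, x⟫) 0 ≤
      wid y x := by
  classical
  set N : ℝ := (Fintype.card ι : ℝ) with hNd
  have hN2 : (2 : ℝ) ≤ N := by
    rw [hNd]
    exact_mod_cast hN
  have h1 : ⟪y j, x⟫ ≤ wid y x := le_wid y x j
  rcases le_total 0 ⟪y j, x⟫ with h | h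
  · rw [max_eq_right (by linarith)]
    simpa using h1
  · rw [max_eq_left (by linarith)]
    have h2 : ∑ l, ⟪y l, x⟫ = 0 := by
      rw [← sum_inner, hsum, inner_zero_left]
    have h3 : ∑ l ∈ Finset.univ.erase j, ⟪y l, x⟫ = -⟪y j, x⟫ := by
      rw [← Finset.add_sum_erase _ _ (Finset.mem_univ j)] at h2
      linarith
    have h4 : ∑ l ∈ Finset.univ.erase j, ⟪y l, x⟫ ≤
        ((Finset.univ.erase j).card : ℝ) * wid y x := by
      have := Finset.sum_le_card_nsmul (Finset.univ.erase j) (fun l => ⟪y l, x⟫) (wid y x)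
        (fun l _ => le_wid y x l)
      simpa using this
    have h5 : ((Finset.univ.erase j).card : ℝ) = N - 1 := by
      rw [Finset.card_erase_of_mem (Finset.mem_univ j), Finset.card_univ, hNd]
      have : 1 ≤ Fintype.card ι := by omega
      push_cast [Nat.cast_sub this]
      ring
    rw [h3, h5] at h4
    have h6 : 0 < N - 1 := by linarith
    have h7 : ⟪y j, x⟫ + N / (N - 1) * -⟪y j, x⟫ = (-⟪y j, x⟫) / (N - 1) := by
      field_simp
      ring
    rw [h7, div_le_iff₀ h6]
    linarith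

/-- The positive part of the axis excess over a facet is the bonus functional. -/
lemma facet_plus (v : ι → E) {n : E} (hn : ‖n‖ = 1) (horth : ∀ j, ⟪v j, n⟫ = 0) [Nonempty ι]
    (hU : ∀ y, 0 ≤ wid v y) (l : ι) {c : ℝ} (hc : 1 ≤ c) :
    ∫ y in {y | ∀ m, ⟪v m, y⟫ ≤ ⟪n, y⟫} ∩ vcell v l, max (⟪n, y⟫ - c * wid v y) 0
        ∂(stdGaussian E) = bonusM v l c := by
  have hnn : ⟪n, n⟫ = 1 := by rw [real_inner_self_eq_norm_sq, hn]; norm_num
  set C : Set E := {y | ∀ m, ⟪v m, y⟫ ≤ ⟪n, y⟫} with hC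
  have hmC : MeasurableSet (C ∩ vcell v l) :=
    (measurableSet_cellC v n).inter (measurableSet_vcell v l)
  have hI0 : Integrable (fun y => max (⟪n, y⟫ - c * wid v y) 0) (stdGaussian E) :=
    ((integrable_inner_std n).sub ((integrable_wid v).const_mul c)).pos_part
  have hI : Integrable ((C ∩ vcell v l).indicator fun y => max (⟪n, y⟫ - c * wid v y) 0)
      (stdGaussian E) := hI0.indicator hmC
  rw [← integral_indicator hmC, integral_slice n hn hI, bonusM,
    ← integral_indicator (measurableSet_vcell v l)]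
  apply integral_congr_ae
  apply Eventually.of_forall
  intro x
  have hwid : ∀ r, wid v (slice n (x, r)) = wid v x := by
    intro r
    have h1 : ∀ m, ⟪v m, slice n (x, r)⟫ = ⟪v m, x⟫ := by
      intro m
      rw [inner_slice, horth]
      ring
    simp only [wid, h1]
  by_cases hx : x ∈ vcell v l
  · have hs : ∀ r, ((C ∩ vcell v l).indicator fun y => max (⟪n, y⟫ - c * wid v y) 0)
        (slice n (x, r)) = (Ici (c * wid v x)).indicator (fun r => r - c * wid v x) r := by
      intro r
      have hb2 : ⟪n, slice n (x, r)⟫ = r := by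
        rw [inner_slice, hnn]
        ring
      have hv : slice n (x, r) ∈ vcell v l := (slice_vcell_iff v horth x r l).2 hx
      have hUc : wid v x ≤ c * wid v x := by
        have := hU x
        nlinarith
      by_cases hr : wid v x ≤ r
      · rw [indicator_of_mem (show slice n (x, r) ∈ C ∩ vcell v l from
          ⟨(slice_cell_iff v hn horth x r).2 hr, hv⟩), hb2, hwid]
        by_cases hr2 : c * wid v x ≤ r
        · rw [indicator_of_mem (show r ∈ Ici (c * wid v x) from hr2),
            max_eq_left (by linarith)]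
        · rw [indicator_of_notMem (show r ∉ Ici (c * wid v x) from hr2),
            max_eq_right (by linarith)]
      · have hr2 : r ∉ Ici (c * wid v x) := by
          intro h
          have h' : c * wid v x ≤ r := h
          exact hr (hUc.trans h')
        rw [indicator_of_notMem (fun h => hr ((slice_cell_iff v hn horth x r).1 h.1)),
          indicator_of_notMem hr2]
    simp only
    simp_rw [hs]
    rw [integral_indicator measurableSet_Ici, indicator_of_mem hx, Tf_eq_integral]
  · have hs : ∀ r, ((C ∩ vcell v l).indicator fun y => max (⟪n, y⟫ - c * wid v y) 0)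
        (slice n (x, r)) = 0 := by
      intro r
      apply indicator_of_notMem
      intro h
      exact hx ((slice_vcell_iff v horth x r l).1 h.2)
    simp only
    simp_rw [hs]
    rw [integral_zero, indicator_of_notMem hx]

/-- The geometric data of a fixed point at the deleted vertex, and the reduction of the deletion
step, with the shifted functionals of proportional weights, to one inequality in the facet
moments and the bonus functionals. -/
theorem setup_fixed2 {w : ι → E} {i0 : ι}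
    (hfix : ∀ i, mom (vcell w i) = w i)
    (hobt : ∀ i j, i ≠ j → ⟪w i, w j⟫ < 0)
    (_hmin : ∀ j, ‖w i0‖ ≤ ‖w j‖)
    (hcard : 2 ≤ Fintype.card {l // l ≠ i0}) :
    ∃ (z : ℝ) (a : {l // l ≠ i0} → ℝ) (v : {l // l ≠ i0} → E) (n : E),
      z = ‖w i0‖ ∧ 0 < z ∧ (∀ l, 0 < a l) ∧ ∑ l, a l = 1 ∧ ‖n‖ = 1 ∧
      (∀ j, ⟪v j, n⟫ = 0) ∧ (∀ j l, j ≠ l → ⟪v j, v l⟫ < 0) ∧
      ∑ j, (1 + a j) • v j = 0 ∧
      (∀ j : {l // l ≠ i0}, ‖w j.1‖ ^ 2 = ((1 + a j) * z) ^ 2 * ‖v j‖ ^ 2 + (a j * z) ^ 2) ∧
      (∫ x, ph (wid v x) ∂(stdGaussian E) = z) ∧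
      (∀ j, flux v j = (1 + a j) * z / ((Fintype.card {l // l ≠ i0} : ℝ) + 1)) ∧
      (z * ((2 / ((Fintype.card {l // l ≠ i0} : ℝ) + 1) -
            1 / ((Fintype.card {l // l ≠ i0} : ℝ) + 1) ^ 2) * ∑ j, (1 + a j) ^ 2 - 1) ≤
          2 * ∑ j, ((1 + a j) * topM v j +
            ((Fintype.card {l // l ≠ i0} : ℝ) / ((Fintype.card {l // l ≠ i0} : ℝ) - 1)) *
              max ((1 + a j) * (Fintype.card {l // l ≠ i0} : ℝ) /
                ((Fintype.card {l // l ≠ i0} : ℝ) + 1) - 1) 0 *
              bonusM v j ((1 + a j) / ((1 + a j) * (Fintype.card {l // l ≠ i0} : ℝ) /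
                ((Fintype.card {l // l ≠ i0} : ℝ) + 1) - 1))) →
        ∃ B' : {l // l ≠ i0} → Set E, IsPart B' ∧ Fval (vcell w) ≤ Fval B') := by
  have hne' : Nonempty {l // l ≠ i0} := Fintype.card_pos_iff.1 (by omega)
  set ι' := {l // l ≠ i0} with hι'
  have hne : Nonempty ι := ⟨i0⟩
  set w' : ι' → E := fun l => w l.1 with hw'
  set z : ℝ := ‖w i0‖ with hz
  have hz0 : 0 < z := by
    rw [hz, norm_pos_iff]
    intro h0
    obtain ⟨l⟩ := hne'
    have := hobt l.1 i0 l.2
    rw [h0, inner_zero_right] at this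
    exact lt_irrefl _ this
  have hzz : ⟪w i0, w i0⟫ = z ^ 2 := real_inner_self_eq_norm_sq _
  have hz2 : z ^ 2 ≠ 0 := by positivity
  -- the balance
  have hsumw : w i0 + ∑ l : ι', w l.1 = 0 := by
    have h1 := sum_mom (isPart_vcell w)
    simp_rw [hfix] at h1
    rw [Fintype.sum_eq_add_sum_subtype_ne w i0] at h1
    exact h1
  set a : ι' → ℝ := fun l => -⟪w l.1, w i0⟫ / z ^ 2 with ha_def
  have hpair : ∀ l : ι', ⟪w l.1, w i0⟫ = -(a l * z ^ 2) := by
    intro l
    simp only [ha_def]
    field_simp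
  have ha_pos : ∀ l, 0 < a l := by
    intro l
    apply div_pos _ (by positivity)
    have := hobt l.1 i0 l.2
    linarith
  have ha_nonneg : ∀ l, 0 ≤ a l := fun l => (ha_pos l).le
  have hsum : ∑ l, a l = 1 := by
    simp only [ha_def]
    rw [← Finset.sum_div, Finset.sum_neg_distrib, div_eq_iff hz2, one_mul]
    have h1 : ∑ l : ι', ⟪w l.1, w i0⟫ = ⟪∑ l : ι', w l.1, w i0⟫ := by
      rw [sum_inner]
    have h2 : ∑ l : ι', w l.1 = - w i0 := by
      rw [eq_neg_iff_add_eq_zero, add_comm]
      exact hsumw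
    rw [h1, h2, inner_neg_left, hzz]
    ring
  set v : ι' → E := fun l => ((1 + a l) * z)⁻¹ • (w l.1 + a l • w i0) with hv
  set n : E := z⁻¹ • w i0 with hn
  have hc_pos : ∀ l, 0 < (1 + a l) * z := fun l => by
    have := ha_pos l
    positivity
  have hn1 : ‖n‖ = 1 := by
    rw [hn, norm_smul, norm_inv, norm_norm, ← hz]
    field_simp
  have hinner_base : ∀ (l : ι') (y : E),
      ⟪w l.1 + a l • w i0, y⟫ = ⟪w l.1, y⟫ + a l * ⟪w i0, y⟫ := by
    intro l y
    rw [inner_add_left, inner_smul_left]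
    simp
  have hvx : ∀ l y, ⟪v l, y⟫ = ((1 + a l) * z)⁻¹ * (⟪w l.1, y⟫ + a l * ⟪w i0, y⟫) := by
    intro l y
    simp only [hv]
    rw [inner_smul_left, hinner_base]
    simp
  have hnx : ∀ y, ⟪n, y⟫ = z⁻¹ * ⟪w i0, y⟫ := by
    intro y
    rw [hn, inner_smul_left]
    simp
  have horth : ∀ j, ⟪v j, n⟫ = 0 := by
    intro j
    have hjn : ⟪w j.1, n⟫ = z⁻¹ * ⟪w j.1, w i0⟫ := by
      rw [hn, inner_smul_right]
    have hin : ⟪w i0, n⟫ = z⁻¹ * z ^ 2 := by
      rw [hn, inner_smul_right, hzz]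
    rw [hvx, hjn, hin, hpair]
    ring
  -- the Gram computation
  have hgram : ∀ j l : ι', ⟪w j.1 + a j • w i0, w l.1 + a l • w i0⟫ =
      ⟪w j.1, w l.1⟫ - a j * a l * z ^ 2 := by
    intro j l
    rw [inner_add_left, inner_add_right, inner_add_right, inner_smul_left, inner_smul_right,
      inner_smul_right, inner_smul_left, hpair j, real_inner_comm (w l.1) (w i0), hpair l, hzz]
    simp
    ring
  have hbal : ∑ j, (1 + a j) • v j = 0 := by
    have h1 : ∀ j, (1 + a j) • v j = z⁻¹ • (w j.1 + a j • w i0) := by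
      intro j
      simp only [hv]
      rw [smul_smul]
      congr 1
      have := ha_pos j
      field_simp
    simp_rw [h1]
    rw [← Finset.smul_sum, Finset.sum_add_distrib, ← Finset.sum_smul, hsum, one_smul]
    have h2 : ∑ l : ι', w l.1 = - w i0 := by
      rw [eq_neg_iff_add_eq_zero, add_comm]
      exact hsumw
    rw [h2]
    simp
  have hnormv : ∀ j : ι', ‖w j.1‖ ^ 2 = ((1 + a j) * z) ^ 2 * ‖v j‖ ^ 2 + (a j * z) ^ 2 := by
    intro j
    have h1 : ‖v j‖ ^ 2 = ((1 + a j) * z)⁻¹ ^ 2 * (‖w j.1‖ ^ 2 - a j ^ 2 * z ^ 2) := by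
      simp only [hv]
      rw [norm_smul, mul_pow, norm_inv, Real.norm_eq_abs, abs_of_pos (hc_pos j),
        ← real_inner_self_eq_norm_sq (w j.1 + a j • w i0), hgram, real_inner_self_eq_norm_sq]
      ring
    rw [h1, ← mul_assoc, ← mul_pow, mul_inv_cancel₀ (hc_pos j).ne', one_pow, one_mul]
    ring
  have hneg2 : ∀ j l : ι', j ≠ l → ⟪v j, v l⟫ < 0 := by
    intro j l hjl
    simp only [hv]
    rw [inner_smul_left, inner_smul_right, hgram]
    have hne : j.1 ≠ l.1 := fun h => hjl (Subtype.ext h)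
    have h1 := hobt j.1 l.1 hne
    have h2 : 0 ≤ a j * a l * z ^ 2 := by
      have := ha_pos j
      have := ha_pos l
      positivity
    have h3 : ⟪w j.1, w l.1⟫ - a j * a l * z ^ 2 < 0 := by linarith
    have h4 : 0 < ((1 + a j) * z)⁻¹ := inv_pos.2 (hc_pos j)
    have h5 : 0 < ((1 + a l) * z)⁻¹ := inv_pos.2 (hc_pos l)
    have h6 := mul_neg_of_pos_of_neg h5 h3
    simpa using mul_neg_of_pos_of_neg h4 h6
  -- identify the cell
  set Ct : Set E := {y | ∀ l, ⟪v l, y⟫ ≤ ⟪n, y⟫} with hCt
  have hCtiff : ∀ y, y ∈ Ct ↔ ∀ l : ι', ⟪w l.1, y⟫ ≤ ⟪w i0, y⟫ := by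
    intro y
    have h1 : ∀ l : ι', ⟪n, y⟫ - ⟪v l, y⟫ = ((1 + a l) * z)⁻¹ * (⟪w i0, y⟫ - ⟪w l.1, y⟫) := by
      intro l
      rw [hvx, hnx]
      have := ha_pos l
      field_simp
      ring
    constructor
    · intro hy l
      have h2 : 0 ≤ ⟪n, y⟫ - ⟪v l, y⟫ := by linarith [hy l]
      rw [h1] at h2
      have h3 := inv_pos.2 (hc_pos l)
      have h4 := (mul_nonneg_iff_of_pos_left h3).1 h2
      linarith
    · intro hy l
      have h2 := h1 l
      have h3 := inv_pos.2 (hc_pos l)
      have h4 : 0 ≤ ⟪w i0, y⟫ - ⟪w l.1, y⟫ := by linarith [hy l]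
      have h5 := mul_nonneg h3.le h4
      linarith
  have hmCt : MeasurableSet Ct := measurableSet_cellC v n
  have hsub1 : vcell w i0 ⊆ Ct := by
    intro y hy
    rw [hCtiff]
    intro l
    exact hy.1 l.1
  have hsub2 : Ct \ vcell w i0 ⊆ ⋃ j : ι', {y | ⟪w j.1 - w i0, y⟫ = 0} := by
    intro y hy
    have h1 := (hCtiff y).1 hy.1
    have h2 : ¬ y ∈ vcell w i0 := hy.2
    have hfirst : ∀ j, ⟪w j, y⟫ ≤ ⟪w i0, y⟫ := by
      intro j
      by_cases hj : j = i0
      · rw [hj]
      · exact h1 ⟨j, hj⟩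
    have h3 : ¬ ∀ j, j < i0 → ⟪w j, y⟫ < ⟪w i0, y⟫ := fun hh' => h2 ⟨hfirst, hh'⟩
    push Not at h3
    obtain ⟨j, hj, hj2⟩ := h3
    apply mem_iUnion.2
    refine ⟨⟨j, hj.ne⟩, ?_⟩
    have h4 := hfirst j
    change ⟪w j - w i0, y⟫ = 0
    rw [inner_sub_left]
    linarith
  have hnull : stdGaussian E (Ct \ vcell w i0) = 0 := by
    apply measure_mono_null hsub2
    apply measure_iUnion_null
    intro j
    apply hyperplane_null
    intro h0
    have h1 : w j.1 = w i0 := sub_eq_zero.1 h0
    have h2 := hobt j.1 i0 j.2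
    rw [h1, hzz] at h2
    have : 0 < z ^ 2 := by positivity
    linarith
  have hae : vcell w i0 =ᵐ[stdGaussian E] Ct := by
    rw [ae_eq_set]
    refine ⟨?_, hnull⟩
    rw [sdiff_eq_empty.2 hsub1]
    simp
  have hwn : w i0 = z • n := by
    rw [hn, smul_smul]
    field_simp
    simp
  have hmomC : ∀ b : E, ∫ y in Ct, ⟪b, y⟫ ∂(stdGaussian E) = ⟪b, w i0⟫ := by
    intro b
    rw [← setIntegral_congr_set hae, ← inner_mom, hfix]
  have hperp : ∀ b : E, ⟪b, n⟫ = 0 →
      ∫ y in {y | ∀ l, ⟪v l, y⟫ ≤ ⟪n, y⟫}, ⟪b, y⟫ ∂(stdGaussian E) = 0 := by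
    intro b hb
    rw [hmomC, hwn, inner_smul_right, hb, mul_zero]
  have hZ : ∫ x, ph (wid v x) ∂(stdGaussian E) = z := by
    rw [← cell_moment_axis v hn1 horth, hmomC, hn, inner_smul_left, hzz]
    simp only [conj_trivial]
    field_simp
  have hflux : ∀ j, flux v j = (1 + a j) * z / ((Fintype.card ι' : ℝ) + 1) := by
    intro j
    rw [flux_eq v a hn1 horth ha_nonneg hsum hneg2 hbal hperp j, hZ]
    ring
  refine ⟨z, a, v, n, rfl, hz0, ha_pos, hsum, hn1, horth, hneg2, hbal, hnormv, hZ, hflux, ?_⟩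
  intro hKEY
  have hwl : ∀ l : ι', w l.1 = ((1 + a l) * z) • v l - (a l * z) • n := by
    intro l
    simp only [hv]
    rw [smul_smul, mul_inv_cancel₀ (hc_pos l).ne', one_smul, hn, smul_smul]
    have : a l * z * z⁻¹ = a l := by field_simp
    rw [this]
    abel
  set N : ℝ := (Fintype.card ι' : ℝ) with hNd
  have hN2 : (2 : ℝ) ≤ N := by
    rw [hNd]
    exact_mod_cast hcard
  set K : ℝ := N + 1 with hKd
  have hK0 : 0 < K := by linarith
  set W : ι' → ℝ := fun l => 1 + a l with hW
  have hsumW : ∑ l, W l = K := by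
    simp only [hW]
    rw [Finset.sum_add_distrib, hsum]
    simp [hKd, hNd]
  set τ : ι' → ℝ := fun l => W l / K with hτ
  set b : ι' → ℝ := fun l => W l * N / K - 1 with hb
  set y : ι' → E := fun l => w l.1 + τ l • w i0 with hy
  have hsumτ : ∑ l, τ l = 1 := by
    simp only [hτ]
    rw [← Finset.sum_div, hsumW, div_self hK0.ne']
  have hsumy : ∑ l, y l = 0 := by
    simp only [hy]
    rw [Finset.sum_add_distrib, ← Finset.sum_smul, hsumτ, one_smul]
    rw [add_comm]
    exact hsumw
  have hyv : ∀ l x, ⟪y l, x⟫ = z * (W l * ⟪v l, x⟫ - b l * ⟪n, x⟫) := by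
    intro l x
    have h1 : ⟪w l.1, x⟫ = (1 + a l) * z * ⟪v l, x⟫ - a l * z * ⟪n, x⟫ := by
      conv_lhs => rw [hwl l]
      rw [inner_sub_left, real_inner_smul_left (v l) x ((1 + a l) * z),
        real_inner_smul_left n x (a l * z)]
    have h2 : ⟪w i0, x⟫ = z * ⟪n, x⟫ := by
      conv_lhs => rw [hwn]
      rw [real_inner_smul_left n x z]
    simp only [hy]
    rw [inner_add_left, real_inner_smul_left, h1, h2]
    simp only [hW, hb, hτ]
    have hK1 : K ≠ 0 := hK0.ne'
    have hN1 : N = K - 1 := by rw [hKd]; ring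
    rw [hN1]
    field_simp
    ring
  have hU0 : ∀ x, 0 ≤ wid v x := wid_nonneg v a ha_nonneg hbal
  have hCtu : ⋃ l, (Ct ∩ vcell v l) = Ct := by
    apply Set.Subset.antisymm
    · exact iUnion_subset fun l => inter_subset_left
    · intro x hx
      obtain ⟨l, hl⟩ := exists_mem_vcell v x
      exact mem_iUnion.2 ⟨l, hx, hl⟩
  have hDm : ∀ l, MeasurableSet (Ct ∩ vcell v l) := fun l => hmCt.inter (measurableSet_vcell v l)
  have hDd : Pairwise (Function.onFun Disjoint fun l => Ct ∩ vcell v l) := by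
    intro l m hlm
    exact (disjoint_vcell v hlm).mono inter_subset_right inter_subset_right
  have hwy : Integrable (wid y) (stdGaussian E) := integrable_wid y
  have hsplit : ∫ x in Ct, wid y x ∂(stdGaussian E) =
      ∑ l, ∫ x in Ct ∩ vcell v l, wid y x ∂(stdGaussian E) := by
    have h1 := hasSum_integral_iUnion hDm hDd (f := wid y) (μ := stdGaussian E) hwy.integrableOn
    rw [hCtu] at h1
    exact ((hasSum_fintype _).unique h1).symm
  have hlow : ∀ j, z * (W j * topM v j - b j * flux v j) +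
      N / (N - 1) * (z * (max (b j) 0 * bonusM v j (W j / b j))) ≤
      ∫ x in Ct ∩ vcell v j, wid y x ∂(stdGaussian E) := by
    intro j
    have htop := facet_top v hn1 horth j
    have haxis := facet_axis v hn1 horth j
    have iv : Integrable (fun x => z * (W j * ⟪v j, x⟫ - b j * ⟪n, x⟫)) (stdGaussian E) :=
      (((integrable_inner_std (v j)).const_mul (W j)).sub
        ((integrable_inner_std n).const_mul (b j))).const_mul z
    have ev : ∫ x in Ct ∩ vcell v j, z * (W j * ⟪v j, x⟫ - b j * ⟪n, x⟫) ∂(stdGaussian E) =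
        z * (W j * topM v j - b j * flux v j) := by
      rw [integral_const_mul, integral_sub
        ((integrable_inner_std (v j)).const_mul (W j)).integrableOn
        ((integrable_inner_std n).const_mul (b j)).integrableOn,
        integral_const_mul, integral_const_mul, htop, haxis]
    by_cases hb0 : 0 < b j
    · have hbW : b j ≤ W j := by
        have hWpos : 0 < W j := by
          have := ha_pos j
          simp only [hW]
          linarith
        have h1 : W j * N / K ≤ W j := by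
          rw [div_le_iff₀ hK0]
          rw [hKd]
          nlinarith
        simp only [hb]
        linarith
      have hc : 1 ≤ W j / b j := (one_le_div hb0).2 hbW
      set c : ℝ := W j / b j with hcd
      have hplus := facet_plus v hn1 horth hU0 j hc
      have ip : Integrable (fun x => max (⟪n, x⟫ - c * wid v x) 0) (stdGaussian E) :=
        ((integrable_inner_std n).sub ((integrable_wid v).const_mul c)).pos_part
      rw [max_eq_left hb0.le, ← hplus, ← ev, ← integral_const_mul, ← integral_const_mul,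
        ← integral_const_mul, ← integral_add iv.integrableOn
          ((((ip.const_mul (b j)).const_mul z).const_mul (N / (N - 1))).integrableOn)]
      apply setIntegral_mono_on
        (iv.add ((((ip.const_mul (b j)).const_mul z).const_mul (N / (N - 1))))).integrableOn
        hwy.integrableOn (hDm j)
      intro x hx
      have hcard' : (Fintype.card ι' : ℝ) = N := rfl
      have harms := wid_two_arms y hsumy hcard x j
      rw [hcard', hyv] at harms
      have hvx' : ⟪v j, x⟫ = wid v x := (wid_eq_of_mem hx.2).symm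
      have heq : -(z * (W j * wid v x - b j * ⟪n, x⟫)) =
          z * (b j * (⟪n, x⟫ - c * wid v x)) := by
        simp only [hcd]
        field_simp
        ring
      have hmax : max (z * (b j * (⟪n, x⟫ - c * wid v x))) 0 =
          z * (b j * max (⟪n, x⟫ - c * wid v x) 0) := by
        rw [mul_max_of_nonneg _ _ hb0.le, mul_max_of_nonneg _ _ hz0.le]
        simp
      rw [hvx', heq, hmax] at harms
      change z * (W j * ⟪v j, x⟫ - b j * ⟪n, x⟫) +
        N / (N - 1) * (z * (b j * max (⟪n, x⟫ - c * wid v x) 0)) ≤ wid y x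
      rw [hvx']
      exact harms
    · have hb1 : max (b j) 0 = 0 := max_eq_right (not_lt.1 hb0)
      rw [hb1, zero_mul, mul_zero, mul_zero, add_zero, ← ev]
      apply setIntegral_mono_on iv.integrableOn hwy.integrableOn (hDm j)
      intro x _
      have := le_wid y x j
      rw [hyv] at this
      exact this
  have hsum2 : ∫ x in vcell w i0, wid y x ∂(stdGaussian E) ≥
      ∑ j, (z * (W j * topM v j - b j * flux v j) +
        N / (N - 1) * (z * (max (b j) 0 * bonusM v j (W j / b j)))) := by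
    rw [setIntegral_congr_set hae, hsplit]
    exact Finset.sum_le_sum fun j _ => hlow j
  have hsumτ2 : ∑ l, τ l ^ 2 = (∑ l, W l ^ 2) / K ^ 2 := by
    simp only [hτ, div_pow]
    rw [Finset.sum_div]
  have hsumb : ∑ j, b j * flux v j = z * (N / K ^ 2 * ∑ l, W l ^ 2 - 1) := by
    have h1 : ∀ j, b j * flux v j = z * (N / K ^ 2) * W j ^ 2 - z / K * W j := by
      intro j
      rw [hflux j]
      simp only [hb, hW]
      field_simp
    simp_rw [h1]
    rw [Finset.sum_sub_distrib, ← Finset.mul_sum, ← Finset.mul_sum, hsumW]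
    field_simp
  have hdecomp : ∑ j, (z * (W j * topM v j - b j * flux v j) +
        N / (N - 1) * (z * (max (b j) 0 * bonusM v j (W j / b j)))) =
      z * ∑ j, (W j * topM v j + N / (N - 1) * max (b j) 0 * bonusM v j (W j / b j)) -
        z * ∑ j, b j * flux v j := by
    rw [Finset.mul_sum, Finset.mul_sum, ← Finset.sum_sub_distrib]
    apply Finset.sum_congr rfl
    intro j _
    ring
  apply step_delete2 hfix τ (S := ∑ l, τ l ^ 2) le_rfl
  change (1 + ∑ l, τ l ^ 2) * ‖w i0‖ ^ 2 ≤ 2 * ∫ x in vcell w i0, wid y x ∂(stdGaussian E)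
  rw [hdecomp, hsumb] at hsum2
  rw [hsumτ2]
  have hk1 : ‖w i0‖ ^ 2 = z ^ 2 := rfl
  rw [hk1]
  have hKEY' := mul_le_mul_of_nonneg_left hKEY hz0.le
  have hal : (1 + (∑ l, W l ^ 2) / K ^ 2) * z ^ 2 =
      z * (z * ((2 / K - 1 / K ^ 2) * ∑ l, W l ^ 2 - 1)) -
        2 * (z * (z * (N / K ^ 2 * ∑ l, W l ^ 2 - 1))) := by
    have hN1 : N = K - 1 := by rw [hKd]; ring
    rw [hN1]
    field_simp
    ring
  rw [hal]
  have hm2 : z * (2 * ∑ j, (W j * topM v j + N / (N - 1) * max (b j) 0 * bonusM v j (W j / b j))) =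
      2 * (z * ∑ j, (W j * topM v j + N / (N - 1) * max (b j) 0 * bonusM v j (W j / b j))) := by
    ring
  rw [hm2] at hKEY'
  linarith

end Vale.Agent.P226h19
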