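import Vale.Agent.P226h19.SteinTent
import Vale.Agent.P226h19.JBound

/-! T1: the chord inequality for the tent of the maximum. -/

open MeasureTheory ProbabilityTheory Real Set Filter Topology
open scoped RealInnerProductSpace ENNReal NNReal

namespace Vale.Agent.P226h19

open Vale.Agent.P226h14 Vale.Agent.P226h6

variable {E : Type*} [NormedAddCommGroup E] [InnerProductSpace ℝ E] [FiniteDimensional ℝ E]
  [MeasurableSpace E] [BorelSpace E]
variable {ι : Type*} [Fintype ι] [LinearOrder ι]

lemma tent_mul_eq {t T m : ℝ} (htT : t < T) (hm : m < T) :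
    tent t T m * (T - t) = T - max t m := by
  have h : 0 < T - t := sub_pos.2 htT
  unfold tent
  rcases le_total m t with hmt | hmt
  · have h1 : 1 ≤ (T - m) / (T - t) := by
      rw [le_div_iff₀ h]
      linarith
    rw [max_eq_left hmt, min_eq_left h1, max_eq_right zero_le_one, one_mul]
  · have h1 : (T - m) / (T - t) ≤ 1 := by
      rw [div_le_iff₀ h]
      linarith
    have h2 : 0 ≤ (T - m) / (T - t) := div_nonneg (by linarith) h.le
    rw [max_eq_right hmt, min_eq_right h1, max_eq_right h2]
    field_simp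

lemma tent_eq_zero {t T m : ℝ} (htT : t < T) (hm : T ≤ m) : tent t T m = 0 := by
  have h : 0 < T - t := sub_pos.2 htT
  unfold tent
  have h1 : (T - m) / (T - t) ≤ 0 := div_nonpos_of_nonpos_of_nonneg (by linarith) h.le
  rw [min_eq_right (h1.trans zero_le_one), max_eq_left h1]

lemma measurableSet_layerT (v : ι → E) (j : ι) (t T : ℝ) : MeasurableSet (layer v j t T) := by
  have : Nonempty ι := ⟨j⟩
  refine (measurableSet_vcell v j).inter ?_
  have hm := measurable_wid v
  exact (measurableSet_lt measurable_const hm).inter (measurableSet_le hm measurable_const)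

/-- the pointwise estimate on one line in the direction of `v j` -/
lemma tent_line (v : ι → E) (j : ι) (hneg : ∀ l, l ≠ j → ⟪v l, v j⟫ ≤ 0) (hvj : v j ≠ 0)
    {t T : ℝ} (ht : 0 < t) (htT : t < T) (x : E) (r0 : ℝ) :
    ((T - t) / ‖v j‖ * ph (T / ‖v j‖)) * tent t T (wid v (slice (‖v j‖⁻¹ • v j) (x, r0))) ≤
      (gaussianReal 0 1).real {r | slice (‖v j‖⁻¹ • v j) (x, r) ∈ layer v j t T} := by
  classical
  have : Nonempty ι := ⟨j⟩
  set s : ℝ := ‖v j‖ with hs
  have hs0 : 0 < s := norm_pos_iff.2 hvj
  set u : E := s⁻¹ • v j with hu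
  have hvu : ⟪v j, u⟫ = s := by
    rw [hu, inner_smul_right, real_inner_self_eq_norm_sq, ← hs]
    field_simp
  have hu1 : ‖u‖ = 1 := by
    rw [hu, norm_smul, norm_inv, norm_norm, ← hs]
    field_simp
  have huu : ⟪u, u⟫ = 1 := by
    rw [real_inner_self_eq_norm_sq, hu1]
    norm_num
  have hux : ∀ x, ⟪u, x⟫ = s⁻¹ * ⟪v j, x⟫ := by
    intro x
    rw [hu, inner_smul_left]
    simp
  have hjs : ∀ x r, ⟪v j, slice u (x, r)⟫ = s * r := by
    intro x r
    rw [inner_slice, hvu, hux]
    field_simp
    ring
  have hls : ∀ l, l ≠ j → ⟪v l, u⟫ ≤ 0 := by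
    intro l hl
    rw [hu, inner_smul_right]
    have := hneg l hl
    have h2 : 0 ≤ s⁻¹ := by positivity
    nlinarith
  set D : Set ℝ := {r | slice u (x, r) ∈ layer v j t T} with hD
  have hP0 : 0 ≤ ph (T / s) := (ph_pos _).le
  have hT : 0 < T := ht.trans htT
  have hDm : MeasurableSet D := (measurable_slice_right u x) (measurableSet_layerT v j t T)
  set U0 : ℝ := wid v (slice u (x, r0)) with hU0
  by_cases hU : T ≤ U0
  · rw [tent_eq_zero htT hU, mul_zero]
    exact measureReal_nonneg
  · push Not at hU
    set c : ℝ := max t U0 with hc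
    have hct : t ≤ c := le_max_left _ _
    have hcU : U0 ≤ c := le_max_right _ _
    have hcT : c < T := max_lt htT hU
    have hc0 : 0 < c := ht.trans_le hct
    have htent : tent t T U0 * (T - t) = T - c := tent_mul_eq htT hU
    have hr0 : s * r0 ≤ c := by
      have h1 := le_wid v (slice u (x, r0)) j
      rw [hjs] at h1
      linarith
    have hsub : Ioc (c / s) (T / s) ⊆ D := by
      intro r hr
      have hr1 : c < s * r := by
        have := hr.1
        rw [div_lt_iff₀ hs0] at this
        linarith
      have hr2 : s * r ≤ T := by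
        have := hr.2
        rw [le_div_iff₀ hs0] at this
        linarith
      have hrr : r0 ≤ r := by
        have : s * r0 ≤ s * r := by linarith
        exact le_of_mul_le_mul_left this hs0
      have hother : ∀ m, m ≠ j → ⟪v m, slice u (x, r)⟫ < s * r := by
        intro m hm
        have h0 := le_wid v (slice u (x, r0)) m
        rw [inner_slice] at h0 ⊢
        have h3 := hls m hm
        have h4 : ⟪v m, x⟫ - ⟪u, x⟫ * ⟪v m, u⟫ + r * ⟪v m, u⟫ ≤
            ⟪v m, x⟫ - ⟪u, x⟫ * ⟪v m, u⟫ + r0 * ⟪v m, u⟫ := by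
          nlinarith
        linarith
      have hcell : slice u (x, r) ∈ vcell v j := by
        constructor
        · intro m
          by_cases hm : m = j
          · rw [hm]
          · rw [hjs]
            exact (hother m hm).le
        · intro m hm
          rw [hjs]
          exact hother m (ne_of_lt hm)
      have hw : wid v (slice u (x, r)) = s * r := by
        rw [wid_eq_of_mem hcell, hjs]
      refine ⟨hcell, ?_, ?_⟩
      · show t < wid v (slice u (x, r))
        rw [hw]
        linarith
      · show wid v (slice u (x, r)) ≤ T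
        rw [hw]
        exact hr2
    have hlo : (T / s - c / s) * ph (T / s) ≤ (gaussianReal 0 1).real D := by
      have hab : c / s ≤ T / s := div_le_div_of_nonneg_right hcT.le hs0.le
      have h0 : 0 ≤ c / s := by positivity
      have h1 := gauss_Ioc_lower h0 hab
      have h2 : (gaussianReal 0 1).real (Ioc (c / s) (T / s)) ≤ (gaussianReal 0 1).real D :=
        measureReal_mono hsub
      linarith
    calc (T - t) / s * ph (T / s) * tent t T U0
        = (tent t T U0 * (T - t)) / s * ph (T / s) := by ring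
      _ = (T - c) / s * ph (T / s) := by rw [htent]
      _ = (T / s - c / s) * ph (T / s) := by ring
      _ ≤ _ := hlo

/-- **The general tent chord inequality.** -/
theorem tent_chord_gen (v : ι → E) (j : ι)
    (hneg : ∀ l, l ≠ j → ⟪v l, v j⟫ ≤ 0) (hvj : v j ≠ 0) {t T : ℝ}
    (ht : 0 < t) (htT : t < T) (l : ℝ) :
    ((T - t) / ‖v j‖ * ph (T / ‖v j‖)) *
        ∫ y, (⟪(‖v j‖⁻¹ • v j : E), y⟫ + l) * tent t T (wid v y) ∂(stdGaussian E) ≤
      (∫ r in Icc (-l) (T / ‖v j‖), (r + l) ∂(gaussianReal 0 1)) *
        (stdGaussian E).real (layer v j t T) := by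
  classical
  have : Nonempty ι := ⟨j⟩
  set s : ℝ := ‖v j‖ with hs
  have hs0 : 0 < s := norm_pos_iff.2 hvj
  set u : E := s⁻¹ • v j with hu
  have hu1 : ‖u‖ = 1 := by
    rw [hu, norm_smul, norm_inv, norm_norm, ← hs]
    field_simp
  have huu : ⟪u, u⟫ = 1 := by
    rw [real_inner_self_eq_norm_sq, hu1]
    norm_num
  have hvu : ⟪v j, u⟫ = s := by
    rw [hu, inner_smul_right, real_inner_self_eq_norm_sq, ← hs]
    field_simp
  have hux : ∀ x, ⟪u, x⟫ = s⁻¹ * ⟪v j, x⟫ := by
    intro x
    rw [hu, inner_smul_left]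
    simp
  have hjs : ∀ x r, ⟪v j, slice u (x, r)⟫ = s * r := by
    intro x r
    rw [inner_slice, hvu, hux]
    field_simp
    ring
  have hus : ∀ x r, ⟪u, slice u (x, r)⟫ = r := by
    intro x r
    rw [inner_slice, huu]
    ring
  set X : ℝ := T / s with hX
  set S : Set E := layer v j t T with hS
  have hmS : MeasurableSet S := measurableSet_layerT v j t T
  have hUm := measurable_wid v
  have hψm : Measurable fun y => tent t T (wid v y) := (measurable_tent t T).comp hUm
  have hψb : ∀ y, ‖tent t T (wid v y)‖ ≤ 1 := by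
    intro y
    rw [Real.norm_eq_abs, abs_of_nonneg (tent_nonneg _ _ _)]
    exact tent_le_one _ _ _
  have hlin : Integrable (fun y : E => ⟪u, y⟫ + l) (stdGaussian E) :=
    (integrable_inner_std u).add (integrable_const _)
  set f : E → ℝ := fun y => (⟪u, y⟫ + l) * tent t T (wid v y) with hf
  have hfint : Integrable f (stdGaussian E) :=
    hlin.mul_bdd (c := 1) hψm.aestronglyMeasurable (Eventually.of_forall hψb)
  set g : E → ℝ := S.indicator fun _ => (1 : ℝ) with hg
  have hgint : Integrable g (stdGaussian E) := (integrable_const (1 : ℝ)).indicator hmS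
  set D : E → Set ℝ := fun x => {r | slice u (x, r) ∈ S} with hD
  have hmD : ∀ x, MeasurableSet (D x) := fun x => (measurable_slice_right u x) hmS
  have hgs : ∀ x r, g (slice u (x, r)) = (D x).indicator (fun _ => (1 : ℝ)) r := by
    intro x r
    by_cases h : slice u (x, r) ∈ S
    · rw [hg, indicator_of_mem h, indicator_of_mem (show r ∈ D x from h)]
    · rw [hg, indicator_of_notMem h, indicator_of_notMem (show r ∉ D x from h)]
  have hgi : ∀ x, ∫ r, g (slice u (x, r)) ∂(gaussianReal 0 1) = (gaussianReal 0 1).real (D x) := by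
    intro x
    simp_rw [hgs]
    rw [integral_indicator (hmD x)]
    simp
  have e2 : (stdGaussian E).real S = ∫ x, ∫ r, g (slice u (x, r)) ∂(gaussianReal 0 1) ∂(stdGaussian E) := by
    rw [← integral_slice u hu1 hgint]
    simp only [hg]
    rw [integral_indicator hmS]
    simp
  obtain ⟨-, hout1⟩ := integrable_slice u hu1 hfint
  obtain ⟨-, hout2⟩ := integrable_slice u hu1 hgint
  rw [integral_slice u hu1 hfint, e2, ← integral_const_mul, ← integral_const_mul]
  apply integral_mono (hout1.const_mul _) (hout2.const_mul _)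
  intro x
  simp only
  rw [hgi]
  -- the inner inequality
  set C : ℝ := (T - t) / s * ph X with hC
  have hC0 : 0 ≤ C := by
    have h1 : 0 < T - t := by linarith
    have := ph_pos X
    positivity
  set L : ℝ := (gaussianReal 0 1).real (D x) with hL
  have hL0 : 0 ≤ L := measureReal_nonneg
  have hline : ∀ r, C * tent t T (wid v (slice u (x, r))) ≤ L := by
    intro r
    exact tent_line v j hneg hvj ht htT x r
  have hid : Integrable (fun r : ℝ => r + l) (gaussianReal 0 1) := by
    have h1 : Integrable (fun r : ℝ => r) (gaussianReal 0 1) :=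
      memLp_id_gaussianReal (μ := 0) (v := 1) 1 |>.integrable (by norm_num)
    exact h1.add (integrable_const _)
  have hfslice : ∀ r, f (slice u (x, r)) = (r + l) * tent t T (wid v (slice u (x, r))) := by
    intro r
    simp only [hf]
    rw [hus]
  simp_rw [hfslice]
  have hψ2m : Measurable fun r => tent t T (wid v (slice u (x, r))) :=
    hψm.comp (measurable_slice_right u x)
  have hinner : Integrable (fun r : ℝ => (r + l) * tent t T (wid v (slice u (x, r))))
      (gaussianReal 0 1) :=
    hid.mul_bdd (c := 1) hψ2m.aestronglyMeasurable (Eventually.of_forall fun r => hψb _)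
  have hind : Integrable ((Icc (-l) X).indicator fun r : ℝ => (r + l) * L) (gaussianReal 0 1) :=
    (hid.mul_const L).indicator measurableSet_Icc
  have hmain : ∫ r, C * ((r + l) * tent t T (wid v (slice u (x, r)))) ∂(gaussianReal 0 1) ≤
      ∫ r, (Icc (-l) X).indicator (fun r : ℝ => (r + l) * L) r ∂(gaussianReal 0 1) := by
    apply integral_mono (hinner.const_mul C) hind
    intro r
    simp only
    by_cases hr1 : r + l < 0
    · -- below the interval
      have hnot : r ∉ Icc (-l) X := fun h => by linarith [h.1]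
      rw [indicator_of_notMem hnot]
      have h1 : 0 ≤ tent t T (wid v (slice u (x, r))) := tent_nonneg _ _ _
      have h2 : (r + l) * tent t T (wid v (slice u (x, r))) ≤ 0 :=
        mul_nonpos_of_nonpos_of_nonneg hr1.le h1
      exact mul_nonpos_of_nonneg_of_nonpos hC0 h2
    · push Not at hr1
      by_cases hr2 : r ≤ X
      · rw [indicator_of_mem (show r ∈ Icc (-l) X from ⟨by linarith, hr2⟩)]
        calc C * ((r + l) * tent t T (wid v (slice u (x, r))))
            = (r + l) * (C * tent t T (wid v (slice u (x, r)))) := by ring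
          _ ≤ (r + l) * L := mul_le_mul_of_nonneg_left (hline r) hr1
      · push Not at hr2
        have hnot : r ∉ Icc (-l) X := fun h => by linarith [h.2]
        rw [indicator_of_notMem hnot]
        have h1 : T ≤ wid v (slice u (x, r)) := by
          have h2 := le_wid v (slice u (x, r)) j
          rw [hjs] at h2
          have h3 : T < s * r := by
            rw [hX, div_lt_iff₀ hs0] at hr2
            linarith
          linarith
        rw [tent_eq_zero htT h1]
        simp
  rw [integral_const_mul, integral_indicator measurableSet_Icc, integral_mul_const] at hmain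
  exact hmain

/-- the first moment of the Gaussian over a compact interval -/
lemma setIntegral_Icc_id {a b : ℝ} (hab : a ≤ b) :
    ∫ r in Icc a b, r ∂(gaussianReal 0 1) = ph a - ph b := by
  rw [setIntegral_gaussian measurableSet_Icc, integral_Icc_eq_integral_Ioc,
    ← intervalIntegral.integral_of_le hab]
  have hd : ∀ x ∈ uIcc a b, HasDerivAt (fun r => -ph r) (ph x * x) x := by
    intro x _
    have := (hasDerivAt_ph x).fun_neg
    refine this.congr_deriv ?_
    ring
  rw [intervalIntegral.integral_eq_sub_of_hasDerivAt hd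
    ((Continuous.intervalIntegrable (by
      have := continuous_ph
      fun_prop) a b))]
  ring

lemma ph_neg' (x : ℝ) : ph (-x) = ph x := by
  unfold ph
  simp

/-- the central mass -/
lemma gauss_Icc_central {X : ℝ} (hX : 0 ≤ X) :
    (gaussianReal 0 1).real (Icc (-X) X) = 1 - 2 * Qf X := by
  rw [gaussReal_eq_integral measurableSet_Icc, integral_Icc_eq_integral_Ioc,
    ← intervalIntegral.integral_of_le (by linarith)]
  have hph : ∀ a b : ℝ, IntervalIntegrable ph MeasureTheory.volume a b := fun a b =>
    continuous_ph.intervalIntegrable a b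
  rw [← intervalIntegral.integral_add_adjacent_intervals (hph (-X) 0) (hph 0 X)]
  have h1 : ∫ r in (-X)..0, ph r = ∫ r in (0 : ℝ)..X, ph r := by
    have := intervalIntegral.integral_comp_neg (a := 0) (b := X) ph
    simp only [neg_zero, ph_neg'] at this
    exact this.symm
  rw [h1, Qf_sub X, Qf_zero]
  ring

/-- Corollary (a): `l = T / ‖v j‖`. -/
theorem tent_chord (v : ι → E) (j : ι)
    (hneg : ∀ l, l ≠ j → ⟪v l, v j⟫ ≤ 0) (hvj : v j ≠ 0) {t T : ℝ}
    (ht : 0 < t) (htT : t < T) :
    (T - t) * ph (T / ‖v j‖) * ∫ y, (⟪v j, y⟫ + T) * tent t T (wid v y) ∂(stdGaussian E) ≤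
      T * ‖v j‖ * (1 - 2 * Qf (T / ‖v j‖)) * (stdGaussian E).real (layer v j t T) := by
  have h := tent_chord_gen v j hneg hvj ht htT (T / ‖v j‖)
  set s : ℝ := ‖v j‖ with hs
  have hs0 : 0 < s := norm_pos_iff.2 hvj
  set X : ℝ := T / s with hX
  have hX0 : 0 ≤ X := by
    have : 0 < T := ht.trans htT
    positivity
  have hI : ∫ r in Icc (-X) X, (r + X) ∂(gaussianReal 0 1) = X * (1 - 2 * Qf X) := by
    have h1 : IntegrableOn (fun r : ℝ => r) (Icc (-X) X) (gaussianReal 0 1) :=
      (memLp_id_gaussianReal (μ := 0) (v := 1) 1 |>.integrable (by norm_num)).integrableOn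
    rw [integral_add h1 (integrableOn_const (by simp)), setIntegral_Icc_id (by linarith),
      ph_neg']
    simp only [integral_const, smul_eq_mul, MeasurableSet.univ, measureReal_restrict_apply,
      univ_inter]
    rw [gauss_Icc_central hX0]
    ring
  rw [hI] at h
  have hint : ∫ y, (⟪(s⁻¹ • v j : E), y⟫ + X) * tent t T (wid v y) ∂(stdGaussian E) =
      s⁻¹ * ∫ y, (⟪v j, y⟫ + T) * tent t T (wid v y) ∂(stdGaussian E) := by
    rw [← integral_const_mul]
    apply integral_congr_ae
    apply Eventually.of_forall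
    intro y
    simp only
    rw [inner_smul_left, hX]
    simp only [map_inv₀, conj_trivial]
    field_simp
  rw [hint] at h
  have hm := mul_le_mul_of_nonneg_left h (sq_nonneg s)
  have e1 : s ^ 2 * ((T - t) / s * ph X * (s⁻¹ * ∫ y, (⟪v j, y⟫ + T) * tent t T (wid v y) ∂(stdGaussian E))) =
      (T - t) * ph X * ∫ y, (⟪v j, y⟫ + T) * tent t T (wid v y) ∂(stdGaussian E) := by
    field_simp
  have e2 : s ^ 2 * (X * (1 - 2 * Qf X) * (stdGaussian E).real (layer v j t T)) =
      T * s * (1 - 2 * Qf X) * (stdGaussian E).real (layer v j t T) := by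
    rw [hX]
    field_simp
  rw [e1, e2] at hm
  exact hm

/-- Corollary (b): `l = 0`. -/
theorem tent_chord_zero (v : ι → E) (j : ι)
    (hneg : ∀ l, l ≠ j → ⟪v l, v j⟫ ≤ 0) (hvj : v j ≠ 0) {t T : ℝ}
    (ht : 0 < t) (htT : t < T) :
    (T - t) * ph (T / ‖v j‖) * ∫ y, ⟪v j, y⟫ * tent t T (wid v y) ∂(stdGaussian E) ≤
      ‖v j‖ ^ 2 * (ph 0 - ph (T / ‖v j‖)) * (stdGaussian E).real (layer v j t T) := by
  have h := tent_chord_gen v j hneg hvj ht htT 0
  set s : ℝ := ‖v j‖ with hs
  have hs0 : 0 < s := norm_pos_iff.2 hvj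
  set X : ℝ := T / s with hX
  have hX0 : 0 ≤ X := by
    have : 0 < T := ht.trans htT
    positivity
  have hI : ∫ r in Icc (-0) X, (r + 0) ∂(gaussianReal 0 1) = ph 0 - ph X := by
    simp only [neg_zero, add_zero]
    exact setIntegral_Icc_id hX0
  rw [hI] at h
  have hint : ∫ y, (⟪(s⁻¹ • v j : E), y⟫ + 0) * tent t T (wid v y) ∂(stdGaussian E) =
      s⁻¹ * ∫ y, ⟪v j, y⟫ * tent t T (wid v y) ∂(stdGaussian E) := by
    rw [← integral_const_mul]
    apply integral_congr_ae
    apply Eventually.of_forall
    intro y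
    simp only
    rw [inner_smul_left]
    simp only [map_inv₀, conj_trivial]
    ring
  rw [hint] at h
  have hm := mul_le_mul_of_nonneg_left h (sq_nonneg s)
  have e1 : s ^ 2 * ((T - t) / s * ph X * (s⁻¹ * ∫ y, ⟪v j, y⟫ * tent t T (wid v y) ∂(stdGaussian E))) =
      (T - t) * ph X * ∫ y, ⟪v j, y⟫ * tent t T (wid v y) ∂(stdGaussian E) := by
    field_simp
  have e2 : s ^ 2 * ((ph 0 - ph X) * (stdGaussian E).real (layer v j t T)) =
      s ^ 2 * (ph 0 - ph X) * (stdGaussian E).real (layer v j t T) := by
    ring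
  rw [e1, e2] at hm
  exact hm

end Vale.Agent.P226h19
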