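import Vale.Agent.P226h19.CertDefs
import Vale.Agent.P226h19.Setup2
import Vale.Agent.P226h19.Dual
import Vale.Agent.P226h19.Hazard
import Vale.Agent.P226h19.JBound
import Vale.Agent.P226h19.JBound0
import Vale.Agent.P226h19.TentChord
import Vale.Agent.P226h19.CertBox
import Vale.Agent.P226h19.CertJ

/-! Module A of the certificate: the real form of the certificate implies `Key2`. -/

open MeasureTheory ProbabilityTheory Real Set Filter Topology
open scoped RealInnerProductSpace ENNReal NNReal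

namespace Vale.Agent.P226h19

open Vale.Agent.P226h14 hiding Qf
open Vale.Agent.P226h6

variable {E : Type*} [NormedAddCommGroup E] [InnerProductSpace ℝ E] [FiniteDimensional ℝ E]
  [MeasurableSpace E] [BorelSpace E]
variable {ι : Type*} [Fintype ι] [LinearOrder ι]

/-- the grid -/
noncomputable def gr (q : ℕ) : ℝ := ((q : ℝ) + 1) / 32

lemma gr_strictMono : StrictMono gr := by
  apply strictMono_nat_of_lt_succ
  intro q
  simp only [gr]
  push_cast
  linarith

lemma gr_pos (q : ℕ) : 0 < gr q := by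
  simp only [gr]
  positivity

lemma gr_succ (q : ℕ) : gr (q + 1) = ((q : ℝ) + 2) / 32 := by
  simp only [gr]
  push_cast
  ring

lemma gr_ratio (q : ℕ) : gr (q + 1) / (gr (q + 1) - gr q) = (q : ℝ) + 2 := by
  rw [gr_succ]
  simp only [gr]
  field_simp
  ring

lemma gr_inv (q : ℕ) : 1 / ((gr (q + 1) - gr q) * gr (q + 1)) = 1024 / ((q : ℝ) + 2) := by
  rw [gr_succ]
  simp only [gr]
  have : (q : ℝ) + 2 ≠ 0 := by positivity
  field_simp
  ring

/-- the conclusion: KEY2 of `setup_fixed2` with `N` the number of facets -/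
def Key2 (v : ι → E) (a : ι → ℝ) (z : ℝ) : Prop :=
  z * ((2 / ((Fintype.card ι : ℝ) + 1) - 1 / ((Fintype.card ι : ℝ) + 1) ^ 2) * ∑ j, (1 + a j) ^ 2 - 1) ≤
    2 * ∑ j, ((1 + a j) * topM v j +
      ((Fintype.card ι : ℝ) / ((Fintype.card ι : ℝ) - 1)) *
        max ((1 + a j) * (Fintype.card ι : ℝ) / ((Fintype.card ι : ℝ) + 1) - 1) 0 *
        bonusM v j ((1 + a j) / ((1 + a j) * (Fintype.card ι : ℝ) / ((Fintype.card ι : ℝ) + 1) - 1)))

/-- weight of a layer -/
noncomputable def pHq (k W1b : ℝ) (lam kap eta : ℕ → ℝ) (q : ℕ) : ℝ :=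
  k * lam q + (k - W1b) * (kap q + eta q)

lemma tailS_const_mul (N : ℕ) (c : ℝ) (p : ℕ → ℝ) (q : ℕ) :
    tailS N (fun i => c * p i) q = c * tailS N p q := by
  unfold tailS
  rw [Finset.mul_sum]

omit [LinearOrder ι] in
lemma EQ_nonneg (v : ι → E) (t T : ℝ) : 0 ≤ EQ v t T :=
  integral_nonneg fun _ => tent_nonneg _ _ _

section Combo

variable (v : ι → E) (W : ι → ℝ)

/-- The combination of the three hazard inequalities at one layer. -/
theorem haz_combo [Nonempty ι] (hW : ∀ j, 0 ≤ W j) (hbal : ∑ j, W j • v j = 0)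
    (hv : ∀ j, v j ≠ 0) (hd : ∀ j l, j ≠ l → v j ≠ v l)
    (hneg : ∀ j l, j ≠ l → ⟪v j, v l⟫ < 0) (j1 : ι) (q : ℕ)
    (lam kap eta : ℝ) (hlam : 0 ≤ lam) (hkap : 0 ≤ kap) (heta : 0 ≤ eta)
    (J : ι → ℝ) (J1 J0 k W1b : ℝ) (hk : ∑ j, W j = k) (hW1b : W j1 ≤ W1b)
    (hJ : ∀ l, l ≠ j1 →
      1 - 2 * Qf (gr (q + 1) / ‖v l‖) ≤ (gr (q + 1) / ‖v l‖) * ph (gr (q + 1) / ‖v l‖) * J l)
    (hJ1 : lam ≠ 0 →
      1 - 2 * Qf (gr (q + 1) / ‖v j1‖) ≤ (gr (q + 1) / ‖v j1‖) * ph (gr (q + 1) / ‖v j1‖) * J1)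
    (hJ0 : eta ≠ 0 →
      ph 0 - ph (gr (q + 1) / ‖v j1‖) ≤ ph (gr (q + 1) / ‖v j1‖) * (gr (q + 1) / ‖v j1‖) ^ 2 * J0) :
    (k * lam + (k - W1b) * (kap + eta)) * EQ v (gr q) (gr (q + 1)) ≤
      ∑ l ∈ Finset.univ.erase j1, (W l * (((q : ℝ) + 2) * J l * (lam + kap + eta)) +
          kap * W j1 * (-⟪v j1, v l⟫) * (1024 / ((q : ℝ) + 2))) * Pl v l (gr q) (gr (q + 1)) +
        W j1 * (((q : ℝ) + 2) * (lam * J1 + eta * J0) - kap * ‖v j1‖ ^ 2 * (1024 / ((q : ℝ) + 2))) *
          Pl v j1 (gr q) (gr (q + 1)) := by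
  classical
  set t := gr q with ht_def
  set T := gr (q + 1) with hT_def
  have ht : 0 < t := gr_pos q
  have htT : t < T := gr_strictMono (Nat.lt_succ_self q)
  have hT : 0 < T := ht.trans htT
  have hch : ChordA v t T := fun j =>
    tent_chord v j (fun l hl => (hneg l j hl).le) (hv j) ht htT
  have hchb : ChordB v t T j1 :=
    tent_chord_zero v j1 (fun l hl => (hneg l j1 hl).le) (hv j1) ht htT
  have hpos : 0 < (T / ‖v j1‖) * ph (T / ‖v j1‖) :=
    mul_pos (div_pos hT (norm_pos_iff.2 (hv j1))) (ph_pos _)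
  -- the bound for every facet with a free value at `j1`
  set X : ℝ := (1 - 2 * Qf (T / ‖v j1‖)) / ((T / ‖v j1‖) * ph (T / ‖v j1‖)) with hX
  have hBX : ∀ (Y : ℝ), (1 - 2 * Qf (T / ‖v j1‖) ≤ (T / ‖v j1‖) * ph (T / ‖v j1‖) * Y) →
      ∀ j, 1 - 2 * Qf (T / ‖v j‖) ≤ (T / ‖v j‖) * ph (T / ‖v j‖) * (Function.update J j1 Y) j := by
    intro Y hY j
    by_cases hj : j = j1
    · subst hj
      simpa using hY
    · rw [Function.update_of_ne hj]
      exact hJ j hj
  have hXb : 1 - 2 * Qf (T / ‖v j1‖) ≤ (T / ‖v j1‖) * ph (T / ‖v j1‖) * X := by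
    rw [hX, mul_div_cancel₀ _ hpos.ne']
  have hEq := EQ_nonneg v t T
  -- abbreviations
  set P : ι → ℝ := fun j => Pl v j t T with hP
  set S : ℝ := ∑ l ∈ Finset.univ.erase j1, W l * (T / (T - t)) * J l * P l with hS
  have hup : ∀ Y : ℝ, ∑ l ∈ Finset.univ.erase j1,
      W l * (T / (T - t)) * (Function.update J j1 Y) l * Pl v l t T = S := by
    intro Y
    refine Finset.sum_congr rfl fun l hl => ?_
    rw [Function.update_of_ne (Finset.ne_of_mem_erase hl)]
  -- mode S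
  have hmS := haz_S v W (Function.update J j1 X) hW hbal hv hd ht htT hch (hBX X hXb) j1
  rw [hup, hk] at hmS
  -- mode T
  have hmT : lam * (k * EQ v t T) ≤ lam * (S + W j1 * (T / (T - t)) * J1 * P j1) := by
    by_cases h0 : lam = 0
    · simp [h0]
    · have h1 := haz_T v W (Function.update J j1 J1) hW hbal hv ht htT hch (hBX J1 (hJ1 h0))
      rw [hk, ← Finset.add_sum_erase Finset.univ _ (Finset.mem_univ j1), hup] at h1
      rw [Function.update_self] at h1
      apply mul_le_mul_of_nonneg_left _ hlam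
      linarith
  -- mode E
  have hmE : eta * ((k - W j1) * EQ v t T) ≤ eta * (S + W j1 * (T / (T - t)) * J0 * P j1) := by
    by_cases h0 : eta = 0
    · simp [h0]
    · have h1 := haz_E v W (Function.update J j1 X) hW hbal hv ht htT hch (hBX X hXb) j1 hchb
        (hJ0 h0)
      rw [hk, hup] at h1
      exact mul_le_mul_of_nonneg_left h1 heta
  have hmS' := mul_le_mul_of_nonneg_left hmS hkap
  -- the ratio
  have hr1 : T / (T - t) = (q : ℝ) + 2 := gr_ratio q
  have hr2 : W j1 / ((T - t) * T) = W j1 * (1024 / ((q : ℝ) + 2)) := by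
    rw [← gr_inv q, mul_one_div]
  rw [hr2] at hmS'
  rw [hr1] at hmT hmE
  -- rewriting the sum on the right
  have hS' : S = ((q : ℝ) + 2) * ∑ l ∈ Finset.univ.erase j1, W l * J l * P l := by
    rw [hS, hr1, Finset.mul_sum]
    exact Finset.sum_congr rfl fun l _ => by ring
  have hR : ∑ l ∈ Finset.univ.erase j1, (W l * (((q : ℝ) + 2) * J l * (lam + kap + eta)) +
          kap * W j1 * (-⟪v j1, v l⟫) * (1024 / ((q : ℝ) + 2))) * P l =
      (lam + kap + eta) * S + kap * W j1 * (1024 / ((q : ℝ) + 2)) *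
        ∑ l ∈ Finset.univ.erase j1, (-⟪v j1, v l⟫) * P l := by
    rw [hS', ← mul_assoc, Finset.mul_sum, Finset.mul_sum, ← Finset.sum_add_distrib]
    exact Finset.sum_congr rfl fun l _ => by ring
  rw [hR]
  have hW1 : (k - W1b) * (kap + eta) * EQ v t T ≤ (k - W j1) * (kap + eta) * EQ v t T := by
    apply mul_le_mul_of_nonneg_right _ hEq
    apply mul_le_mul_of_nonneg_right _ (add_nonneg hkap heta)
    linarith
  nlinarith [hmT, hmE, hmS', hW1]

end Combo

/-- The identity for the base multiplier. -/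
lemma nu0_mul (k al xi W : ℝ) (hk : k ≠ 0) (hW : W ≠ 0) :
    nu0 k al xi W * (W / k) = W ^ 2 / k - (al + xi * (W - k / (k - 1)) + (W / k) ^ 2) / 2 := by
  unfold nu0
  generalize al + xi * (W - k / (k - 1)) + (W / k) ^ 2 = X
  field_simp

theorem key2_of_real [Nonempty ι]
    {v : ι → E} {a : ι → ℝ} {z : ℝ} (hz : 0 < z) (ha : ∀ l, 0 < a l) (hsum : ∑ l, a l = 1)
    (hneg : ∀ j l, j ≠ l → ⟪v j, v l⟫ < 0)
    (hbal : ∑ j, (1 + a j) • v j = 0)
    (hflux : ∀ j, flux v j = (1 + a j) * z / ((Fintype.card ι : ℝ) + 1))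
    (hN : 3 ≤ Fintype.card ι) (j1 : ι) (NL : ℕ)
    (lam kap eta : ℕ → ℝ) (hlam : ∀ q, 0 ≤ lam q) (hkap : ∀ q, 0 ≤ kap q) (heta : ∀ q, 0 ≤ eta q)
    (K al alE xi W1b : ℝ) (hK : 0 ≤ K) (hW1b : 1 + a j1 ≤ W1b)
    (hW1k : W1b ≤ (Fintype.card ι : ℝ) + 1)
    (J : ι → ℕ → ℝ) (J1 J0 : ℕ → ℝ)
    (hJ : ∀ l, l ≠ j1 → ∀ q, q < NL →
      1 - 2 * Qf (gr (q + 1) / ‖v l‖) ≤ (gr (q + 1) / ‖v l‖) * ph (gr (q + 1) / ‖v l‖) * J l q)
    (hJ1 : ∀ q, q < NL → lam q ≠ 0 →
      1 - 2 * Qf (gr (q + 1) / ‖v j1‖) ≤ (gr (q + 1) / ‖v j1‖) * ph (gr (q + 1) / ‖v j1‖) * J1 q)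
    (hJ0 : ∀ q, q < NL → eta q ≠ 0 →
      ph 0 - ph (gr (q + 1) / ‖v j1‖) ≤ ph (gr (q + 1) / ‖v j1‖) * (gr (q + 1) / ‖v j1‖) ^ 2 * J0 q)
    (hKk : ∀ q, q < NL → kap q * (1024 / ((q : ℝ) + 2)) ≤ K * Real.exp (-(gr (q + 1)) ^ 2 / 2))
    (hfinal : alE + ((Fintype.card ι : ℝ) - 1) * al
      + (2 / ((Fintype.card ι : ℝ) + 1)) * K * (1 + a j1) ^ 2 * ‖v j1‖ ^ 2 ≤ 1)
    -- the pointwise bounds for the ordinary facets
    (hPa : ∀ l, l ≠ j1 → ∀ m, 0 ≤ m → m ≤ gr 0 →
      nu0 ((Fintype.card ι : ℝ) + 1) al xi (1 + a l) * ph m ≤ (1 + a l) * (m * Qf m)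
        + bonT (Fintype.card ι : ℝ) (1 + a l) m
        + ph 0 * tailS NL (pHq ((Fintype.card ι : ℝ) + 1) W1b lam kap eta) 0)
    (hPb : ∀ l, l ≠ j1 → ∀ q, q < NL → ∀ m, gr q < m → m ≤ gr (q + 1) →
      nu0 ((Fintype.card ι : ℝ) + 1) al xi (1 + a l) * ph m ≤ (1 + a l) * (m * Qf m)
        + bonT (Fintype.card ι : ℝ) (1 + a l) m
        + ph 0 * (tailS NL (pHq ((Fintype.card ι : ℝ) + 1) W1b lam kap eta) (q + 1)
          + pHq ((Fintype.card ι : ℝ) + 1) W1b lam kap eta q * ((gr (q + 1) - m) / (gr (q + 1) - gr q))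
          - (1 + a l) * (((q : ℝ) + 2) * J l q * (lam q + kap q + eta q))))
    (hPc : ∀ l, l ≠ j1 → ∀ m, gr NL < m →
      nu0 ((Fintype.card ι : ℝ) + 1) al xi (1 + a l) * ph m ≤ (1 + a l) * (m * Qf m))
    -- the pointwise bounds for the exceptional facet
    (hQa : ∀ m, 0 ≤ m → m ≤ gr 0 →
      nu0 ((Fintype.card ι : ℝ) + 1) alE xi (1 + a j1) * ph m ≤ (1 + a j1) * (m * Qf m)
        + bonT (Fintype.card ι : ℝ) (1 + a j1) m
        + ph 0 * tailS NL (pHq ((Fintype.card ι : ℝ) + 1) W1b lam kap eta) 0)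
    (hQb : ∀ q, q < NL → ∀ m, gr q < m → m ≤ gr (q + 1) →
      nu0 ((Fintype.card ι : ℝ) + 1) alE xi (1 + a j1) * ph m ≤ (1 + a j1) * (m * Qf m)
        + bonT (Fintype.card ι : ℝ) (1 + a j1) m
        + ph 0 * (tailS NL (pHq ((Fintype.card ι : ℝ) + 1) W1b lam kap eta) (q + 1)
          + pHq ((Fintype.card ι : ℝ) + 1) W1b lam kap eta q * ((gr (q + 1) - m) / (gr (q + 1) - gr q))
          - (1 + a j1) * (((q : ℝ) + 2) * (lam q * J1 q + eta q * J0 q)
              - kap q * ‖v j1‖ ^ 2 * (1024 / ((q : ℝ) + 2)))))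
    (hQc : ∀ m, gr NL < m →
      nu0 ((Fintype.card ι : ℝ) + 1) alE xi (1 + a j1) * ph m ≤ (1 + a j1) * (m * Qf m)) :
    Key2 v a z := by
  classical
  unfold Key2
  set N : ℝ := (Fintype.card ι : ℝ) with hNdef
  have hN3 : (3 : ℝ) ≤ N := by
    rw [hNdef]; exact_mod_cast hN
  set k : ℝ := N + 1 with hk
  have hkpos : 0 < k := by linarith
  set W : ι → ℝ := fun j => 1 + a j with hW
  have hWpos : ∀ j, 0 < W j := fun j => by
    have := ha j
    simp only [hW]; linarith
  have hsumW : ∑ j, W j = k := by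
    simp only [hW, Finset.sum_add_distrib, hsum, Finset.sum_const, Finset.card_univ, nsmul_eq_mul,
      mul_one]
    rw [hk, hNdef]
  have hex : ∀ j : ι, ∃ l, j ≠ l := fun j => by
    have : Nontrivial ι := Fintype.one_lt_card_iff_nontrivial.1 (by omega)
    obtain ⟨l, hl⟩ := exists_ne j
    exact ⟨l, hl.symm⟩
  have hv : ∀ j, v j ≠ 0 := fun j hj => by
    obtain ⟨l, hl⟩ := hex j
    have := hneg j l hl
    rw [hj, inner_zero_left] at this
    exact lt_irrefl _ this
  have hd : ∀ j l, j ≠ l → v j ≠ v l := fun j l hl he => by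
    have := hneg j l hl
    rw [he, real_inner_self_eq_norm_sq] at this
    nlinarith [sq_nonneg ‖v l‖]
  have hU : ∀ y, 0 ≤ wid v y := fun y => by
    by_contra hc
    have hc' : wid v y < 0 := not_le.1 hc
    have hlt : ∀ j, ⟪v j, y⟫ < 0 := fun j => (le_wid v y j).trans_lt hc'
    have e0 : ∑ j, W j * ⟪v j, y⟫ = 0 := by
      have : ⟪∑ j, W j • v j, y⟫ = 0 := by
        have h0 : ∑ j, W j • v j = 0 := hbal
        rw [h0, inner_zero_left]
      rw [sum_inner] at this
      simpa [real_inner_smul_left] using this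
    have e1 : ∑ j, W j * ⟪v j, y⟫ < 0 :=
      Finset.sum_neg (fun j _ => mul_neg_of_pos_of_neg (hWpos j) (hlt j)) Finset.univ_nonempty
    linarith
  -- the exceptional and the ordinary multipliers
  have hinner : ∀ l, l ≠ j1 → 0 < -⟪v j1, v l⟫ := fun l hl => by
    have := hneg j1 l hl.symm
    linarith
  set ν : ι → ℝ := fun j => if j = j1 then nu0 k alE xi (W j1)
      else nu0 k al xi (W j) - K * W j1 * (-⟪v j1, v j⟫) with hν
  set C : ι → ℕ → ℝ := fun j q => if j = j1 then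
      ph 0 * (W j1 * (((q : ℝ) + 2) * (lam q * J1 q + eta q * J0 q) -
        kap q * ‖v j1‖ ^ 2 * (1024 / ((q : ℝ) + 2))))
      else ph 0 * (W j * (((q : ℝ) + 2) * J j q * (lam q + kap q + eta q)) +
        kap q * W j1 * (-⟪v j1, v j⟫) * (1024 / ((q : ℝ) + 2))) with hC
  set B : ι → ℝ := fun j => (N / (N - 1)) * max (W j * N / (N + 1) - 1) 0 with hB
  set c : ι → ℝ := fun j => W j / (W j * N / (N + 1) - 1) with hc
  set P : ℕ → ℝ := pHq k W1b lam kap eta with hP
  have hbon : ∀ j m, B j * Tf (c j * m) = bonT N (W j) m := fun j m => rfl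
  have hph0 : 0 < ph 0 := ph_pos 0
  have hmain := dual_sum v hU NL gr gr_strictMono (fun q => ph 0 * P q) C W ν B c ?_ ?_ ?_ ?_
  · -- the final computation
    have hN1 : N - 1 ≠ 0 := by intro h; linarith
    have hk0 : k ≠ 0 := hkpos.ne'
    have hkN : k - 1 = N := by rw [hk]; ring
    have hsumE : ∀ f : ι → ℝ, ∑ j, f j = f j1 + ∑ l ∈ Finset.univ.erase j1, f l := fun f =>
      (Finset.add_sum_erase Finset.univ f (Finset.mem_univ j1)).symm
    -- the sum of the weights against the exceptional vector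
    have hin : ∑ l ∈ Finset.univ.erase j1, W l * (-⟪v j1, v l⟫) = W j1 * ‖v j1‖ ^ 2 := by
      have e0 : ∑ j, W j * ⟪v j1, v j⟫ = 0 := by
        have h0 : ∑ j, W j • v j = 0 := hbal
        have : ⟪v j1, ∑ j, W j • v j⟫ = 0 := by rw [h0, inner_zero_right]
        rw [inner_sum] at this
        simpa [real_inner_smul_right] using this
      rw [hsumE, real_inner_self_eq_norm_sq] at e0
      rw [Finset.sum_congr rfl (fun l _ => mul_neg (W l) ⟪v j1, v l⟫), Finset.sum_neg_distrib]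
      linarith
    have hW1 : ∑ l ∈ Finset.univ.erase j1, W l = k - W j1 := by
      have := hsumE W
      rw [hsumW] at this
      linarith
    have hcard : ((Finset.univ.erase j1).card : ℝ) = N - 1 := by
      rw [Finset.card_erase_of_mem (Finset.mem_univ j1), Finset.card_univ, hNdef]
      have : 1 ≤ Fintype.card ι := by omega
      push_cast [this]
      ring
    set SQ : ℝ := ∑ j, W j ^ 2 with hSQ
    have hSQ' : ∑ l ∈ Finset.univ.erase j1, W l ^ 2 = SQ - W j1 ^ 2 := by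
      have := hsumE (fun j => W j ^ 2)
      simp only at this
      rw [hSQ, this]
      ring
    have hsumν : ∑ j, ν j * flux v j =
        z * (SQ * (1 / k - 1 / (2 * k ^ 2)) - (alE + (N - 1) * al) / 2 -
          (K / k) * W j1 ^ 2 * ‖v j1‖ ^ 2) := by
      have h1 : ∀ j, ν j * flux v j = z * (ν j * (W j / k)) := fun j => by
        rw [hflux j]
        ring
      rw [Finset.sum_congr rfl (fun j _ => h1 j), ← Finset.mul_sum, hsumE]
      congr 1
      have hj1 : ν j1 * (W j1 / k) = W j1 ^ 2 * (1 / k - 1 / (2 * k ^ 2)) - alE / 2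
          - xi / 2 * W j1 + xi / 2 * (k / (k - 1)) := by
        simp only [hν, if_true]
        rw [nu0_mul k alE xi (W j1) hk0 (hWpos j1).ne']
        field_simp
        ring
      have hjl : ∀ l ∈ Finset.univ.erase j1, ν l * (W l / k) =
          W l ^ 2 * (1 / k - 1 / (2 * k ^ 2)) - xi / 2 * W l + (xi / 2 * (k / (k - 1)) - al / 2)
            - K * W j1 / k * (W l * (-⟪v j1, v l⟫)) := fun l hl => by
        have hl' : l ≠ j1 := Finset.ne_of_mem_erase hl
        simp only [hν, if_neg hl']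
        rw [sub_mul, nu0_mul k al xi (W l) hk0 (hWpos l).ne']
        generalize ⟪v j1, v l⟫ = u
        field_simp
        ring
      rw [hj1, Finset.sum_congr rfl hjl, Finset.sum_sub_distrib, Finset.sum_add_distrib,
        Finset.sum_sub_distrib, ← Finset.sum_mul, ← Finset.mul_sum, ← Finset.mul_sum, hin,
        hSQ', hW1, Finset.sum_const, nsmul_eq_mul, hcard, hkN]
      have hkk : k / N = (N + 1) / N := by rw [hk]
      have hkk2 : (N - 1) * (xi / 2 * (k / N)) + xi / 2 * (k / N) = xi / 2 * k := by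
        have : N ≠ 0 := by linarith
        field_simp
        ring
      linear_combination hkk2
    have hfin' : alE + (N - 1) * al + (2 / k) * K * W j1 ^ 2 * ‖v j1‖ ^ 2 ≤ 1 := hfinal
    have hgoal : z * ((2 / k - 1 / k ^ 2) * SQ - 1) ≤ 2 * ∑ j, ν j * flux v j := by
      rw [hsumν]
      have e : 2 * (z * (SQ * (1 / k - 1 / (2 * k ^ 2)) - (alE + (N - 1) * al) / 2 -
          (K / k) * W j1 ^ 2 * ‖v j1‖ ^ 2)) = z * ((2 / k - 1 / k ^ 2) * SQ -
            (alE + (N - 1) * al + (2 / k) * K * W j1 ^ 2 * ‖v j1‖ ^ 2)) := by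
        field_simp
        ring
      rw [e]
      apply mul_le_mul_of_nonneg_left _ hz.le
      linarith
    have hle : ∑ j, ν j * flux v j ≤ ∑ j, (W j * topM v j + B j * bonusM v j (c j)) := hmain
    linarith
  · -- the hazard inequality
    intro q hq
    have hcomb := haz_combo v W (fun j => (hWpos j).le) hbal hv hd hneg j1 q (lam q) (kap q) (eta q)
      (hlam q) (hkap q) (heta q) (fun l => J l q) (J1 q) (J0 q) k W1b hsumW hW1b
      (fun l hl => hJ l hl q hq) (hJ1 q hq) (hJ0 q hq)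
    have hc2 := mul_le_mul_of_nonneg_left hcomb hph0.le
    have e1 : ph 0 * P q * EQ v (gr q) (gr (q + 1)) =
        ph 0 * ((k * lam q + (k - W1b) * (kap q + eta q)) * EQ v (gr q) (gr (q + 1))) := by
      simp only [hP, pHq]
      ring
    rw [e1]
    refine hc2.trans_eq ?_
    have hsplit : ∑ j, C j q * Pl v j (gr q) (gr (q + 1)) = C j1 q * Pl v j1 (gr q) (gr (q + 1)) +
        ∑ l ∈ Finset.univ.erase j1, C l q * Pl v l (gr q) (gr (q + 1)) :=
      (Finset.add_sum_erase Finset.univ _ (Finset.mem_univ j1)).symm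
    have hE : ∑ l ∈ Finset.univ.erase j1, C l q * Pl v l (gr q) (gr (q + 1)) =
        ph 0 * ∑ l ∈ Finset.univ.erase j1, (W l * (((q : ℝ) + 2) * J l q * (lam q + kap q + eta q)) +
          kap q * W j1 * (-⟪v j1, v l⟫) * (1024 / ((q : ℝ) + 2))) * Pl v l (gr q) (gr (q + 1)) := by
      rw [Finset.mul_sum]
      refine Finset.sum_congr rfl fun l hl => ?_
      simp only [hC, if_neg (Finset.ne_of_mem_erase hl)]
      ring
    rw [hsplit, hE]
    simp only [hC, if_true]
    ring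
  · -- low part
    intro j m h0 h1
    rw [tailS_const_mul, hbon]
    by_cases hj : j = j1
    · rw [hj]
      simp only [hν, if_true]
      exact hQa m h0 h1
    · simp only [hν, if_neg hj]
      have h2 := hPa j hj m h0 h1
      have h3 : 0 ≤ K * W j1 * (-⟪v j1, v j⟫) * ph m :=
        mul_nonneg (mul_nonneg (mul_nonneg hK (hWpos j1).le) (hinner j hj).le) (ph_pos m).le
      rw [sub_mul]
      have h4 : nu0 k al xi (W j) * ph m ≤ W j * (m * Qf m) + bonT N (W j) m + ph 0 * tailS NL P 0 :=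
        h2
      linarith
  · -- middle part
    intro j q hq m h0 h1
    rw [tailS_const_mul, hbon]
    by_cases hj : j = j1
    · rw [hj]
      simp only [hν, hC, if_true]
      have h2 : nu0 k alE xi (W j1) * ph m ≤ W j1 * (m * Qf m) + bonT N (W j1) m +
          ph 0 * (tailS NL P (q + 1) + P q * ((gr (q + 1) - m) / (gr (q + 1) - gr q)) -
            W j1 * (((q : ℝ) + 2) * (lam q * J1 q + eta q * J0 q) -
              kap q * ‖v j1‖ ^ 2 * (1024 / ((q : ℝ) + 2)))) := hQb q hq m h0 h1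
      refine h2.trans_eq ?_
      ring
    · simp only [hν, hC, if_neg hj]
      have h2 : nu0 k al xi (W j) * ph m ≤ W j * (m * Qf m) + bonT N (W j) m +
          ph 0 * (tailS NL P (q + 1) + P q * ((gr (q + 1) - m) / (gr (q + 1) - gr q)) -
            W j * (((q : ℝ) + 2) * J j q * (lam q + kap q + eta q))) := hPb j hj q hq m h0 h1
      -- the comparison of the correction term
      have hm0 : 0 < m := (gr_pos q).trans h0
      have hexp : Real.exp (-(gr (q + 1)) ^ 2 / 2) ≤ Real.exp (-m ^ 2 / 2) := by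
        apply Real.exp_le_exp.2
        have : m ^ 2 ≤ gr (q + 1) ^ 2 := by
          apply pow_le_pow_left₀ hm0.le h1
        linarith
      have hphm : ph m = ph 0 * Real.exp (-m ^ 2 / 2) := by
        unfold ph
        simp
      have hkey : ph 0 * (kap q * (1024 / ((q : ℝ) + 2))) ≤ K * ph m := by
        rw [hphm]
        calc ph 0 * (kap q * (1024 / ((q : ℝ) + 2)))
            ≤ ph 0 * (K * Real.exp (-(gr (q + 1)) ^ 2 / 2)) :=
              mul_le_mul_of_nonneg_left (hKk q hq) hph0.le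
          _ ≤ ph 0 * (K * Real.exp (-m ^ 2 / 2)) :=
              mul_le_mul_of_nonneg_left (mul_le_mul_of_nonneg_left hexp hK) hph0.le
          _ = K * (ph 0 * Real.exp (-m ^ 2 / 2)) := by ring
      have hmul := mul_le_mul_of_nonneg_right hkey
        (mul_nonneg (hWpos j1).le (hinner j hj).le)
      rw [sub_mul]
      nlinarith [h2, hmul]
  · -- high part
    intro j m h0
    rw [hbon]
    have hnn : 0 ≤ bonT N (W j) m := bonT_nonneg (by linarith) _ _
    by_cases hj : j = j1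
    · rw [hj]
      simp only [hν, if_true]
      have h2 : nu0 k alE xi (W j1) * ph m ≤ W j1 * (m * Qf m) := hQc m h0
      have hnn' : 0 ≤ bonT N (W j1) m := bonT_nonneg (by linarith) _ _
      linarith
    · simp only [hν, if_neg hj]
      have h2 : nu0 k al xi (W j) * ph m ≤ W j * (m * Qf m) := hPc j hj m h0
      have h3 : 0 ≤ K * W j1 * (-⟪v j1, v j⟫) * ph m :=
        mul_nonneg (mul_nonneg (mul_nonneg hK (hWpos j1).le) (hinner j hj).le) (ph_pos m).le
      rw [sub_mul]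
      linarith

end Vale.Agent.P226h19
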