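import Vale.Agent.P226h19.CertReal
import Vale.Agent.P226h19.CertBox
import Vale.Agent.P226h19.CertJ

/-! The table check implies the hypotheses of the real criterion. -/

open MeasureTheory ProbabilityTheory Real Set Filter Topology
open scoped RealInnerProductSpace ENNReal NNReal

namespace Vale.Agent.P226h19

open Vale.Agent.P226h14 hiding Qf
open Vale.Agent.P226h6

lemma Sc_cast : ((Sc : ℤ) : ℝ) = 10 ^ 10 := by norm_num [Sc]
lemma Dd_cast : ((Dd : ℤ) : ℝ) = 10 ^ 12 := by norm_num [Dd]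
lemma Sc_pos : (0 : ℝ) < ((Sc : ℤ) : ℝ) := by rw [Sc_cast]; norm_num
lemma Dd_pos : (0 : ℝ) < ((Dd : ℤ) : ℝ) := by rw [Dd_cast]; norm_num

section unpack

variable {h : Head} {d : Data}

/-- the conjuncts of the table check -/
lemma unpackT (hT : checkT h d = true) :
    h.k = 5 ∧ h.NL = 67 ∧ h.kapI = 12 ∧ h.W1b ≤ 128 ∧ 64 ≤ h.W1a ∧ (∀ x ∈ d.lam, 0 ≤ x) ∧
      (∀ x ∈ d.kap, 0 ≤ x) ∧ (∀ x ∈ d.eta, 0 ≤ x) ∧ 0 ≤ h.Kh ∧ tailsOK h d = true ∧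
      chainOK h.rows 64 (192 - h.W1a) = true ∧
      (∀ q, q < h.NL → d.kap.getD q 0 * 1024 * Dd ≤ h.Kh * (EL (2 * q + 4) : ℤ) * ((q : ℤ) + 2)) ∧
      0 < h.VbD ∧
      (h.alE + (h.k - 2) * h.alB) * h.k * 4096 * h.VbD + 2 * h.Kh * h.W1b ^ 2 * h.VbN
        ≤ Sc * h.k * 4096 * h.VbD ∧
      (∀ r ∈ h.rows, rowOK h d r = true) ∧ cellOK h d = true := by
  simp only [checkT, Bool.and_eq_true, decide_eq_true_eq, List.all_eq_true, List.mem_range] at hT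
  obtain ⟨⟨⟨⟨⟨⟨⟨⟨⟨⟨⟨⟨⟨⟨⟨h1, h2⟩, h3⟩, h4⟩, h5⟩, h6⟩, h7⟩, h8⟩, h9⟩, h10⟩, h11⟩, h12⟩, h13⟩, h14⟩, h15⟩, h16⟩ := hT
  exact ⟨h1, h2, h3, h4, h5, h6, h7, h8, h9, h10, h11, h12, h13, h14, h15, h16⟩

lemma getD_nonneg {l : List ℤ} (hl : ∀ x ∈ l, 0 ≤ x) (q : ℕ) : 0 ≤ l.getD q 0 := by
  rw [List.getD_eq_getElem?_getD]
  rcases hq : l[q]? with _ | x
  · simp
  · simpa using hl x (List.mem_of_getElem? hq)

/-- covering by the rows -/
lemma chain_cover : ∀ (rs : List (ℤ × ℤ)) (lo hi : ℤ), chainOK rs lo hi = true →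
    ∀ x : ℝ, (lo : ℝ) / 64 < x → x ≤ (hi : ℝ) / 64 →
      ∃ r ∈ rs, (r.1 : ℝ) / 64 ≤ x ∧ x ≤ (r.2 : ℝ) / 64 := by
  intro rs
  induction rs with
  | nil =>
    intro lo hi hc x h1 h2
    simp only [chainOK, decide_eq_true_eq] at hc
    exfalso
    have : (hi : ℝ) ≤ lo := by exact_mod_cast hc
    have h3 : (hi : ℝ) / 64 ≤ (lo : ℝ) / 64 := by linarith
    linarith
  | cons r rs ih =>
    intro lo hi hc x h1 h2
    simp only [chainOK, Bool.and_eq_true, decide_eq_true_eq] at hc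
    by_cases hx : x ≤ (r.2 : ℝ) / 64
    · refine ⟨r, List.mem_cons_self, ?_, hx⟩
      have : (r.1 : ℝ) ≤ lo := by exact_mod_cast hc.1
      have h3 : (r.1 : ℝ) / 64 ≤ (lo : ℝ) / 64 := by linarith
      linarith
    · obtain ⟨r', hr', h3⟩ := ih r.2 hi hc.2 x (not_le.1 hx) h2
      exact ⟨r', List.mem_cons_of_mem _ hr', h3⟩

end unpack

section reals

variable (h : Head) (d : Data)

/-- real multipliers -/
noncomputable def lamR (q : ℕ) : ℝ := ((d.lam.getD q 0 : ℤ) : ℝ) / ((Sc : ℤ) : ℝ)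
noncomputable def kapR (q : ℕ) : ℝ := ((d.kap.getD q 0 : ℤ) : ℝ) / ((Sc : ℤ) : ℝ)
noncomputable def etaR (q : ℕ) : ℝ := ((d.eta.getD q 0 : ℤ) : ℝ) / ((Sc : ℤ) : ℝ)

/-- real layer weight -/
noncomputable def pHR : ℕ → ℝ :=
  pHq 5 ((h.W1b : ℝ) / 64) (lamR d) (kapR d) (etaR d)

variable {h d}

lemma pHR_eq (hk : h.k = 5) (q : ℕ) : pHR h d q = ((piH h d q : ℤ) : ℝ) / (((Sc : ℤ) : ℝ) * 64) := by
  have hS := Sc_pos
  simp only [pHR, pHq, lamR, kapR, etaR, piH, hk]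
  push_cast
  field_simp
  ring

lemma tailS_eq (hk : h.k = 5) (ht : tailsOK h d = true) :
    ∀ q, q ≤ h.NL → tailS h.NL (pHR h d) q = ((d.tails.getD q 0 : ℤ) : ℝ) / (((Sc : ℤ) : ℝ) * 128) := by
  simp only [tailsOK, Bool.and_eq_true, decide_eq_true_eq, List.all_eq_true, List.mem_range] at ht
  obtain ⟨ht1, ht2⟩ := ht
  have hS := Sc_pos
  intro q hq
  induction hq using Nat.decreasingInduction with
  | self =>
    simp only [tailS, Finset.Ico_self, Finset.sum_empty, ht2]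
    simp
  | of_succ q hq ih =>
    have hlt : q < h.NL := hq
    unfold tailS at ih ⊢
    rw [Finset.sum_eq_sum_Ico_succ_bot hlt, ih, pHR_eq hk, ht1 q hlt]
    push_cast
    field_simp
    ring

end reals

section pointwise

variable {h : Head} {d : Data}

/-- one sublayer -/
lemma sub_bound {Wa Wb al c P : ℤ} {i : ℕ} (hi : i + 1 ≤ 400)
    (hb : boxOK 5 Wa Wb (EL (i + 1)) (EH i) (RH i) c P h.xiI al = true)
    {W m : ℝ} (hW0 : 0 < W) (hW1 : (Wa : ℝ) / 64 ≤ W) (hW2 : W ≤ (Wb : ℝ) / 64)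
    (hm0 : (i : ℝ) / 64 ≤ m) (hm1 : m ≤ ((i : ℝ) + 1) / 64) :
    nu0 5 ((al : ℝ) / ((Sc : ℤ) : ℝ)) ((h.xiI : ℝ) / ((Sc : ℤ) : ℝ)) W * ph m ≤
      W * (m * Qf m) + ph 0 * ((P : ℝ) / (((Sc : ℤ) : ℝ) * 128) - W * ((c : ℝ) / ((Sc : ℤ) : ℝ) ^ 2)) := by
  obtain ⟨e1, e2⟩ := exp_bracket hi hm0 hm1
  have hR := Tf_le_RH_of_le (i := i) (by omega) hm0
  have hbs := box_sound (k := 5) (by norm_num) hb hW1 hW2 e1 e2
  have hk5 : (((5 : ℤ) : ℝ)) = 5 := by norm_num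
  rw [hk5] at hbs
  exact pt_of_D (k := 5) (by norm_num) hW0 hR hbs

/-- the bottom box -/
lemma bottom_bound {Wa Wb al P : ℤ}
    (hb : boxOK 5 Wa Wb (EL 2) Dd Dd 0 P h.xiI al = true)
    {W m : ℝ} (hW0 : 0 < W) (hW1 : (Wa : ℝ) / 64 ≤ W) (hW2 : W ≤ (Wb : ℝ) / 64)
    (hm0 : 0 ≤ m) (hm1 : m ≤ 2 / 64) :
    nu0 5 ((al : ℝ) / ((Sc : ℤ) : ℝ)) ((h.xiI : ℝ) / ((Sc : ℤ) : ℝ)) W * ph m ≤
      W * (m * Qf m) + ph 0 * ((P : ℝ) / (((Sc : ℤ) : ℝ) * 128)) := by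
  have hD := Dd_pos
  have e0 := (exp_bracket (i := 1) (m := 2 / 64) (by norm_num) (by norm_num) (by norm_num)).1
  have e1 : ((EL 2 : ℤ) : ℝ) / ((Dd : ℤ) : ℝ) ≤ Real.exp (-m ^ 2 / 2) := by
    refine e0.trans (Real.exp_le_exp.2 ?_)
    nlinarith
  have e2 : Real.exp (-m ^ 2 / 2) ≤ ((Dd : ℤ) : ℝ) / ((Dd : ℤ) : ℝ) := by
    rw [div_self hD.ne']
    apply Real.exp_le_one_iff.2
    nlinarith [sq_nonneg m]
  have hbs := box_sound (k := 5) (by norm_num) hb hW1 hW2 e1 e2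
  have hk5 : (((5 : ℤ) : ℝ)) = 5 := by norm_num
  rw [hk5] at hbs
  have hR : Tf m ≤ ((Dd : ℤ) : ℝ) / ((Dd : ℤ) : ℝ) * ph m := by
    rw [div_self hD.ne', one_mul]
    unfold Tf
    have : 0 ≤ Qf m := measureReal_nonneg
    nlinarith
  have := pt_of_D (k := 5) (by norm_num) hW0 hR hbs
  simpa using this

/-- the top box -/
lemma top_bound {Wa Wb al : ℤ} {i : ℕ} (hi : i ≤ 400)
    (hb : boxOK 5 Wa Wb Dd Dd (RH i) 0 0 h.xiI al = true)
    {W m : ℝ} (hW0 : 0 < W) (hW1 : (Wa : ℝ) / 64 ≤ W) (hW2 : W ≤ (Wb : ℝ) / 64)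
    (hm0 : (i : ℝ) / 64 ≤ m) :
    nu0 5 ((al : ℝ) / ((Sc : ℤ) : ℝ)) ((h.xiI : ℝ) / ((Sc : ℤ) : ℝ)) W * ph m ≤ W * (m * Qf m) := by
  have hD := Dd_pos
  have hone : ((Dd : ℤ) : ℝ) / ((Dd : ℤ) : ℝ) = 1 := div_self hD.ne'
  have hbs := box_sound (k := 5) (by norm_num) hb hW1 hW2 (e := 1) hone.le hone.ge
  have hk5 : (((5 : ℤ) : ℝ)) = 5 := by norm_num
  rw [hk5] at hbs
  have hR := Tf_le_RH_of_le hi hm0
  have hscale : ∀ (R xi a e : ℝ), realD 5 W e R (((0 : ℤ) : ℝ) / ((Sc : ℤ) : ℝ) ^ 2)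
      (((0 : ℤ) : ℝ) / (((Sc : ℤ) : ℝ) * 128)) xi a =
      e * realD 5 W 1 R (((0 : ℤ) : ℝ) / ((Sc : ℤ) : ℝ) ^ 2)
      (((0 : ℤ) : ℝ) / (((Sc : ℤ) : ℝ) * 128)) xi a := by
    intro R xi a e
    simp only [realD]
    push_cast
    ring
  have hbe : 0 ≤ realD 5 W (Real.exp (-m ^ 2 / 2)) (((RH i : ℤ) : ℝ) / ((Dd : ℤ) : ℝ))
      (((0 : ℤ) : ℝ) / ((Sc : ℤ) : ℝ) ^ 2) (((0 : ℤ) : ℝ) / (((Sc : ℤ) : ℝ) * 128))
      ((h.xiI : ℝ) / ((Sc : ℤ) : ℝ)) ((al : ℝ) / ((Sc : ℤ) : ℝ)) := by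
    rw [hscale]
    exact mul_nonneg (Real.exp_pos _).le hbs
  have := pt_of_D (k := 5) (by norm_num) hW0 hR hbe
  simpa using this

end pointwise

section classes

variable {h : Head} {d : Data}

lemma gr_sub (q : ℕ) : gr (q + 1) - gr q = 1 / 32 := by
  unfold gr
  push_cast
  ring

lemma gr_eq (q : ℕ) : gr q = (((2 * q + 2 : ℕ) : ℝ)) / 64 := by
  unfold gr
  push_cast
  ring

/-- A class of facets: the three pointwise bounds. -/
theorem class_sound (hk : h.k = 5) (hNL : h.NL = 67) (ht : tailsOK h d = true)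
    (hpH : ∀ q, 0 ≤ pHR h d q) {Wa Wb al : ℤ} (hWa : 0 < Wa) (he : endsOK h d Wa Wb al = true)
    (c : ℕ → ℤ) (hl : ∀ q, q < h.NL → layOK h d Wa Wb al q (c q) = true)
    (Jt : ℕ → ℝ) (hJt : ∀ q, q < h.NL → Jt q ≤ (c q : ℝ) / ((Sc : ℤ) : ℝ) ^ 2)
    {W : ℝ} (hW0 : 0 < W) (hW1 : (Wa : ℝ) / 64 ≤ W) (hW2 : W ≤ (Wb : ℝ) / 64) :
    (∀ m, 0 ≤ m → m ≤ gr 0 →
      nu0 5 ((al : ℝ) / ((Sc : ℤ) : ℝ)) ((h.xiI : ℝ) / ((Sc : ℤ) : ℝ)) W * ph m ≤
        W * (m * Qf m) + bonT 4 W m + ph 0 * tailS h.NL (pHR h d) 0) ∧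
    (∀ q, q < h.NL → ∀ m, gr q < m → m ≤ gr (q + 1) →
      nu0 5 ((al : ℝ) / ((Sc : ℤ) : ℝ)) ((h.xiI : ℝ) / ((Sc : ℤ) : ℝ)) W * ph m ≤
        W * (m * Qf m) + bonT 4 W m + ph 0 * (tailS h.NL (pHR h d) (q + 1) +
          pHR h d q * ((gr (q + 1) - m) / (gr (q + 1) - gr q)) - W * Jt q)) ∧
    (∀ m, gr h.NL < m →
      nu0 5 ((al : ℝ) / ((Sc : ℤ) : ℝ)) ((h.xiI : ℝ) / ((Sc : ℤ) : ℝ)) W * ph m ≤ W * (m * Qf m)) := by
  have hS := Sc_pos
  have hph0 := ph_pos 0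
  have hbon : ∀ (i : ℕ) (m : ℝ), 0 ≤ m → m ≤ (i : ℝ) / 64 →
      ph 0 * ((BnI 5 Wa i : ℝ) / (((Sc : ℤ) : ℝ) * 128)) ≤ bonT 4 W m := by
    intro i m hm0 hm
    have := bonT_ge (k := 5) (Wa := Wa) (i := i) (by norm_num) hWa hW1 hm0 hm
    have h4 : ((5 : ℤ) : ℝ) - 1 = 4 := by norm_num
    rwa [h4] at this
  simp only [endsOK, Bool.and_eq_true, hk] at he
  obtain ⟨heb, het⟩ := he
  refine ⟨?_, ?_, ?_⟩
  · -- bottom
    intro m hm0 hm1
    have hm2 : m ≤ 2 / 64 := by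
      have : gr 0 = 2 / 64 := by
        unfold gr
        norm_num
      linarith
    have h1 := bottom_bound heb hW0 hW1 hW2 hm0 hm2
    have h2 := hbon 2 m hm0 (by push_cast; linarith)
    rw [tailS_eq hk ht 0 (Nat.zero_le _)]
    push_cast at h1
    rw [add_div, mul_add] at h1
    linarith
  · -- layers
    intro q hq m hm1 hm2
    have hlq := hl q hq
    simp only [layOK, Bool.and_eq_true, hk] at hlq
    obtain ⟨hl1, hl2⟩ := hlq
    have hq67 : q < 67 := by omega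
    have hm0 : 0 ≤ m := by
      have : 0 ≤ gr q := by
        unfold gr
        positivity
      linarith
    have hJq := hJt q hq
    have hgr := gr_sub q
    have hT := tailS_eq hk ht (q + 1) (by omega)
    have hpiH : ((piH h d q : ℤ) : ℝ) / (((Sc : ℤ) : ℝ) * 128) = pHR h d q / 2 := by
      rw [pHR_eq hk]
      field_simp
      ring
    have hgrq := gr_eq q
    have hgrq1 : gr (q + 1) = (((2 * q + 4 : ℕ) : ℝ)) / 64 := by
      unfold gr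
      push_cast
      ring
    have hW3 : W * Jt q ≤ W * ((c q : ℝ) / ((Sc : ℤ) : ℝ) ^ 2) :=
      mul_le_mul_of_nonneg_left hJq hW0.le
    by_cases hmid : m ≤ (((2 * q + 3 : ℕ) : ℝ)) / 64
    · -- first sublayer
      have h1 := sub_bound (h := h) (m := m) (i := 2 * q + 2) (by omega) hl1 hW0 hW1 hW2
        (by rw [← hgrq]; exact hm1.le) (by push_cast at hmid ⊢; linarith)
      have h2 := hbon (2 * q + 3) m hm0 hmid
      have hfrac : 1 / 2 ≤ (gr (q + 1) - m) / (gr (q + 1) - gr q) := by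
        rw [hgr, le_div_iff₀ (by norm_num)]
        rw [hgrq1]
        push_cast at hmid ⊢
        linarith
      have h3 : pHR h d q / 2 ≤ pHR h d q * ((gr (q + 1) - m) / (gr (q + 1) - gr q)) := by
        have := hpH q
        nlinarith
      have h4 : (((d.tails.getD (q + 1) 0 + piH h d q + BnI 5 Wa (2 * q + 3) : ℤ)) : ℝ) / (((Sc : ℤ) : ℝ) * 128) =
          tailS h.NL (pHR h d) (q + 1) + pHR h d q / 2 + (BnI 5 Wa (2 * q + 3) : ℝ) / (((Sc : ℤ) : ℝ) * 128) := by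
        rw [hT, ← hpiH]
        push_cast
        ring
      rw [h4] at h1
      have h5 : ph 0 * (tailS h.NL (pHR h d) (q + 1) + pHR h d q / 2 + (BnI 5 Wa (2 * q + 3) : ℝ) / (((Sc : ℤ) : ℝ) * 128) -
          W * ((c q : ℝ) / ((Sc : ℤ) : ℝ) ^ 2)) ≤
          ph 0 * ((BnI 5 Wa (2 * q + 3) : ℝ) / (((Sc : ℤ) : ℝ) * 128)) + ph 0 * (tailS h.NL (pHR h d) (q + 1) +
          pHR h d q * ((gr (q + 1) - m) / (gr (q + 1) - gr q)) - W * Jt q) := by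
        rw [← mul_add]
        apply mul_le_mul_of_nonneg_left _ hph0.le
        linarith
      linarith
    · -- second sublayer
      push Not at hmid
      have h1 := sub_bound (h := h) (m := m) (i := 2 * q + 3) (by omega) hl2 hW0 hW1 hW2
        hmid.le (by
          have : m ≤ (((2 * q + 4 : ℕ) : ℝ)) / 64 := by rw [← hgrq1]; exact hm2
          push_cast at this ⊢
          linarith)
      have h2 := hbon (2 * q + 4) m hm0 (by rw [← hgrq1]; exact hm2)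
      have hfrac : 0 ≤ (gr (q + 1) - m) / (gr (q + 1) - gr q) := by
        rw [hgr]
        apply div_nonneg _ (by norm_num)
        linarith
      have h3 : 0 ≤ pHR h d q * ((gr (q + 1) - m) / (gr (q + 1) - gr q)) :=
        mul_nonneg (hpH q) hfrac
      have h4 : (((d.tails.getD (q + 1) 0 + BnI 5 Wa (2 * q + 4) : ℤ)) : ℝ) / (((Sc : ℤ) : ℝ) * 128) =
          tailS h.NL (pHR h d) (q + 1) + (BnI 5 Wa (2 * q + 4) : ℝ) / (((Sc : ℤ) : ℝ) * 128) := by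
        rw [hT]
        push_cast
        ring
      rw [h4] at h1
      have h5 : ph 0 * (tailS h.NL (pHR h d) (q + 1) + (BnI 5 Wa (2 * q + 4) : ℝ) / (((Sc : ℤ) : ℝ) * 128) -
          W * ((c q : ℝ) / ((Sc : ℤ) : ℝ) ^ 2)) ≤
          ph 0 * ((BnI 5 Wa (2 * q + 4) : ℝ) / (((Sc : ℤ) : ℝ) * 128)) + ph 0 * (tailS h.NL (pHR h d) (q + 1) +
          pHR h d q * ((gr (q + 1) - m) / (gr (q + 1) - gr q)) - W * Jt q) := by
        rw [← mul_add]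
        apply mul_le_mul_of_nonneg_left _ hph0.le
        linarith
      linarith
  · -- top
    intro m hm
    have hgrN : gr h.NL = (((2 * h.NL + 2 : ℕ) : ℝ)) / 64 := gr_eq _
    rw [hgrN] at hm
    exact top_bound (i := 2 * h.NL + 2) (by omega) het hW0 hW1 hW2 hm.le

end classes

section mass

/-- the row bound for the square of the argument -/
lemma x2_le_row {q : ℕ} {Wb : ℤ} {V W a : ℝ} (hV : 0 < V) (ha0 : 0 ≤ a) (hWa : W = 1 + a)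
    (hWb : W ≤ (Wb : ℝ) / 64) (hB : 0 < (12 : ℤ) * 4096 - (Wb - 64) ^ 2)
    (hbig : 12 - a ^ 2 ≤ W ^ 2 * V) :
    gr (q + 1) ^ 2 / V ≤ ((((q : ℤ) + 2) ^ 2 * Wb ^ 2 : ℤ) : ℝ) /
      ((1024 * ((12 : ℤ) * 4096 - (Wb - 64) ^ 2) : ℤ) : ℝ) := by
  have hB' : (0 : ℝ) < 12 * 4096 - ((Wb : ℝ) - 64) ^ 2 := by exact_mod_cast hB
  have hgr : gr (q + 1) = ((q : ℝ) + 2) / 32 := by
    unfold gr
    push_cast
    ring
  have hW1 : 0 < W := by linarith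
  have hab : a ≤ ((Wb : ℝ) - 64) / 64 := by
    rw [hWa] at hWb
    rw [le_div_iff₀ (by norm_num)] at hWb ⊢
    linarith
  have ha2 : a ^ 2 ≤ (((Wb : ℝ) - 64) / 64) ^ 2 := by
    apply pow_le_pow_left₀ ha0 hab
  have hV2 : (12 * 4096 - ((Wb : ℝ) - 64) ^ 2) / 4096 ≤ W ^ 2 * V := by
    have : (12 * 4096 - ((Wb : ℝ) - 64) ^ 2) / 4096 = 12 - (((Wb : ℝ) - 64) / 64) ^ 2 := by
      ring
    rw [this]
    linarith
  have hW4 : W ^ 2 ≤ (Wb : ℝ) ^ 2 / 4096 := by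
    have : W ^ 2 ≤ ((Wb : ℝ) / 64) ^ 2 := pow_le_pow_left₀ hW1.le hWb 2
    calc W ^ 2 ≤ ((Wb : ℝ) / 64) ^ 2 := this
      _ = (Wb : ℝ) ^ 2 / 4096 := by ring
  push_cast
  have hB2 : (0 : ℝ) < 1024 * (49152 - ((Wb : ℝ) - 64) ^ 2) := by nlinarith
  rw [hgr, div_pow, div_le_div_iff₀ hV hB2]
  have hq2 : 0 ≤ ((q : ℝ) + 2) ^ 2 := by positivity
  have h1 : (12 * 4096 - ((Wb : ℝ) - 64) ^ 2) ≤ (Wb : ℝ) ^ 2 * V := by
    have h5 : W ^ 2 * V ≤ (Wb : ℝ) ^ 2 / 4096 * V := mul_le_mul_of_nonneg_right hW4 hV.le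
    have h6 : (12 * 4096 - ((Wb : ℝ) - 64) ^ 2) / 4096 ≤ (Wb : ℝ) ^ 2 / 4096 * V := hV2.trans h5
    have h7 : (Wb : ℝ) ^ 2 / 4096 * V = ((Wb : ℝ) ^ 2 * V) / 4096 := by ring
    rw [h7] at h6
    rwa [div_le_div_iff_of_pos_right (by norm_num)] at h6
  have h2 := mul_le_mul_of_nonneg_left h1 hq2
  norm_num
  nlinarith

/-- the exceptional facet bound for the square of the argument -/
lemma x2_le_cell {q : ℕ} {VaN VaD : ℤ} {V : ℝ} (hVaD : 0 < VaD) (hVaN : 0 < VaN)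
    (hV : (VaN : ℝ) / (VaD : ℝ) ≤ V) :
    gr (q + 1) ^ 2 / V ≤ ((((q : ℤ) + 2) ^ 2 * VaD : ℤ) : ℝ) / ((1024 * VaN : ℤ) : ℝ) := by
  have hD : (0 : ℝ) < VaD := by exact_mod_cast hVaD
  have hN : (0 : ℝ) < VaN := by exact_mod_cast hVaN
  have hV0 : 0 < V := lt_of_lt_of_le (by positivity) hV
  have hgr : gr (q + 1) = ((q : ℝ) + 2) / 32 := by
    unfold gr
    push_cast
    ring
  push_cast
  rw [hgr, div_pow, div_le_div_iff₀ hV0 (by positivity)]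
  rw [div_le_iff₀ hD] at hV
  have hq2 : 0 ≤ ((q : ℝ) + 2) ^ 2 := by positivity
  have h2 := mul_le_mul_of_nonneg_left hV hq2
  norm_num
  nlinarith

end mass

section main

variable {E : Type*} [NormedAddCommGroup E] [InnerProductSpace ℝ E] [FiniteDimensional ℝ E]
  [MeasurableSpace E] [BorelSpace E]
variable {ι : Type*} [Fintype ι] [LinearOrder ι]

/-- The table check implies the criterion. -/
theorem key2_of_table (h : Head) (d : Data) (hT : checkT h d = true)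
    {v : ι → E} {a : ι → ℝ} {z : ℝ} (hz : 0 < z) (ha : ∀ l, 0 < a l) (hsum : ∑ l, a l = 1)
    (hneg : ∀ j l, j ≠ l → ⟪v j, v l⟫ < 0)
    (hbal : ∑ j, (1 + a j) • v j = 0)
    (hflux : ∀ j, flux v j = (1 + a j) * z / ((Fintype.card ι : ℝ) + 1))
    (hN : Fintype.card ι = 4) (j1 : ι)
    (hW1a : (h.W1a : ℝ) / 64 ≤ 1 + a j1) (hW1b : 1 + a j1 ≤ (h.W1b : ℝ) / 64)
    (hVa : (h.VaN : ℝ) / (h.VaD : ℝ) ≤ ‖v j1‖ ^ 2)
    (hVb : h.Kh = 0 ∨ ‖v j1‖ ^ 2 ≤ (h.VbN : ℝ) / (h.VbD : ℝ))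
    (hbig : ∀ l, l ≠ j1 → 12 - (a l) ^ 2 ≤ (1 + a l) ^ 2 * ‖v l‖ ^ 2) :
    Key2 v a z := by
  classical
  obtain ⟨hk, hNL, hkapI, hW1b', hW1a', hlamL, hkapL, hetaL, hKh, ht, hchain, hKq, hVbD, hfin, hrows,
    hcell⟩ := unpackT hT
  have hne : Nonempty ι := ⟨j1⟩
  have hc4 : (Fintype.card ι : ℝ) = 4 := by rw [hN]; norm_num
  have hc5 : (Fintype.card ι : ℝ) + 1 = 5 := by rw [hc4]; norm_num
  have hS := Sc_pos
  have hD := Dd_pos
  have hlam0 : ∀ q, 0 ≤ lamR d q := fun q =>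
    div_nonneg (by exact_mod_cast getD_nonneg hlamL q) hS.le
  have hkap0 : ∀ q, 0 ≤ kapR d q := fun q =>
    div_nonneg (by exact_mod_cast getD_nonneg hkapL q) hS.le
  have heta0 : ∀ q, 0 ≤ etaR d q := fun q =>
    div_nonneg (by exact_mod_cast getD_nonneg hetaL q) hS.le
  have hW1b2 : (h.W1b : ℝ) / 64 ≤ 2 := by
    have : (h.W1b : ℝ) ≤ 128 := by exact_mod_cast hW1b'
    linarith
  have hpH : ∀ q, 0 ≤ pHR h d q := by
    intro q
    simp only [pHR, pHq]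
    have := hlam0 q
    have := hkap0 q
    have := heta0 q
    have h3 : 0 ≤ 5 - (h.W1b : ℝ) / 64 := by linarith
    positivity
  -- the norms are positive
  have hvpos : ∀ l, 0 < ‖v l‖ := by
    intro l
    have hcard : 1 < Fintype.card ι := by omega
    obtain ⟨j, hj⟩ := Fintype.exists_ne_of_one_lt_card hcard l
    have h1 := hneg j l hj
    rw [norm_pos_iff]
    intro h0
    rw [h0, inner_zero_right] at h1
    exact lt_irrefl _ h1
  have hW1pos : ∀ l, 0 < 1 + a l := fun l => by linarith [ha l]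
  -- the rows
  have hrowex : ∀ l, l ≠ j1 → ∃ r ∈ h.rows, (r.1 : ℝ) / 64 ≤ 1 + a l ∧ 1 + a l ≤ (r.2 : ℝ) / 64 := by
    intro l hl
    apply chain_cover _ _ _ hchain
    · have := ha l
      norm_num
      exact this
    · have hsub : a l + a j1 ≤ 1 := by
        rw [← hsum, ← Finset.sum_pair hl]
        exact Finset.sum_le_sum_of_subset_of_nonneg (Finset.subset_univ _) fun i _ _ => (ha i).le
      push_cast
      linarith
  -- the row facts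
  have hrow : ∀ r ∈ h.rows, 0 < r.1 ∧ 0 < (12 : ℤ) * 4096 - (r.2 - 64) ^ 2 ∧
      endsOK h d r.1 r.2 h.alB = true ∧ ∀ q, q < h.NL →
        ((q : ℤ) + 2) ^ 2 * r.2 ^ 2 ≤ 16 * (1024 * ((12 : ℤ) * 4096 - (r.2 - 64) ^ 2)) ∧
        layOK h d r.1 r.2 h.alB q (rowC h d r.2 q) = true := by
    intro r hr
    have h1 := hrows r hr
    simp only [rowOK, Bool.and_eq_true, decide_eq_true_eq, List.all_eq_true, List.mem_range, hkapI] at h1
    obtain ⟨⟨⟨⟨⟨⟨h1a, _⟩, _⟩, _⟩, h1e⟩, h1f⟩, h1g⟩ := h1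
    exact ⟨h1a, h1e, h1f, h1g⟩
  -- the cell facts
  have hcell2 : 0 < h.W1a ∧ 0 < h.VaD ∧ endsOK h d h.W1a h.W1b h.alE = true ∧ ∀ q, q < h.NL →
      ((d.lam.getD q 0 = 0 ∧ d.eta.getD q 0 = 0) ∨
        (0 < h.VaN ∧ ((q : ℤ) + 2) ^ 2 * h.VaD ≤ 16 * (1024 * h.VaN))) ∧
      layOK h d h.W1a h.W1b h.alE q (cellC h d q) = true := by
    simp only [cellOK, Bool.and_eq_true, Bool.or_eq_true, decide_eq_true_eq, List.all_eq_true,
      List.mem_range] at hcell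
    obtain ⟨⟨⟨⟨⟨h1a, _⟩, h1c⟩, _⟩, h1e⟩, h1f⟩ := hcell
    exact ⟨h1a, h1c, h1e, h1f⟩
  obtain ⟨hcW, hcD, hcE, hcQ⟩ := hcell2
  have hD0 : (0 : ℝ) < (h.VaD : ℝ) := by exact_mod_cast hcD
  -- the argument bounds
  have hx_row : ∀ l, l ≠ j1 → ∀ r ∈ h.rows, 1 + a l ≤ (r.2 : ℝ) / 64 → ∀ q,
      (gr (q + 1) / ‖v l‖) ^ 2 ≤ ((((q : ℤ) + 2) ^ 2 * r.2 ^ 2 : ℤ) : ℝ) /
        ((1024 * ((12 : ℤ) * 4096 - (r.2 - 64) ^ 2) : ℤ) : ℝ) := by
    intro l hl r hr hW q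
    rw [div_pow]
    have hv := hvpos l
    exact x2_le_row (by positivity) (ha l).le rfl hW (hrow r hr).2.1 (hbig l hl)
  have hx_cell : ∀ q, 0 < h.VaN → (gr (q + 1) / ‖v j1‖) ^ 2 ≤
      ((((q : ℤ) + 2) ^ 2 * h.VaD : ℤ) : ℝ) / ((1024 * h.VaN : ℤ) : ℝ) := by
    intro q hq
    rw [div_pow]
    exact x2_le_cell hcD hq hVa
  have hgr0 : ∀ q : ℕ, 0 ≤ gr (q + 1) := by
    intro q
    unfold gr
    positivity
  -- the main application
  have hclass : ∀ l, l ≠ j1 →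
      (∀ m, 0 ≤ m → m ≤ gr 0 →
        nu0 5 ((h.alB : ℝ) / ((Sc : ℤ) : ℝ)) ((h.xiI : ℝ) / ((Sc : ℤ) : ℝ)) (1 + a l) * ph m ≤
          (1 + a l) * (m * Qf m) + bonT 4 (1 + a l) m + ph 0 * tailS h.NL (pHR h d) 0) ∧
      (∀ q, q < h.NL → ∀ m, gr q < m → m ≤ gr (q + 1) →
        nu0 5 ((h.alB : ℝ) / ((Sc : ℤ) : ℝ)) ((h.xiI : ℝ) / ((Sc : ℤ) : ℝ)) (1 + a l) * ph m ≤
          (1 + a l) * (m * Qf m) + bonT 4 (1 + a l) m + ph 0 * (tailS h.NL (pHR h d) (q + 1) +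
            pHR h d q * ((gr (q + 1) - m) / (gr (q + 1) - gr q)) - (1 + a l) *
              (((q : ℝ) + 2) * pK 10 16 ((gr (q + 1) / ‖v l‖) ^ 2) * (lamR d q + kapR d q + etaR d q)))) ∧
      (∀ m, gr h.NL < m →
        nu0 5 ((h.alB : ℝ) / ((Sc : ℤ) : ℝ)) ((h.xiI : ℝ) / ((Sc : ℤ) : ℝ)) (1 + a l) * ph m ≤
          (1 + a l) * (m * Qf m)) := fun l hl => by
    obtain ⟨r, hr, hr1, hr2⟩ := hrowex l hl
    obtain ⟨hrW, hrB, hrE, hrQ⟩ := hrow r hr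
    have hB0 : ∀ q : ℕ, (0 : ℤ) < 1024 * ((12 : ℤ) * 4096 - (r.2 - 64) ^ 2) := fun _ => by positivity
    exact class_sound hk hNL ht hpH hrW hrE (fun q => rowC h d r.2 q) (fun q hq => (hrQ q hq).2)
      (fun q => ((q : ℝ) + 2) * pK 10 16 ((gr (q + 1) / ‖v l‖) ^ 2) * (lamR d q + kapR d q + etaR d q))
      (by
        intro q hq
        simp only [rowC, hkapI]
        have hs := hx_row l hl r hr hr2 q
        have hJ := pK_le_JI (a := ((q : ℤ) + 2) ^ 2 * r.2 ^ 2) (b := 1024 * ((12 : ℤ) * 4096 - (r.2 - 64) ^ 2))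
          (by positivity) (hB0 q) (by positivity) hs
        have hsum0 : 0 ≤ lamR d q + kapR d q + etaR d q := by
          have := hlam0 q
          have := hkap0 q
          have := heta0 q
          linarith
        have hq2 : (0 : ℝ) < (q : ℝ) + 2 := by positivity
        have h1 : ((q : ℝ) + 2) * pK 10 16 ((gr (q + 1) / ‖v l‖) ^ 2) * (lamR d q + kapR d q + etaR d q) ≤
            ((q : ℝ) + 2) * ((JI (((q : ℤ) + 2) ^ 2 * r.2 ^ 2) (1024 * ((12 : ℤ) * 4096 - (r.2 - 64) ^ 2)) : ℝ) / ((Sc : ℤ) : ℝ)) *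
              (lamR d q + kapR d q + etaR d q) := by
          apply mul_le_mul_of_nonneg_right _ hsum0
          exact mul_le_mul_of_nonneg_left hJ hq2.le
        refine h1.trans (le_of_eq ?_)
        simp only [lamR, kapR, etaR]
        push_cast
        field_simp)
      (hW1pos l) hr1 hr2
  have hcellc := class_sound hk hNL ht hpH hcW hcE (fun q => cellC h d q) (fun q hq => (hcQ q hq).2)
    (fun q => ((q : ℝ) + 2) * (lamR d q * pK 10 16 ((gr (q + 1) / ‖v j1‖) ^ 2) +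
        etaR d q * P0K 10 16 ((gr (q + 1) / ‖v j1‖) ^ 2)) -
        kapR d q * ‖v j1‖ ^ 2 * (1024 / ((q : ℝ) + 2)))
    (by
      intro q hq
      simp only [cellC]
      have hq2 : (0 : ℝ) < (q : ℝ) + 2 := by positivity
      have hq2z : (0 : ℤ) < (q : ℤ) + 2 := by positivity
      -- the floor term
      have hfloor : ((d.kap.getD q 0 * h.VaN * 1024 * Sc / (h.VaD * ((q : ℤ) + 2)) : ℤ) : ℝ) ≤
          ((d.kap.getD q 0 * h.VaN * 1024 * Sc : ℤ) : ℝ) / ((h.VaD * ((q : ℤ) + 2) : ℤ) : ℝ) := by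
        have hb : (0 : ℤ) < h.VaD * ((q : ℤ) + 2) := by positivity
        have hb' : (0 : ℝ) < ((h.VaD * ((q : ℤ) + 2) : ℤ) : ℝ) := by exact_mod_cast hb
        rw [le_div_iff₀ hb']
        exact_mod_cast Int.ediv_mul_le _ hb.ne'
      have hkapV : kapR d q * ((h.VaN : ℝ) / (h.VaD : ℝ)) * (1024 / ((q : ℝ) + 2)) ≤
          kapR d q * ‖v j1‖ ^ 2 * (1024 / ((q : ℝ) + 2)) := by
        apply mul_le_mul_of_nonneg_right _ (by positivity)
        exact mul_le_mul_of_nonneg_left hVa (hkap0 q)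
      have hfl2 : ((d.kap.getD q 0 * h.VaN * 1024 * Sc : ℤ) : ℝ) / ((h.VaD * ((q : ℤ) + 2) : ℤ) : ℝ) / ((Sc : ℤ) : ℝ) ^ 2 =
          kapR d q * ((h.VaN : ℝ) / (h.VaD : ℝ)) * (1024 / ((q : ℝ) + 2)) := by
        simp only [kapR]
        push_cast
        field_simp
      have hfl3 : (((d.kap.getD q 0 * h.VaN * 1024 * Sc / (h.VaD * ((q : ℤ) + 2)) : ℤ) : ℝ)) / ((Sc : ℤ) : ℝ) ^ 2 ≤
          kapR d q * ‖v j1‖ ^ 2 * (1024 / ((q : ℝ) + 2)) := by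
        rw [← hfl2] at hkapV
        refine le_trans ?_ hkapV
        exact div_le_div_of_nonneg_right hfloor (by positivity)
      have hpos : ((q : ℝ) + 2) * (lamR d q * pK 10 16 ((gr (q + 1) / ‖v j1‖) ^ 2) +
          etaR d q * P0K 10 16 ((gr (q + 1) / ‖v j1‖) ^ 2)) ≤
          (((if d.lam.getD q 0 = 0 ∧ d.eta.getD q 0 = 0 then 0
            else ((q : ℤ) + 2) * (d.lam.getD q 0 * JI (((q : ℤ) + 2) ^ 2 * h.VaD) (1024 * h.VaN) +
              d.eta.getD q 0 * J0I (((q : ℤ) + 2) ^ 2 * h.VaD) (1024 * h.VaN)) : ℤ)) : ℝ) / ((Sc : ℤ) : ℝ) ^ 2 := by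
        by_cases h0 : d.lam.getD q 0 = 0 ∧ d.eta.getD q 0 = 0
        · rw [if_pos h0]
          have e1 : lamR d q = 0 := by
            simp only [lamR]
            rw [h0.1]
            simp
          have e2 : etaR d q = 0 := by
            simp only [etaR]
            rw [h0.2]
            simp
          rw [e1, e2]
          simp
        · rw [if_neg h0]
          have h2 := ((hcQ q hq).1).resolve_left h0
          have hs := hx_cell q h2.1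
          have hb : (0 : ℤ) < 1024 * h.VaN := by linarith [h2.1]
          have hJ1 := pK_le_JI (a := ((q : ℤ) + 2) ^ 2 * h.VaD) (b := 1024 * h.VaN)
            (by positivity) hb (by positivity) hs
          have hJ0 := P0K_le_J0I (a := ((q : ℤ) + 2) ^ 2 * h.VaD) (b := 1024 * h.VaN)
            (by positivity) hb (by positivity) hs
          have h3 : lamR d q * pK 10 16 ((gr (q + 1) / ‖v j1‖) ^ 2) ≤ lamR d q *
              ((JI (((q : ℤ) + 2) ^ 2 * h.VaD) (1024 * h.VaN) : ℝ) / ((Sc : ℤ) : ℝ)) :=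
            mul_le_mul_of_nonneg_left hJ1 (hlam0 q)
          have h4 : etaR d q * P0K 10 16 ((gr (q + 1) / ‖v j1‖) ^ 2) ≤ etaR d q *
              ((J0I (((q : ℤ) + 2) ^ 2 * h.VaD) (1024 * h.VaN) : ℝ) / ((Sc : ℤ) : ℝ)) :=
            mul_le_mul_of_nonneg_left hJ0 (heta0 q)
          have h5 := mul_le_mul_of_nonneg_left (add_le_add h3 h4) hq2.le
          refine h5.trans (le_of_eq ?_)
          simp only [lamR, etaR]
          push_cast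
          field_simp
      push_cast at hfl3 hpos ⊢
      rw [sub_div]
      linarith)
    (hW1pos j1) hW1a hW1b
  obtain ⟨hQa, hQb, hQc⟩ := hcellc
  have hx_nonneg : ∀ (l : ι) (q : ℕ), 0 ≤ gr (q + 1) / ‖v l‖ := fun l q =>
    div_nonneg (hgr0 q) (hvpos l).le
  -- the bound on the exceptional argument
  have hx16 : ∀ q, q < h.NL → ¬ (d.lam.getD q 0 = 0 ∧ d.eta.getD q 0 = 0) →
      (gr (q + 1) / ‖v j1‖) ^ 2 ≤ 16 := by
    intro q hq h0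
    have h2 := ((hcQ q hq).1).resolve_left h0
    have hs := hx_cell q h2.1
    have hb : (0 : ℝ) < ((1024 * h.VaN : ℤ) : ℝ) := by
      have : (0 : ℤ) < 1024 * h.VaN := by linarith [h2.1]
      exact_mod_cast this
    refine hs.trans ?_
    rw [div_le_iff₀ hb]
    exact_mod_cast h2.2
  have hlamne : ∀ q, lamR d q ≠ 0 → ¬ (d.lam.getD q 0 = 0 ∧ d.eta.getD q 0 = 0) := by
    intro q hq h0
    apply hq
    simp only [lamR]
    rw [h0.1]
    simp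
  have hetane : ∀ q, etaR d q ≠ 0 → ¬ (d.lam.getD q 0 = 0 ∧ d.eta.getD q 0 = 0) := by
    intro q hq h0
    apply hq
    simp only [etaR]
    rw [h0.2]
    simp
  refine key2_of_real hz ha hsum hneg hbal hflux (by omega) j1 h.NL (lamR d) (kapR d) (etaR d)
    hlam0 hkap0 heta0 ((h.Kh : ℝ) / ((Sc : ℤ) : ℝ)) ((h.alB : ℝ) / ((Sc : ℤ) : ℝ))
    ((h.alE : ℝ) / ((Sc : ℤ) : ℝ)) ((h.xiI : ℝ) / ((Sc : ℤ) : ℝ)) ((h.W1b : ℝ) / 64)
    (div_nonneg (by exact_mod_cast hKh) hS.le) hW1b (by rw [hc4]; linarith)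
    (fun l q => pK 10 16 ((gr (q + 1) / ‖v l‖) ^ 2))
    (fun q => pK 10 16 ((gr (q + 1) / ‖v j1‖) ^ 2))
    (fun q => P0K 10 16 ((gr (q + 1) / ‖v j1‖) ^ 2)) ?_ ?_ ?_ ?_ ?_ ?_ ?_ ?_ ?_ ?_ ?_
  · -- hJ
    intro l hl q hq
    obtain ⟨r, hr, _, hr2⟩ := hrowex l hl
    have hB := (hrow r hr).2.1
    have h1 := ((hrow r hr).2.2.2 q hq).1
    have hs := hx_row l hl r hr hr2 q
    have hb : (0 : ℝ) < ((1024 * ((12 : ℤ) * 4096 - (r.2 - 64) ^ 2) : ℤ) : ℝ) := by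
      have : (0 : ℤ) < 1024 * ((12 : ℤ) * 4096 - (r.2 - 64) ^ 2) := by positivity
      exact_mod_cast this
    have hx16' : (gr (q + 1) / ‖v l‖) ^ 2 ≤ 16 := by
      refine hs.trans ?_
      rw [div_le_iff₀ hb]
      exact_mod_cast h1
    exact jbound 10 (by norm_num) (hx_nonneg l q) hx16'
  · -- hJ1
    intro q hq hne'
    exact jbound 10 (by norm_num) (hx_nonneg j1 q) (hx16 q hq (hlamne q hne'))
  · -- hJ0
    intro q hq hne'
    exact jbound0 10 (by norm_num) (hx_nonneg j1 q) (hx16 q hq (hetane q hne'))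
  · -- hKk
    intro q hq
    have hq67 : q < 67 := by omega
    have h1 := hKq q hq
    have hgrq : gr (q + 1) = (((2 * q + 3 : ℕ) : ℝ) + 1) / 64 := by
      unfold gr
      push_cast
      ring
    have e1 := (exp_bracket (i := 2 * q + 3) (m := gr (q + 1)) (by omega)
      (by rw [hgrq]; push_cast; linarith) (by rw [hgrq])).1
    have hq2 : (0 : ℝ) < (q : ℝ) + 2 := by positivity
    have h1' : ((d.kap.getD q 0 : ℤ) : ℝ) * 1024 * ((Dd : ℤ) : ℝ) ≤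
        (h.Kh : ℝ) * ((EL (2 * q + 4) : ℤ) : ℝ) * ((q : ℝ) + 2) := by
      exact_mod_cast h1
    have hK0 : (0 : ℝ) ≤ (h.Kh : ℝ) := by exact_mod_cast hKh
    have h2 : (h.Kh : ℝ) / ((Sc : ℤ) : ℝ) * (((EL (2 * q + 4) : ℤ) : ℝ) / ((Dd : ℤ) : ℝ)) ≤
        (h.Kh : ℝ) / ((Sc : ℤ) : ℝ) * Real.exp (-(gr (q + 1)) ^ 2 / 2) :=
      mul_le_mul_of_nonneg_left e1 (div_nonneg hK0 hS.le)
    refine le_trans ?_ h2
    simp only [kapR]
    rw [div_mul_div_comm, div_mul_div_comm, div_le_div_iff₀ (by positivity) (by positivity)]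
    have h3 := mul_le_mul_of_nonneg_right h1' hS.le
    nlinarith
  · -- hfinal
    rw [hc5, hc4]
    have hfin' : (((h.alE + (h.k - 2) * h.alB) * h.k * 4096 * h.VbD + 2 * h.Kh * h.W1b ^ 2 * h.VbN : ℤ) : ℝ) ≤
        ((Sc * h.k * 4096 * h.VbD : ℤ) : ℝ) := by exact_mod_cast hfin
    rw [hk] at hfin'
    push_cast at hfin'
    have hDb : (0 : ℝ) < (h.VbD : ℝ) := by exact_mod_cast hVbD
    have hKnn : (0 : ℝ) ≤ (h.Kh : ℝ) := by exact_mod_cast hKh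
    have hW2 : (1 + a j1) ^ 2 ≤ (h.W1b : ℝ) ^ 2 / 4096 := by
      have : (1 + a j1) ^ 2 ≤ ((h.W1b : ℝ) / 64) ^ 2 := pow_le_pow_left₀ (hW1pos j1).le hW1b 2
      calc (1 + a j1) ^ 2 ≤ ((h.W1b : ℝ) / 64) ^ 2 := this
        _ = (h.W1b : ℝ) ^ 2 / 4096 := by ring
    have hterm : (h.Kh : ℝ) * ((1 + a j1) ^ 2 * ‖v j1‖ ^ 2) ≤
        (h.Kh : ℝ) * ((h.W1b : ℝ) ^ 2 / 4096 * ((h.VbN : ℝ) / (h.VbD : ℝ))) := by
      rcases hVb with h0 | h0
      · rw [h0]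
        simp
      · apply mul_le_mul_of_nonneg_left _ hKnn
        exact mul_le_mul hW2 h0 (by positivity) (by positivity)
    have hgoal : (h.alE : ℝ) + 3 * (h.alB : ℝ) + (2 / 5) * ((h.Kh : ℝ) * ((h.W1b : ℝ) ^ 2 / 4096 * ((h.VbN : ℝ) / (h.VbD : ℝ)))) ≤
        ((Sc : ℤ) : ℝ) := by
      have e : (h.alE : ℝ) + 3 * (h.alB : ℝ) + (2 / 5) * ((h.Kh : ℝ) * ((h.W1b : ℝ) ^ 2 / 4096 * ((h.VbN : ℝ) / (h.VbD : ℝ)))) =
          (((h.alE : ℝ) + (5 - 2) * (h.alB : ℝ)) * 5 * 4096 * (h.VbD : ℝ) + 2 * (h.Kh : ℝ) * (h.W1b : ℝ) ^ 2 * (h.VbN : ℝ)) /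
            (5 * 4096 * (h.VbD : ℝ)) := by
        field_simp
        ring
      rw [e, div_le_iff₀ (by positivity)]
      have e2 : ((Sc : ℤ) : ℝ) * (5 * 4096 * (h.VbD : ℝ)) = ((Sc : ℤ) : ℝ) * 5 * 4096 * (h.VbD : ℝ) := by ring
      rw [e2]
      have hZ : ((5 : ℤ) : ℝ) = 5 := by norm_num
      norm_num at hfin' ⊢
      linarith
    have h6 : (h.alE : ℝ) / ((Sc : ℤ) : ℝ) + (4 - 1) * ((h.alB : ℝ) / ((Sc : ℤ) : ℝ)) +
        2 / 5 * ((h.Kh : ℝ) / ((Sc : ℤ) : ℝ)) * (1 + a j1) ^ 2 * ‖v j1‖ ^ 2 =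
        ((h.alE : ℝ) + 3 * (h.alB : ℝ) + (2 / 5) * ((h.Kh : ℝ) * ((1 + a j1) ^ 2 * ‖v j1‖ ^ 2))) / ((Sc : ℤ) : ℝ) := by
      field_simp
      ring
    rw [h6, div_le_one hS]
    linarith
  · -- hPa
    intro l hl
    rw [hc5, hc4]
    exact (hclass l hl).1
  · -- hPb
    intro l hl
    rw [hc5, hc4]
    exact (hclass l hl).2.1
  · -- hPc
    intro l hl
    rw [hc5]
    exact (hclass l hl).2.2
  · -- hQa
    rw [hc5, hc4]
    exact hQa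
  · -- hQb
    rw [hc5, hc4]
    exact hQb
  · -- hQc
    rw [hc5]
    exact hQc

end main

end Vale.Agent.P226h19
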