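import Vale.Agent.P226h19.T5a
import Vale.Agent.P226h19.T5b
import Vale.Agent.P226h19.T5c
import Vale.Agent.P226h19.T5d

/-! The tables cover all cells of the exceptional facet. -/

namespace Vale.Agent.P226h19

/-- a table fits a point -/
def FitR (H : Head) (W V2 : ℝ) : Prop :=
  (H.W1a : ℝ) / 64 ≤ W ∧ W ≤ (H.W1b : ℝ) / 64 ∧ (H.VaN : ℝ) / (H.VaD : ℝ) ≤ V2 ∧
    (H.Kh = 0 ∨ V2 ≤ (H.VbN : ℝ) / (H.VbD : ℝ))

lemma clip_v {W V2 b : ℝ} (hW : W ≤ b) (hb : 0 < b) (hV0 : 0 ≤ V2) (h3 : 2 - W ≤ W * V2) :
    (2 - b) / b ≤ V2 := by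
  rw [div_le_iff₀ hb]
  nlinarith

lemma cov0 {W V2 : ℝ} (hwa : (1 / 1 : ℝ) ≤ W) (hwb : W ≤ (9 / 8 : ℝ)) (hV0 : 0 ≤ V2) (h3 : 2 - W ≤ W * V2) :
    ∃ (H : Head) (D : Data), checkT H D = true ∧ FitR H W V2 := by
  unfold FitR
  rcases le_total (2 / 1 : ℝ) V2 with hv0 | hvu0
  · refine ⟨H0, D0, chk0, ?_, ?_, ?_, ?_⟩
    · norm_num [H0]; linarith
    · norm_num [H0]; linarith
    · norm_num [H0]; linarith
    · exact Or.inl rfl
  · rcases le_total (1 / 1 : ℝ) V2 with hv1 | hvu1
    · refine ⟨H1, D1, chk1, ?_, ?_, ?_, ?_⟩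
      · norm_num [H1]; linarith
      · norm_num [H1]; linarith
      · norm_num [H1]; linarith
      · exact Or.inl rfl
    · refine ⟨H2, D2, chk2, ?_, ?_, ?_, ?_⟩
      · norm_num [H2]; linarith
      · norm_num [H2]; linarith
      · have hc := clip_v hwb (by norm_num : (0 : ℝ) < (9 / 8 : ℝ)) hV0 h3
        norm_num at hc
        norm_num [H2]; linarith
      · refine Or.inr ?_
        norm_num [H2]; linarith

lemma cov1 {W V2 : ℝ} (hwa : (9 / 8 : ℝ) ≤ W) (hwb : W ≤ (5 / 4 : ℝ)) (hV0 : 0 ≤ V2) (h3 : 2 - W ≤ W * V2) :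
    ∃ (H : Head) (D : Data), checkT H D = true ∧ FitR H W V2 := by
  unfold FitR
  rcases le_total (2 / 1 : ℝ) V2 with hv0 | hvu0
  · refine ⟨H3, D3, chk3, ?_, ?_, ?_, ?_⟩
    · norm_num [H3]; linarith
    · norm_num [H3]; linarith
    · norm_num [H3]; linarith
    · exact Or.inl rfl
  · rcases le_total (1 / 1 : ℝ) V2 with hv1 | hvu1
    · refine ⟨H4, D4, chk4, ?_, ?_, ?_, ?_⟩
      · norm_num [H4]; linarith
      · norm_num [H4]; linarith
      · norm_num [H4]; linarith
      · exact Or.inl rfl
    · refine ⟨H5, D5, chk5, ?_, ?_, ?_, ?_⟩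
      · norm_num [H5]; linarith
      · norm_num [H5]; linarith
      · have hc := clip_v hwb (by norm_num : (0 : ℝ) < (5 / 4 : ℝ)) hV0 h3
        norm_num at hc
        norm_num [H5]; linarith
      · refine Or.inr ?_
        norm_num [H5]; linarith

lemma cov2 {W V2 : ℝ} (hwa : (5 / 4 : ℝ) ≤ W) (hwb : W ≤ (11 / 8 : ℝ)) (hV0 : 0 ≤ V2) (h3 : 2 - W ≤ W * V2) :
    ∃ (H : Head) (D : Data), checkT H D = true ∧ FitR H W V2 := by
  unfold FitR
  rcases le_total (2 / 1 : ℝ) V2 with hv0 | hvu0
  · refine ⟨H6, D6, chk6, ?_, ?_, ?_, ?_⟩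
    · norm_num [H6]; linarith
    · norm_num [H6]; linarith
    · norm_num [H6]; linarith
    · exact Or.inl rfl
  · rcases le_total (1 / 1 : ℝ) V2 with hv1 | hvu1
    · refine ⟨H7, D7, chk7, ?_, ?_, ?_, ?_⟩
      · norm_num [H7]; linarith
      · norm_num [H7]; linarith
      · norm_num [H7]; linarith
      · exact Or.inl rfl
    · rcases le_total (1 / 2 : ℝ) V2 with hv2 | hvu2
      · refine ⟨H8, D8, chk8, ?_, ?_, ?_, ?_⟩
        · norm_num [H8]; linarith
        · norm_num [H8]; linarith
        · norm_num [H8]; linarith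
        · refine Or.inr ?_
          norm_num [H8]; linarith
      · refine ⟨H9, D9, chk9, ?_, ?_, ?_, ?_⟩
        · norm_num [H9]; linarith
        · norm_num [H9]; linarith
        · have hc := clip_v hwb (by norm_num : (0 : ℝ) < (11 / 8 : ℝ)) hV0 h3
          norm_num at hc
          norm_num [H9]; linarith
        · refine Or.inr ?_
          norm_num [H9]; linarith

lemma cov3 {W V2 : ℝ} (hwa : (11 / 8 : ℝ) ≤ W) (hwb : W ≤ (3 / 2 : ℝ)) (hV0 : 0 ≤ V2) (h3 : 2 - W ≤ W * V2) :
    ∃ (H : Head) (D : Data), checkT H D = true ∧ FitR H W V2 := by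
  unfold FitR
  rcases le_total (2 / 1 : ℝ) V2 with hv0 | hvu0
  · refine ⟨H10, D10, chk10, ?_, ?_, ?_, ?_⟩
    · norm_num [H10]; linarith
    · norm_num [H10]; linarith
    · norm_num [H10]; linarith
    · exact Or.inl rfl
  · rcases le_total (1 / 1 : ℝ) V2 with hv1 | hvu1
    · refine ⟨H11, D11, chk11, ?_, ?_, ?_, ?_⟩
      · norm_num [H11]; linarith
      · norm_num [H11]; linarith
      · norm_num [H11]; linarith
      · exact Or.inl rfl
    · rcases le_total (1 / 2 : ℝ) V2 with hv2 | hvu2
      · refine ⟨H12, D12, chk12, ?_, ?_, ?_, ?_⟩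
        · norm_num [H12]; linarith
        · norm_num [H12]; linarith
        · norm_num [H12]; linarith
        · refine Or.inr ?_
          norm_num [H12]; linarith
      · refine ⟨H13, D13, chk13, ?_, ?_, ?_, ?_⟩
        · norm_num [H13]; linarith
        · norm_num [H13]; linarith
        · have hc := clip_v hwb (by norm_num : (0 : ℝ) < (3 / 2 : ℝ)) hV0 h3
          norm_num at hc
          norm_num [H13]; linarith
        · refine Or.inr ?_
          norm_num [H13]; linarith

lemma cov4 {W V2 : ℝ} (hwa : (3 / 2 : ℝ) ≤ W) (hwb : W ≤ (13 / 8 : ℝ)) (hV0 : 0 ≤ V2) (h3 : 2 - W ≤ W * V2) :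
    ∃ (H : Head) (D : Data), checkT H D = true ∧ FitR H W V2 := by
  unfold FitR
  rcases le_total (2 / 1 : ℝ) V2 with hv0 | hvu0
  · refine ⟨H14, D14, chk14, ?_, ?_, ?_, ?_⟩
    · norm_num [H14]; linarith
    · norm_num [H14]; linarith
    · norm_num [H14]; linarith
    · exact Or.inl rfl
  · rcases le_total (1 / 1 : ℝ) V2 with hv1 | hvu1
    · refine ⟨H15, D15, chk15, ?_, ?_, ?_, ?_⟩
      · norm_num [H15]; linarith
      · norm_num [H15]; linarith
      · norm_num [H15]; linarith
      · exact Or.inl rfl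
    · rcases le_total (1 / 2 : ℝ) V2 with hv2 | hvu2
      · refine ⟨H16, D16, chk16, ?_, ?_, ?_, ?_⟩
        · norm_num [H16]; linarith
        · norm_num [H16]; linarith
        · norm_num [H16]; linarith
        · refine Or.inr ?_
          norm_num [H16]; linarith
      · rcases le_total (1 / 4 : ℝ) V2 with hv3 | hvu3
        · refine ⟨H17, D17, chk17, ?_, ?_, ?_, ?_⟩
          · norm_num [H17]; linarith
          · norm_num [H17]; linarith
          · norm_num [H17]; linarith
          · refine Or.inr ?_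
            norm_num [H17]; linarith
        · refine ⟨H18, D18, chk18, ?_, ?_, ?_, ?_⟩
          · norm_num [H18]; linarith
          · norm_num [H18]; linarith
          · have hc := clip_v hwb (by norm_num : (0 : ℝ) < (13 / 8 : ℝ)) hV0 h3
            norm_num at hc
            norm_num [H18]; linarith
          · refine Or.inr ?_
            norm_num [H18]; linarith

lemma cov5 {W V2 : ℝ} (hwa : (13 / 8 : ℝ) ≤ W) (hwb : W ≤ (7 / 4 : ℝ)) (hV0 : 0 ≤ V2) (h3 : 2 - W ≤ W * V2) :
    ∃ (H : Head) (D : Data), checkT H D = true ∧ FitR H W V2 := by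
  unfold FitR
  rcases le_total (2 / 1 : ℝ) V2 with hv0 | hvu0
  · refine ⟨H19, D19, chk19, ?_, ?_, ?_, ?_⟩
    · norm_num [H19]; linarith
    · norm_num [H19]; linarith
    · norm_num [H19]; linarith
    · exact Or.inl rfl
  · rcases le_total (1 / 1 : ℝ) V2 with hv1 | hvu1
    · refine ⟨H20, D20, chk20, ?_, ?_, ?_, ?_⟩
      · norm_num [H20]; linarith
      · norm_num [H20]; linarith
      · norm_num [H20]; linarith
      · exact Or.inl rfl
    · rcases le_total (1 / 2 : ℝ) V2 with hv2 | hvu2
      · refine ⟨H21, D21, chk21, ?_, ?_, ?_, ?_⟩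
        · norm_num [H21]; linarith
        · norm_num [H21]; linarith
        · norm_num [H21]; linarith
        · refine Or.inr ?_
          norm_num [H21]; linarith
      · rcases le_total (1 / 4 : ℝ) V2 with hv3 | hvu3
        · refine ⟨H22, D22, chk22, ?_, ?_, ?_, ?_⟩
          · norm_num [H22]; linarith
          · norm_num [H22]; linarith
          · norm_num [H22]; linarith
          · refine Or.inr ?_
            norm_num [H22]; linarith
        · refine ⟨H23, D23, chk23, ?_, ?_, ?_, ?_⟩
          · norm_num [H23]; linarith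
          · norm_num [H23]; linarith
          · have hc := clip_v hwb (by norm_num : (0 : ℝ) < (7 / 4 : ℝ)) hV0 h3
            norm_num at hc
            norm_num [H23]; linarith
          · refine Or.inr ?_
            norm_num [H23]; linarith

lemma cov6 {W V2 : ℝ} (hwa : (7 / 4 : ℝ) ≤ W) (hwb : W ≤ (15 / 8 : ℝ)) (hV0 : 0 ≤ V2) (h3 : 2 - W ≤ W * V2) :
    ∃ (H : Head) (D : Data), checkT H D = true ∧ FitR H W V2 := by
  unfold FitR
  rcases le_total (2 / 1 : ℝ) V2 with hv0 | hvu0
  · refine ⟨H24, D24, chk24, ?_, ?_, ?_, ?_⟩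
    · norm_num [H24]; linarith
    · norm_num [H24]; linarith
    · norm_num [H24]; linarith
    · exact Or.inl rfl
  · rcases le_total (1 / 1 : ℝ) V2 with hv1 | hvu1
    · refine ⟨H25, D25, chk25, ?_, ?_, ?_, ?_⟩
      · norm_num [H25]; linarith
      · norm_num [H25]; linarith
      · norm_num [H25]; linarith
      · exact Or.inl rfl
    · rcases le_total (1 / 2 : ℝ) V2 with hv2 | hvu2
      · refine ⟨H26, D26, chk26, ?_, ?_, ?_, ?_⟩
        · norm_num [H26]; linarith
        · norm_num [H26]; linarith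
        · norm_num [H26]; linarith
        · refine Or.inr ?_
          norm_num [H26]; linarith
      · rcases le_total (1 / 4 : ℝ) V2 with hv3 | hvu3
        · refine ⟨H27, D27, chk27, ?_, ?_, ?_, ?_⟩
          · norm_num [H27]; linarith
          · norm_num [H27]; linarith
          · norm_num [H27]; linarith
          · refine Or.inr ?_
            norm_num [H27]; linarith
        · rcases le_total (1 / 8 : ℝ) V2 with hv4 | hvu4
          · refine ⟨H28, D28, chk28, ?_, ?_, ?_, ?_⟩
            · norm_num [H28]; linarith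
            · norm_num [H28]; linarith
            · norm_num [H28]; linarith
            · refine Or.inr ?_
              norm_num [H28]; linarith
          · refine ⟨H29, D29, chk29, ?_, ?_, ?_, ?_⟩
            · norm_num [H29]; linarith
            · norm_num [H29]; linarith
            · have hc := clip_v hwb (by norm_num : (0 : ℝ) < (15 / 8 : ℝ)) hV0 h3
              norm_num at hc
              norm_num [H29]; linarith
            · refine Or.inr ?_
              norm_num [H29]; linarith

lemma cov7a {W V2 : ℝ} (hwa : (15 / 8 : ℝ) ≤ W) (hwb : W ≤ (31 / 16 : ℝ)) (hl : (1 / 8 : ℝ) ≤ V2) (hu : V2 ≤ (1 / 2 : ℝ)) :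
    ∃ (H : Head) (D : Data), checkT H D = true ∧ FitR H W V2 := by
  unfold FitR
  rcases le_total (1 / 4 : ℝ) V2 with hv0 | hvu0
  · refine ⟨H36, D36, chk36, ?_, ?_, ?_, ?_⟩
    · norm_num [H36]; linarith
    · norm_num [H36]; linarith
    · norm_num [H36]; linarith
    · refine Or.inr ?_
      norm_num [H36]; linarith
  · refine ⟨H38, D38, chk38, ?_, ?_, ?_, ?_⟩
    · norm_num [H38]; linarith
    · norm_num [H38]; linarith
    · norm_num [H38]; linarith
    · refine Or.inr ?_
      norm_num [H38]; linarith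

lemma cov7b {W V2 : ℝ} (hwa : (31 / 16 : ℝ) ≤ W) (hwb : W ≤ (2 : ℝ)) (hl : (1 / 8 : ℝ) ≤ V2) (hu : V2 ≤ (1 / 2 : ℝ)) :
    ∃ (H : Head) (D : Data), checkT H D = true ∧ FitR H W V2 := by
  unfold FitR
  rcases le_total (1 / 4 : ℝ) V2 with hv0 | hvu0
  · refine ⟨H37, D37, chk37, ?_, ?_, ?_, ?_⟩
    · norm_num [H37]; linarith
    · norm_num [H37]; linarith
    · norm_num [H37]; linarith
    · refine Or.inr ?_
      norm_num [H37]; linarith
  · refine ⟨H39, D39, chk39, ?_, ?_, ?_, ?_⟩
    · norm_num [H39]; linarith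
    · norm_num [H39]; linarith
    · norm_num [H39]; linarith
    · refine Or.inr ?_
      norm_num [H39]; linarith

lemma cov7 {W V2 : ℝ} (hwa : (15 / 8 : ℝ) ≤ W) (hwb : W ≤ (2 : ℝ)) (hV0 : 0 ≤ V2) :
    ∃ (H : Head) (D : Data), checkT H D = true ∧ FitR H W V2 := by
  by_cases hm : (1 / 8 : ℝ) ≤ V2 ∧ V2 ≤ (1 / 2 : ℝ)
  · rcases le_total W (31 / 16 : ℝ) with hw | hw
    · exact cov7a hwa hw hm.1 hm.2
    · exact cov7b hw hwb hm.1 hm.2
  · unfold FitR
    rcases le_total (1 / 2 : ℝ) V2 with hhi | hlo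
    · rcases le_total (2 / 1 : ℝ) V2 with hv0 | hvu0
      · refine ⟨H30, D30, chk30, ?_, ?_, ?_, ?_⟩
        · norm_num [H30]; linarith
        · norm_num [H30]; linarith
        · norm_num [H30]; linarith
        · exact Or.inl rfl
      · rcases le_total (1 / 1 : ℝ) V2 with hv1 | hvu1
        · refine ⟨H31, D31, chk31, ?_, ?_, ?_, ?_⟩
          · norm_num [H31]; linarith
          · norm_num [H31]; linarith
          · norm_num [H31]; linarith
          · exact Or.inl rfl
        · refine ⟨H32, D32, chk32, ?_, ?_, ?_, ?_⟩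
          · norm_num [H32]; linarith
          · norm_num [H32]; linarith
          · norm_num [H32]; linarith
          · refine Or.inr ?_
            norm_num [H32]; linarith
    · have hlt : V2 ≤ (1 / 8 : ℝ) := by
        by_contra hc
        push Not at hc
        exact hm ⟨hc.le, hlo⟩
      rcases le_total (1 / 16 : ℝ) V2 with hv0 | hvu0
      · refine ⟨H33, D33, chk33, ?_, ?_, ?_, ?_⟩
        · norm_num [H33]; linarith
        · norm_num [H33]; linarith
        · norm_num [H33]; linarith
        · refine Or.inr ?_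
          norm_num [H33]; linarith
      · rcases le_total (1 / 32 : ℝ) V2 with hv1 | hvu1
        · refine ⟨H34, D34, chk34, ?_, ?_, ?_, ?_⟩
          · norm_num [H34]; linarith
          · norm_num [H34]; linarith
          · norm_num [H34]; linarith
          · refine Or.inr ?_
            norm_num [H34]; linarith
        · refine ⟨H35, D35, chk35, ?_, ?_, ?_, ?_⟩
          · norm_num [H35]; linarith
          · norm_num [H35]; linarith
          · norm_num [H35]; linarith
          · refine Or.inr ?_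
            norm_num [H35]; linarith

/-- Every point of the region lies in the cell of a table that passes the check. -/
theorem cover5 {W V2 : ℝ} (h1 : 1 ≤ W) (h2 : W ≤ 2) (hV0 : 0 ≤ V2) (h3 : 2 - W ≤ W * V2) :
    ∃ (H : Head) (D : Data), checkT H D = true ∧ FitR H W V2 := by
  rcases le_total W (9 / 8 : ℝ) with hw0 | hW0
  · exact cov0 (by linarith) hw0 hV0 h3
  · rcases le_total W (5 / 4 : ℝ) with hw1 | hW1
    · exact cov1 (hW0) hw1 hV0 h3
    · rcases le_total W (11 / 8 : ℝ) with hw2 | hW2
      · exact cov2 (hW1) hw2 hV0 h3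
      · rcases le_total W (3 / 2 : ℝ) with hw3 | hW3
        · exact cov3 (hW2) hw3 hV0 h3
        · rcases le_total W (13 / 8 : ℝ) with hw4 | hW4
          · exact cov4 (hW3) hw4 hV0 h3
          · rcases le_total W (7 / 4 : ℝ) with hw5 | hW5
            · exact cov5 (hW4) hw5 hV0 h3
            · rcases le_total W (15 / 8 : ℝ) with hw6 | hW6
              · exact cov6 (hW5) hw6 hV0 h3
              · exact cov7 hW6 h2 hV0

end Vale.Agent.P226h19
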