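import Vale.Agent.P226h6.Stage2

open MeasureTheory ProbabilityTheory Real Set Filter Topology
open scoped RealInnerProductSpace ENNReal NNReal

namespace Vale.Agent.P226h19

open Vale.Agent.P226h14 Vale.Agent.P226h6

variable {E : Type*} [NormedAddCommGroup E] [InnerProductSpace ℝ E] [FiniteDimensional ℝ E]
  [MeasurableSpace E] [BorelSpace E]
variable {ι : Type*} [Fintype ι] [LinearOrder ι]

/-- the tent: equal to one up to `t`, zero from `T` on, linear between -/
noncomputable def tent (t T m : ℝ) : ℝ := max 0 (min 1 ((T - m) / (T - t)))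

/-- the part of the facet cell of `j` where the width lies in `(t, T]` -/
def layer (v : ι → E) (j : ι) (t T : ℝ) : Set E :=
  vcell v j ∩ {x | t < wid v x ∧ wid v x ≤ T}

/-- the moment functional of the facet cell -/
noncomputable def topM (v : ι → E) (j : ι) : ℝ :=
  ∫ y in vcell v j, wid v y * Qf (wid v y) ∂(stdGaussian E)

/-- the integrated tent -/
noncomputable def EQ (v : ι → E) (t T : ℝ) : ℝ := ∫ y, tent t T (wid v y) ∂(stdGaussian E)

/-- the mass of the layer -/
noncomputable def Pl (v : ι → E) (j : ι) (t T : ℝ) : ℝ := (stdGaussian E).real (layer v j t T)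

/-- the bonus functional of the facet cell -/
noncomputable def bonusM (v : ι → E) (j : ι) (c : ℝ) : ℝ :=
  ∫ y in vcell v j, Tf (c * wid v y) ∂(stdGaussian E)

end Vale.Agent.P226h19
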