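import Vale.Agent.P226h19.CertTab
import Vale.Agent.P226h19.Cover5
import Vale.Agent.P226h15.Cap5J
import Vale.Agent.P226h14.Assemble

/-! The deletion step at five cells, from the integer certificate. -/

open MeasureTheory ProbabilityTheory Real Set Filter Topology
open scoped RealInnerProductSpace ENNReal NNReal

namespace Vale.Agent.P226h19

open Vale.Agent.P226h14 hiding Qf
open Vale.Agent.P226h6

variable {E : Type*} [NormedAddCommGroup E] [InnerProductSpace ℝ E] [FiniteDimensional ℝ E]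
  [MeasurableSpace E] [BorelSpace E]

/-- **The deletion step at five cells.** -/
theorem delFive : DelStep E 5 := by
  classical
  intro w hfix hobt hF
  obtain ⟨i0, hmin⟩ : ∃ i0, ∀ j, ‖w i0‖ ≤ ‖w j‖ := Finite.exists_min (fun i => ‖w i‖)
  have hcap := Vale.Agent.P226h15.cap5_joint w hfix (by simp) hF i0 hmin
  have hcard : Fintype.card {l : Fin 5 // l ≠ i0} = 4 := by
    simp [Fintype.card_subtype_compl]
  obtain ⟨z, a, v, n, hz, hz0, ha, hsum, hn, horth, hneg, hbal, hnorm, hint, hflux, hkey⟩ :=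
    setup_fixed2 hfix hobt hmin (by omega)
  -- the exceptional facet
  have hj1 : ∃ j1 : {l : Fin 5 // l ≠ i0}, ∀ l : {l : Fin 5 // l ≠ i0}, l ≠ j1 →
      (12 : ℝ) * ‖w i0‖ ^ 2 ≤ ‖w l.1‖ ^ 2 := by
    by_contra hno
    push Not at hno
    have hne : Nonempty {l : Fin 5 // l ≠ i0} := Fintype.card_pos_iff.1 (by omega)
    obtain ⟨j0⟩ := hne
    obtain ⟨l1, hl1, hb1⟩ := hno j0
    obtain ⟨l2, hl2, hb2⟩ := hno l1
    have hsub : (Finset.univ.filter fun j => j ≠ i0 ∧ (12 : ℝ) * ‖w i0‖ ^ 2 ≤ ‖w j‖ ^ 2) ⊆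
        ((Finset.univ.erase i0).erase l1.1).erase l2.1 := by
      intro j hj
      simp only [Finset.mem_filter, Finset.mem_univ, true_and] at hj
      simp only [Finset.mem_erase, Finset.mem_univ, and_true]
      refine ⟨?_, ?_, hj.1⟩
      · rintro rfl
        exact absurd hj.2 (not_le.2 hb2)
      · rintro rfl
        exact absurd hj.2 (not_le.2 hb1)
    have hcard2 := Finset.card_le_card hsub
    have hl12 : l2.1 ≠ l1.1 := fun h => hl2 (Subtype.ext h)
    rw [Finset.card_erase_of_mem (by simp [hl12, l2.2]),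
      Finset.card_erase_of_mem (by simp [l1.2]),
      Finset.card_erase_of_mem (Finset.mem_univ _)] at hcard2
    simp only [Finset.card_univ, Fintype.card_fin] at hcard2
    omega
  obtain ⟨j1, hbig⟩ := hj1
  have hz2 : 0 < z ^ 2 := by positivity
  have hb : ∀ l, l ≠ j1 → 12 - (a l) ^ 2 ≤ (1 + a l) ^ 2 * ‖v l‖ ^ 2 := by
    intro l hl
    have h1 := hbig l hl
    rw [hnorm l, ← hz] at h1
    have h2 : z ^ 2 * (12 - (a l) ^ 2) ≤ z ^ 2 * ((1 + a l) ^ 2 * ‖v l‖ ^ 2) := by nlinarith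
    exact le_of_mul_le_mul_left h2 hz2
  -- the position of the exceptional facet
  have ha1 : a j1 ≤ 1 := by
    rw [← hsum]
    exact Finset.single_le_sum (fun l _ => (ha l).le) (Finset.mem_univ j1)
  have hV0 : 0 ≤ ‖v j1‖ ^ 2 := by positivity
  have h3 : 2 - (1 + a j1) ≤ (1 + a j1) * ‖v j1‖ ^ 2 := by
    have h1 := hmin j1.1
    rw [← hz] at h1
    have h2 : z ^ 2 ≤ ‖w j1.1‖ ^ 2 := by
      have := pow_le_pow_left₀ hz0.le h1 2
      exact this
    rw [hnorm j1] at h2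
    have h4 : z ^ 2 * 1 ≤ z ^ 2 * ((1 + a j1) ^ 2 * ‖v j1‖ ^ 2 + (a j1) ^ 2) := by nlinarith
    have h5 := le_of_mul_le_mul_left h4 hz2
    have h6 : (1 + a j1) * (2 - (1 + a j1)) ≤ (1 + a j1) * ((1 + a j1) * ‖v j1‖ ^ 2) := by nlinarith
    exact le_of_mul_le_mul_left h6 (by linarith [ha j1])
  obtain ⟨H, D, hchk, hW1a, hW1b, hVa, hVb⟩ :=
    cover5 (W := 1 + a j1) (V2 := ‖v j1‖ ^ 2) (by linarith [ha j1]) (by linarith) hV0 h3
  have hK := key2_of_table H D hchk hz0 ha hsum hneg hbal hflux hcard j1 hW1a hW1b hVa hVb hb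
  obtain ⟨B', hB', hle⟩ := hkey hK
  exact ⟨i0, B', hB', hle⟩

end Vale.Agent.P226h19
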