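import Vale.Agent.P226h6.Grid
import Vale.Agent.P226h19.JBound
import Vale.Agent.P226h19.MillsTab

/-! Upper bounds for the Gaussian tail (odd continued fraction, central series) and integer
tables for the exponential, `Tf` from above and from below on the grid `i / 64`, `i ≤ 400`. -/

open Real Set Filter Topology
open scoped Nat

namespace Vale.Agent.P226h19

open Vale.Agent.P226h14 Vale.Agent.P226h6

/-- Continued fraction upper bounds for the Gaussian tail. -/
lemma mills_cf_up (p d p' d' : ℝ → ℝ) (K : ℝ) (hK : 0 ≤ K)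
    (hp : ∀ u, HasDerivAt p (p' u) u) (hd : ∀ u, HasDerivAt d (d' u) u)
    (hd0 : ∀ u, 0 < u → 0 < d u) (hp0 : ∀ u, 0 ≤ u → 0 ≤ p u) (hpd : ∀ u, 0 ≤ u → u * p u ≤ d u)
    (hid : ∀ u, u * p u * d u - d u ^ 2 - p' u * d u + p u * d' u = K)
    {u : ℝ} (hu : 0 < u) : Qf u * d u ≤ ph u * p u := by
  set c : ℝ → ℝ := fun w => p w / d w with hc
  set G : ℝ → ℝ := fun w => Qf w - ph w * c w with hG
  have hcd : ∀ w, 0 < w → HasDerivAt c ((p' w * d w - p w * d' w) / d w ^ 2) w := fun w hw =>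
    (hp w).div (hd w) (hd0 w hw).ne'
  have hGd : ∀ w, 0 < w → HasDerivAt G (-ph w - (-(w * ph w) * c w + ph w *
      ((p' w * d w - p w * d' w) / d w ^ 2))) w := fun w hw =>
    (hasDerivAt_Qf w).sub ((hasDerivAt_ph w).mul (hcd w hw))
  have hGd2 : ∀ w, 0 < w → -ph w - (-(w * ph w) * c w + ph w *
      ((p' w * d w - p w * d' w) / d w ^ 2)) = ph w * (K / d w ^ 2) := by
    intro w hw
    have hdw := (hd0 w hw).ne'
    have h2 := hid w
    simp only [hc]
    have h3 : K = (w * p w * d w - d w ^ 2 - p' w * d w + p w * d' w) := by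
      linarith
    rw [h3]
    field_simp
    ring
  have hmono : MonotoneOn G (Ioi 0) := by
    apply monotoneOn_of_deriv_nonneg (convex_Ioi 0)
    · intro w hw
      exact (hGd w hw).continuousAt.continuousWithinAt
    · intro w hw
      rw [interior_Ioi] at hw
      exact (hGd w hw).differentiableAt.differentiableWithinAt
    · intro w hw
      rw [interior_Ioi] at hw
      rw [(hGd w hw).deriv, hGd2 w hw]
      have := hd0 w hw
      have := ph_pos w
      positivity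
  have hlim : Tendsto G atTop (𝓝 0) := by
    have h1 : Tendsto (fun w => ph w * c w) atTop (𝓝 0) := by
      have h2 : ∀ᶠ w in atTop, ph w * c w ≤ ph w := by
        filter_upwards [eventually_ge_atTop (1 : ℝ)] with w hw
        have hw0 : (0 : ℝ) < w := by linarith
        have h3 : c w ≤ 1 := by
          simp only [hc]
          rw [div_le_one (hd0 w hw0)]
          have := hpd w hw0.le
          have := hp0 w hw0.le
          nlinarith
        have := ph_pos w
        nlinarith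
      have h0 : ∀ᶠ w in atTop, 0 ≤ ph w * c w := by
        filter_upwards [eventually_gt_atTop (0 : ℝ)] with w hw0
        have := hd0 w hw0
        have := hp0 w hw0.le
        have := ph_pos w
        simp only [hc]
        positivity
      exact squeeze_zero' h0 h2 tendsto_ph_atTop
    have := tendsto_Qf_atTop.sub h1
    simpa using this
  have hGu : G u ≤ 0 := by
    apply ge_of_tendsto hlim
    filter_upwards [eventually_ge_atTop u] with w hw
    exact hmono hu (lt_of_lt_of_le hu hw) hw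
  simp only [hG, hc] at hGu
  have hdu := hd0 u hu
  have h5 : ph u * (p u / d u) = ph u * p u / d u := by ring
  rw [h5] at hGu
  have h6 : Qf u ≤ ph u * p u / d u := by linarith
  rwa [le_div_iff₀ hdu] at h6

/-- numerator of the continued fraction of order seventeen -/
noncomputable def pU (u : ℝ) : ℝ :=
  u ^ 16 + 135 * u ^ 14 + 7007 * u ^ 12 + 178893 * u ^ 10 + 2386395 * u ^ 8 + 16288965 * u ^ 6 +
    51450525 * u ^ 4 + 58437855 * u ^ 2 + 10321920

/-- denominator of the continued fraction of order seventeen -/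
noncomputable def dU (u : ℝ) : ℝ :=
  u ^ 17 + 136 * u ^ 15 + 7140 * u ^ 13 + 185640 * u ^ 11 + 2552550 * u ^ 9 + 18378360 * u ^ 7 +
    64324260 * u ^ 5 + 91891800 * u ^ 3 + 34459425 * u

/-- the derivative of the numerator -/
noncomputable def pU' (u : ℝ) : ℝ :=
  16 * u ^ 15 + 135 * 14 * u ^ 13 + 7007 * 12 * u ^ 11 + 178893 * 10 * u ^ 9 + 2386395 * 8 * u ^ 7 +
    16288965 * 6 * u ^ 5 + 51450525 * 4 * u ^ 3 + 58437855 * 2 * u

/-- the derivative of the denominator -/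
noncomputable def dU' (u : ℝ) : ℝ :=
  17 * u ^ 16 + 136 * 15 * u ^ 14 + 7140 * 13 * u ^ 12 + 185640 * 11 * u ^ 10 +
    2552550 * 9 * u ^ 8 + 18378360 * 7 * u ^ 6 + 64324260 * 5 * u ^ 4 + 91891800 * 3 * u ^ 2 +
    34459425

/-- the difference `dU - u pU` -/
noncomputable def rU (u : ℝ) : ℝ :=
  u ^ 15 + 133 * u ^ 13 + 6747 * u ^ 11 + 166155 * u ^ 9 + 2089395 * u ^ 7 + 12873735 * u ^ 5 +
    33453945 * u ^ 3 + 24137505 * u

lemma hasDerivAt_pU (u : ℝ) : HasDerivAt pU (pU' u) u := by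
  have h := (((((((((mono_deriv 1 15 u).fun_add (mono_deriv 135 13 u)).fun_add
    (mono_deriv 7007 11 u)).fun_add (mono_deriv 178893 9 u)).fun_add
    (mono_deriv 2386395 7 u)).fun_add (mono_deriv 16288965 5 u)).fun_add
    (mono_deriv 51450525 3 u)).fun_add (mono_deriv 58437855 1 u))).add_const (10321920 : ℝ)
  have e : pU = fun x : ℝ => 1 * x ^ (15 + 1) + 135 * x ^ (13 + 1) + 7007 * x ^ (11 + 1) +
      178893 * x ^ (9 + 1) + 2386395 * x ^ (7 + 1) + 16288965 * x ^ (5 + 1) +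
      51450525 * x ^ (3 + 1) + 58437855 * x ^ (1 + 1) + 10321920 := by
    ext x
    simp only [pU]
    ring
  rw [e]
  refine h.congr_deriv ?_
  simp only [pU']
  push_cast
  ring

lemma hasDerivAt_dU (u : ℝ) : HasDerivAt dU (dU' u) u := by
  have h := (((((((((mono_deriv 1 16 u).fun_add (mono_deriv 136 14 u)).fun_add
    (mono_deriv 7140 12 u)).fun_add (mono_deriv 185640 10 u)).fun_add
    (mono_deriv 2552550 8 u)).fun_add (mono_deriv 18378360 6 u)).fun_add
    (mono_deriv 64324260 4 u)).fun_add (mono_deriv 91891800 2 u)).fun_add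
    (mono_deriv 34459425 0 u))
  have e : dU = fun x : ℝ => 1 * x ^ (16 + 1) + 136 * x ^ (14 + 1) + 7140 * x ^ (12 + 1) +
      185640 * x ^ (10 + 1) + 2552550 * x ^ (8 + 1) + 18378360 * x ^ (6 + 1) +
      64324260 * x ^ (4 + 1) + 91891800 * x ^ (2 + 1) + 34459425 * x ^ (0 + 1) := by
    ext x
    simp only [dU]
    ring
  rw [e]
  refine h.congr_deriv ?_
  simp only [dU']
  push_cast
  ring

lemma dU_pos {u : ℝ} (hu : 0 < u) : 0 < dU u := by
  unfold dU
  positivity

lemma dU_sub (u : ℝ) : dU u - u * pU u = rU u := by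
  unfold dU pU rU
  ring

/-- The upper bound for the Gaussian tail from the convergent of order seventeen. -/
theorem mills17 {u : ℝ} (hu : 0 ≤ u) : Qf u * dU u ≤ ph u * pU u := by
  have hp0 : ∀ w : ℝ, 0 ≤ pU w := by
    intro w
    unfold pU
    have h1 : 0 ≤ w ^ 16 := by positivity
    have h2 : 0 ≤ w ^ 14 := by positivity
    have h3 : 0 ≤ w ^ 12 := by positivity
    have h4 : 0 ≤ w ^ 10 := by positivity
    have h5 : 0 ≤ w ^ 8 := by positivity
    have h6 : 0 ≤ w ^ 6 := by positivity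
    have h7 : 0 ≤ w ^ 4 := by positivity
    have h8 : 0 ≤ w ^ 2 := by positivity
    linarith
  rcases hu.eq_or_lt with rfl | hu'
  · have : dU 0 = 0 := by simp [dU]
    rw [this, mul_zero]
    exact mul_nonneg (ph_pos 0).le (hp0 0)
  · apply mills_cf_up pU dU pU' dU' 355687428096000 (by norm_num) hasDerivAt_pU hasDerivAt_dU
      (fun w hw => dU_pos hw) (fun w _ => hp0 w) _ _ hu'
    · intro w hw
      have h := dU_sub w
      have h2 : 0 ≤ rU w := by
        unfold rU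
        positivity
      linarith
    · intro w
      unfold pU dU pU' dU'
      ring

/-- The lower bound for `Tf` from the convergent of order seventeen. -/
lemma Tf_ge_cf {u : ℝ} (hu : 0 ≤ u) : ph u * rU u ≤ Tf u * dU u := by
  have h := mills17 hu
  have h2 : u * (Qf u * dU u) ≤ u * (ph u * pU u) := mul_le_mul_of_nonneg_left h hu
  have h3 := dU_sub u
  unfold Tf
  rw [← h3]
  nlinarith

/-! ### the central series -/

/-- initial sums of the series `∑ u ^ (2 k + 1) / (2 k + 1)‼` -/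
noncomputable def SK : ℕ → ℝ → ℝ
  | 0, u => u
  | K + 1, u => SK K u + u ^ (2 * K + 3) / (((2 * K + 3)‼ : ℕ) : ℝ)

lemma SK_zero (K : ℕ) : SK K 0 = 0 := by
  induction K with
  | zero => rfl
  | succ K ih =>
    simp only [SK, ih]
    have : (2 * K + 3) ≠ 0 := by omega
    simp

lemma df_succ (K : ℕ) : (((2 * K + 3)‼ : ℕ) : ℝ) = (2 * K + 3) * (((2 * K + 1)‼ : ℕ) : ℝ) := by
  have : (2 * K + 3)‼ = (2 * K + 3) * (2 * K + 1)‼ := by
    rw [show 2 * K + 3 = (2 * K + 1) + 2 by ring, Nat.doubleFactorial_add_two]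
  rw [this]
  push_cast
  ring

lemma df_pos (n : ℕ) : (0 : ℝ) < ((n‼ : ℕ) : ℝ) := by
  exact_mod_cast Nat.doubleFactorial_pos n

lemma hasDerivAt_SK (K : ℕ) (u : ℝ) :
    HasDerivAt (SK K) (1 + u * SK K u - u ^ (2 * K + 2) / (((2 * K + 1)‼ : ℕ) : ℝ)) u := by
  induction K with
  | zero =>
    have h : HasDerivAt (SK 0) 1 u := by
      have e : SK 0 = fun x => x := by
        ext x
        rfl
      rw [e]
      exact hasDerivAt_id u
    refine h.congr_deriv ?_
    simp [SK]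
    ring
  | succ K ih =>
    have h1 : HasDerivAt (fun x : ℝ => x ^ (2 * K + 3) / (((2 * K + 3)‼ : ℕ) : ℝ))
        (((2 * K + 3 : ℕ) : ℝ) * u ^ (2 * K + 2) / (((2 * K + 3)‼ : ℕ) : ℝ)) u := by
      have := (hasDerivAt_pow (2 * K + 3) u).div_const (((2 * K + 3)‼ : ℕ) : ℝ)
      simpa using this
    have h2 := ih.fun_add h1
    have e : SK (K + 1) = fun x => SK K x + x ^ (2 * K + 3) / (((2 * K + 3)‼ : ℕ) : ℝ) := by
      ext x
      rfl
    rw [e]
    refine h2.congr_deriv ?_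
    have hd1 := df_pos (2 * K + 1)
    have e2 : (2 * (K + 1) + 1)‼ = (2 * K + 3)‼ := rfl
    rw [show 2 * (K + 1) + 2 = 2 * K + 4 by ring, e2, df_succ K]
    push_cast
    field_simp
    ring

/-- The auxiliary function of the central series. -/
lemma hasDerivAt_Qser (K : ℕ) (u : ℝ) :
    HasDerivAt (fun w => Qf w + ph w * SK K w)
      (-(ph u * (u ^ (2 * K + 2) / (((2 * K + 1)‼ : ℕ) : ℝ)))) u := by
  have h := (hasDerivAt_Qf u).add ((hasDerivAt_ph u).mul (hasDerivAt_SK K u))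
  refine h.congr_deriv ?_
  ring

/-- The central series bounds the Gaussian tail from above. -/
theorem Qf_le_series (K : ℕ) {u : ℝ} (hu : 0 ≤ u) : Qf u ≤ 1 / 2 - ph u * SK K u := by
  have hanti : Antitone (fun w => Qf w + ph w * SK K w) := by
    apply antitone_of_deriv_nonpos (fun w => (hasDerivAt_Qser K w).differentiableAt)
    intro w
    rw [(hasDerivAt_Qser K w).deriv]
    have h1 : 0 ≤ ph w * (w ^ (2 * K + 2) / (((2 * K + 1)‼ : ℕ) : ℝ)) := by
      have := ph_pos w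
      have := df_pos (2 * K + 1)
      have h2 : 0 ≤ w ^ (2 * K + 2) := by
        rw [show 2 * K + 2 = 2 * (K + 1) by ring, pow_mul]
        positivity
      positivity
    linarith
  have h := hanti hu
  simp only [SK_zero, mul_zero, add_zero, Qf_zero] at h
  linarith

/-- The central series bounds the Gaussian tail from below. -/
theorem series_le_Qf (K : ℕ) {u : ℝ} (hu : 0 ≤ u) :
    1 / 2 - ph u * SK K u - ph 0 * (u ^ (2 * K + 3) / (((2 * K + 3)‼ : ℕ) : ℝ)) ≤ Qf u := by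
  have hd : ∀ w : ℝ, HasDerivAt
      (fun x => Qf x + ph x * SK K x + ph 0 * (x ^ (2 * K + 3) / (((2 * K + 3)‼ : ℕ) : ℝ)))
      ((ph 0 - ph w) * (w ^ (2 * K + 2) / (((2 * K + 1)‼ : ℕ) : ℝ))) w := by
    intro w
    have h1 : HasDerivAt (fun x : ℝ => ph 0 * (x ^ (2 * K + 3) / (((2 * K + 3)‼ : ℕ) : ℝ)))
        (ph 0 * (((2 * K + 3 : ℕ) : ℝ) * w ^ (2 * K + 2) / (((2 * K + 3)‼ : ℕ) : ℝ))) w := by
      have := ((hasDerivAt_pow (2 * K + 3) w).div_const (((2 * K + 3)‼ : ℕ) : ℝ)).const_mul (ph 0)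
      simpa using this
    have h2 := (hasDerivAt_Qser K w).add h1
    refine h2.congr_deriv ?_
    have hd1 := df_pos (2 * K + 1)
    rw [df_succ K]
    push_cast
    field_simp
    ring
  have hmono : Monotone
      (fun x => Qf x + ph x * SK K x + ph 0 * (x ^ (2 * K + 3) / (((2 * K + 3)‼ : ℕ) : ℝ))) := by
    apply monotone_of_deriv_nonneg (fun w => (hd w).differentiableAt)
    intro w
    rw [(hd w).deriv]
    have h0 : 0 ≤ ph 0 - ph w := by
      have := ph_le_ph_zero w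
      linarith
    have := df_pos (2 * K + 1)
    have h2 : 0 ≤ w ^ (2 * K + 2) := by
      rw [show 2 * K + 2 = 2 * (K + 1) by ring, pow_mul]
      positivity
    positivity
  have h := hmono hu
  have e0 : (0 : ℝ) ^ (2 * K + 3) = 0 := by simp
  simp only [SK_zero, mul_zero, add_zero, Qf_zero, e0, zero_div] at h
  linarith

/-- The half written with the density at the origin. -/
lemma half_eq : (1 / 2 : ℝ) = ph 0 * (√(2 * π) / 2) := by
  have hp : 0 < √(2 * π) := by positivity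
  have e : ph 0 = (√(2 * π))⁻¹ := by
    unfold ph
    simp
  rw [e]
  field_simp

/-- lower rational bound for `√(2 π) / 2` -/
lemma cLo_le : (12533141373155002 / 10 ^ 16 : ℝ) ≤ √(2 * π) / 2 := by
  rw [le_div_iff₀ (by norm_num)]
  apply Real.le_sqrt_of_sq_le
  have := Real.pi_gt_d20
  norm_num at this ⊢
  linarith

/-- upper rational bound for `√(2 π) / 2` -/
lemma le_cHi : √(2 * π) / 2 ≤ (12533141373155003 / 10 ^ 16 : ℝ) := by
  rw [div_le_iff₀ (by norm_num)]
  apply Real.sqrt_le_iff.mpr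
  have := Real.pi_lt_d20
  constructor
  · norm_num
  · norm_num at this ⊢
    linarith

/-- Lower bound for `Tf` by the central series, in units of the density at the origin. -/
lemma Tf_ge_series (K : ℕ) {u : ℝ} (hu : 0 ≤ u) :
    ph 0 * (Real.exp (-u ^ 2 / 2) * (1 + u * SK K u) - u * (12533141373155003 / 10 ^ 16)) ≤ Tf u := by
  have h := Qf_le_series K hu
  have h2 : u * Qf u ≤ u * (1 / 2 - ph u * SK K u) := mul_le_mul_of_nonneg_left h hu
  have h3 := mul_le_mul_of_nonneg_left le_cHi (mul_nonneg hu (ph_pos 0).le)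
  have h4 : u * (1 / 2) = u * ph 0 * (√(2 * π) / 2) := by
    rw [half_eq]
    ring
  have h5 := ph_eq u
  unfold Tf
  rw [h5] at h2 ⊢
  nlinarith

/-- Upper bound for `Tf` by the central series, in units of the density at the origin. -/
lemma Tf_le_series (K : ℕ) {u : ℝ} (hu : 0 ≤ u) :
    Tf u ≤ ph 0 * (Real.exp (-u ^ 2 / 2) * (1 + u * SK K u) - u * (12533141373155002 / 10 ^ 16)
      + u ^ (2 * K + 4) / (((2 * K + 3)‼ : ℕ) : ℝ)) := by
  have h := series_le_Qf K hu
  have h2 : u * (1 / 2 - ph u * SK K u - ph 0 * (u ^ (2 * K + 3) / (((2 * K + 3)‼ : ℕ) : ℝ)))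
      ≤ u * Qf u := mul_le_mul_of_nonneg_left h hu
  have h3 := mul_le_mul_of_nonneg_left cLo_le (mul_nonneg hu (ph_pos 0).le)
  have h4 : u * (1 / 2) = u * ph 0 * (√(2 * π) / 2) := by
    rw [half_eq]
    ring
  have h5 := ph_eq u
  have e : u ^ (2 * K + 4) = u * u ^ (2 * K + 3) := by ring
  unfold Tf
  rw [e]
  rw [h5] at h2 ⊢
  have e2 : u * (ph 0 * (u ^ (2 * K + 3) / (((2 * K + 3)‼ : ℕ) : ℝ)))
      = ph 0 * (u * u ^ (2 * K + 3) / (((2 * K + 3)‼ : ℕ) : ℝ)) := by ring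
  nlinarith

/-! ### integer tables -/

/-- table value: upper bound of the exponential at `i / 64`, scale `D` -/
def EH (i : ℕ) : ℕ := EHT.getD i 0

/-- table value: lower bound of the exponential at `i / 64`, scale `D` -/
def EL (i : ℕ) : ℕ := ELT.getD i 0

/-- table value: upper bound of `Tf / ph` at `i / 64`, scale `D` -/
def RH (i : ℕ) : ℕ := RHT.getD i 0

/-- table value: lower bound of `Tf / ph 0` at `i / 64`, scale `D` -/
def TL (i : ℕ) : ℕ := TLT.getD i 0

/-- the check of the exponentials at one index -/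
def ChkExp (i : ℕ) : Prop :=
  D ^ M * 10 ^ (10 * i ^ 2) ≤ EH i ^ M * 27182818283 ^ (i ^ 2) ∧
    EL i ^ M * 27182818286 ^ (i ^ 2) ≤ D ^ M * 10 ^ (10 * i ^ 2)

instance (i : ℕ) : Decidable (ChkExp i) := by
  unfold ChkExp
  infer_instance

theorem chkExp_all : ∀ i ∈ List.range 401, ChkExp i := by decide +kernel

/-- integer numerators of the central series -/
def SN : ℕ → ℕ → ℕ
  | 0, i => i
  | K + 1, i => SN K i * (64 ^ 2 * (2 * K + 3)) + i ^ (2 * K + 3)

lemma SK_eq (K i : ℕ) :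
    SK K ((i : ℝ) / 64) = (SN K i : ℝ) / (64 ^ (2 * K + 1) * (((2 * K + 1)‼ : ℕ) : ℝ)) := by
  induction K with
  | zero =>
    simp [SK, SN]
  | succ K ih =>
    have hd1 := df_pos (2 * K + 1)
    have e2 : (2 * (K + 1) + 1)‼ = (2 * K + 3)‼ := rfl
    simp only [SK, SN, ih]
    rw [e2, df_succ K, div_pow]
    rw [show 2 * (K + 1) + 1 = 2 * K + 3 by ring]
    push_cast
    field_simp
    ring

/-- the common denominator of the series -/
def AA : ℕ := 64 ^ 61 * 61‼

/-- the check of the series part at one index -/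
def ChkSer (i : ℕ) : Prop :=
  1 ≤ RH i ∧
  TL i * (64 * AA) * 10 ^ 16 + i * 12533141373155003 * AA * D ≤
    EL i * (64 * AA + i * SN 30 i) * 10 ^ 16 ∧
  EH i * (D * (64 * AA) + D * (i * SN 30 i)) * 10 ^ 16 ≤
    i * 12533141373155002 * (D * D) * AA + EH i * (RH i - 1) * (64 * AA) * 10 ^ 16 ∧
  i ^ 64 * (D * D) ≤ EL i * (64 ^ 64 * 63‼)

instance (i : ℕ) : Decidable (ChkSer i) := by
  unfold ChkSer
  infer_instance

theorem chkSer_all : ∀ i ∈ List.range 176, ChkSer i := by decide +kernel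

/-- homogeneous denominator of order seventeen at `i / 64` -/
def dUI (i : ℕ) : ℕ :=
  i ^ 17 + 136 * i ^ 15 * 64 ^ 2 + 7140 * i ^ 13 * 64 ^ 4 + 185640 * i ^ 11 * 64 ^ 6 +
    2552550 * i ^ 9 * 64 ^ 8 + 18378360 * i ^ 7 * 64 ^ 10 + 64324260 * i ^ 5 * 64 ^ 12 +
    91891800 * i ^ 3 * 64 ^ 14 + 34459425 * i * 64 ^ 16

/-- homogeneous numerator of order seventeen at `i / 64` -/
def rUI (i : ℕ) : ℕ :=
  i ^ 15 * 64 ^ 2 + 133 * i ^ 13 * 64 ^ 4 + 6747 * i ^ 11 * 64 ^ 6 + 166155 * i ^ 9 * 64 ^ 8 +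
    2089395 * i ^ 7 * 64 ^ 10 + 12873735 * i ^ 5 * 64 ^ 12 + 33453945 * i ^ 3 * 64 ^ 14 +
    24137505 * i * 64 ^ 16

lemma dUI_cast (i : ℕ) : (dUI i : ℝ) = 64 ^ 17 * dU ((i : ℝ) / 64) := by
  unfold dUI dU
  push_cast
  field_simp
  ring

lemma rUI_cast (i : ℕ) : (rUI i : ℝ) = 64 ^ 17 * rU ((i : ℝ) / 64) := by
  unfold rUI rU
  push_cast
  field_simp
  ring

/-- the check of the continued fraction part at one index -/
def ChkCF (i : ℕ) : Prop :=
  TL i * dUI i ≤ EL i * rUI i ∧ rI i * D ≤ RH i * dI i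

instance (i : ℕ) : Decidable (ChkCF i) := by
  unfold ChkCF
  infer_instance

theorem chkCF_all : ∀ k ∈ List.range 225, ChkCF (176 + k) := by decide +kernel

/-- The exponential on the grid, upper bound from the table. -/
theorem exp_le_EH {i : ℕ} (hi : i ≤ 400) :
    Real.exp (-((i : ℝ) / 64) ^ 2 / 2) ≤ (EH i : ℝ) / D :=
  exp_hi (chkExp_all i (List.mem_range.mpr (by omega))).1

/-- The exponential on the grid, lower bound from the table. -/
theorem EL_le_exp {i : ℕ} (hi : i ≤ 400) :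
    (EL i : ℝ) / D ≤ Real.exp (-((i : ℝ) / 64) ^ 2 / 2) :=
  exp_lo (chkExp_all i (List.mem_range.mpr (by omega))).2

lemma D_pos' : (0 : ℝ) < (D : ℝ) := by norm_num [D]

lemma AA_pos : (0 : ℝ) < (AA : ℝ) := by
  have : 0 < AA := by
    unfold AA
    have := Nat.doubleFactorial_pos 61
    positivity
  exact_mod_cast this

lemma SK30_eq (i : ℕ) : SK 30 ((i : ℝ) / 64) = (SN 30 i : ℝ) / (AA : ℝ) := by
  rw [SK_eq]
  have e : AA = 64 ^ (2 * 30 + 1) * (2 * 30 + 1)‼ := rfl
  rw [e, Nat.cast_mul, Nat.cast_pow]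
  norm_num

/-- The lower bound for `Tf` on the grid, series part. -/
lemma TL_le_Tf_ser {i : ℕ} (hi : i ≤ 400) (hc : ChkSer i) : ph 0 * ((TL i : ℝ) / D) ≤ Tf ((i : ℝ) / 64) := by
  set u : ℝ := (i : ℝ) / 64 with hu
  have hi0 : (0 : ℝ) ≤ (i : ℝ) := Nat.cast_nonneg i
  have hu0 : 0 ≤ u := by positivity
  have h1 := Tf_ge_series 30 hu0
  refine le_trans ?_ h1
  apply mul_le_mul_of_nonneg_left _ (ph_pos 0).le
  have hD := D_pos'
  have hA := AA_pos
  have hE : (EL i : ℝ) / D ≤ Real.exp (-u ^ 2 / 2) := EL_le_exp hi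
  have hS : SK 30 u = (SN 30 i : ℝ) / (AA : ℝ) := SK30_eq i
  have hX : 0 ≤ 1 + u * SK 30 u := by
    rw [hS]
    have h0 : (0 : ℝ) ≤ (SN 30 i : ℝ) / (AA : ℝ) := div_nonneg (Nat.cast_nonneg _) hA.le
    have := mul_nonneg hu0 h0
    linarith
  have h2 : (EL i : ℝ) / D * (1 + u * SK 30 u) ≤ Real.exp (-u ^ 2 / 2) * (1 + u * SK 30 u) :=
    mul_le_mul_of_nonneg_right hE hX
  have hc2 : (TL i : ℝ) * (64 * AA) * 10 ^ 16 + i * 12533141373155003 * AA * D ≤
      (EL i : ℝ) * (64 * AA + i * SN 30 i) * 10 ^ 16 := by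
    have := hc.2.1
    exact_mod_cast this
  have h3 : (TL i : ℝ) / D ≤ (EL i : ℝ) / D * (1 + u * SK 30 u) - u * (12533141373155003 / 10 ^ 16) := by
    rw [hS, hu]
    have e : (EL i : ℝ) / D * (1 + (i : ℝ) / 64 * ((SN 30 i : ℝ) / AA)) -
        (i : ℝ) / 64 * (12533141373155003 / 10 ^ 16) - (TL i : ℝ) / D =
        ((EL i : ℝ) * (64 * AA + i * SN 30 i) * 10 ^ 16 -
          ((TL i : ℝ) * (64 * AA) * 10 ^ 16 + i * 12533141373155003 * AA * D)) /
        (D * (64 * AA) * 10 ^ 16) := by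
      field_simp
      ring
    have h4 : 0 ≤ ((EL i : ℝ) * (64 * AA + i * SN 30 i) * 10 ^ 16 -
          ((TL i : ℝ) * (64 * AA) * 10 ^ 16 + i * 12533141373155003 * AA * D)) /
        (D * (64 * AA) * 10 ^ 16) := by
      apply div_nonneg (by linarith) (by positivity)
    rw [← e] at h4
    linarith
  linarith

/-- The upper bound for `Tf` on the grid, series part. -/
lemma Tf_le_RH_ser {i : ℕ} (hi : i ≤ 400) (hc : ChkSer i) :
    Tf ((i : ℝ) / 64) ≤ (RH i : ℝ) / D * ph ((i : ℝ) / 64) := by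
  set u : ℝ := (i : ℝ) / 64 with hu
  have hi0 : (0 : ℝ) ≤ (i : ℝ) := Nat.cast_nonneg i
  have hu0 : 0 ≤ u := by positivity
  have h1 := Tf_le_series 30 hu0
  have hD := D_pos'
  have hA := AA_pos
  have hE1 : (EL i : ℝ) / D ≤ Real.exp (-u ^ 2 / 2) := EL_le_exp hi
  have hE2 : Real.exp (-u ^ 2 / 2) ≤ (EH i : ℝ) / D := exp_le_EH hi
  have hS : SK 30 u = (SN 30 i : ℝ) / (AA : ℝ) := SK30_eq i
  have hR1 : 1 ≤ RH i := hc.1
  have hRc : ((RH i - 1 : ℕ) : ℝ) = (RH i : ℝ) - 1 := by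
    rw [Nat.cast_sub hR1]
    simp
  have hc3 : (EH i : ℝ) * (D * (64 * AA) + D * (i * SN 30 i)) * 10 ^ 16 ≤
      i * 12533141373155002 * (D * D) * AA + (EH i : ℝ) * ((RH i : ℝ) - 1) * (64 * AA) * 10 ^ 16 := by
    have := hc.2.2.1
    rw [← hRc]
    exact_mod_cast this
  have hc4 : (i : ℝ) ^ 64 * (D * D) ≤ (EL i : ℝ) * (64 ^ 64 * ((63‼ : ℕ) : ℝ)) := by
    have := hc.2.2.2
    exact_mod_cast this
  -- the tail term
  have htail : u ^ (2 * 30 + 4) / (((2 * 30 + 3)‼ : ℕ) : ℝ) ≤ Real.exp (-u ^ 2 / 2) / D := by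
    have hdf : (0 : ℝ) < ((63‼ : ℕ) : ℝ) := df_pos 63
    have h2 : u ^ (2 * 30 + 4) / (((2 * 30 + 3)‼ : ℕ) : ℝ) ≤ ((EL i : ℝ) / D) / D := by
      rw [show 2 * 30 + 4 = 64 by norm_num, show 2 * 30 + 3 = 63 by norm_num, hu, div_pow,
        div_div, div_div, div_le_div_iff₀ (by positivity) (by positivity)]
      nlinarith [hc4]
    have h3 : ((EL i : ℝ) / D) / D ≤ Real.exp (-u ^ 2 / 2) / D :=
      div_le_div_of_nonneg_right hE1 hD.le
    linarith
  set E : ℝ := Real.exp (-u ^ 2 / 2) with hEdef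
  have hEpos : 0 < E := Real.exp_pos _
  set X : ℝ := 1 + u * SK 30 u with hX
  set Z : ℝ := X - ((RH i : ℝ) - 1) / D with hZ
  have hZmain : (EH i : ℝ) / D * Z ≤ u * (12533141373155002 / 10 ^ 16) := by
    rw [hZ, hX, hS, hu]
    have e : (i : ℝ) / 64 * (12533141373155002 / 10 ^ 16) -
        (EH i : ℝ) / D * (1 + (i : ℝ) / 64 * ((SN 30 i : ℝ) / AA) - ((RH i : ℝ) - 1) / D) =
        (i * 12533141373155002 * (D * D) * AA + (EH i : ℝ) * ((RH i : ℝ) - 1) * (64 * AA) * 10 ^ 16 -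
          (EH i : ℝ) * (D * (64 * AA) + D * (i * SN 30 i)) * 10 ^ 16) /
        (D * D * (64 * AA) * 10 ^ 16) := by
      field_simp
      ring
    have h4 : 0 ≤ (i * 12533141373155002 * (D * D) * AA +
          (EH i : ℝ) * ((RH i : ℝ) - 1) * (64 * AA) * 10 ^ 16 -
          (EH i : ℝ) * (D * (64 * AA) + D * (i * SN 30 i)) * 10 ^ 16) /
        (D * D * (64 * AA) * 10 ^ 16) := by
      apply div_nonneg (by linarith) (by positivity)
    rw [← e] at h4
    linarith
  have hEZ : E * Z ≤ u * (12533141373155002 / 10 ^ 16) := by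
    rcases le_total Z 0 with hZ0 | hZ0
    · have : E * Z ≤ 0 := mul_nonpos_of_nonneg_of_nonpos hEpos.le hZ0
      have : 0 ≤ u * (12533141373155002 / 10 ^ 16 : ℝ) := by positivity
      linarith
    · have : E * Z ≤ (EH i : ℝ) / D * Z := mul_le_mul_of_nonneg_right hE2 hZ0
      linarith
  refine h1.trans ?_
  have e5 : ph u = ph 0 * E := ph_eq u
  rw [e5]
  have h6 : E * X - u * (12533141373155002 / 10 ^ 16) + u ^ (2 * 30 + 4) / (((2 * 30 + 3)‼ : ℕ) : ℝ)
      ≤ (RH i : ℝ) / D * E := by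
    have e6 : E * Z = E * X - E * (((RH i : ℝ) - 1) / D) := by
      rw [hZ]
      ring
    have e7 : (RH i : ℝ) / D * E = E * (((RH i : ℝ) - 1) / D) + E / D := by
      field_simp
      ring
    rw [e7]
    linarith
  have := mul_le_mul_of_nonneg_left h6 (ph_pos 0).le
  calc _ ≤ _ := this
    _ = _ := by ring

/-- The lower bound for `Tf` on the grid, continued fraction part. -/
lemma TL_le_Tf_cf {i : ℕ} (hi : i ≤ 400) (hi1 : 1 ≤ i) (hc : ChkCF i) :
    ph 0 * ((TL i : ℝ) / D) ≤ Tf ((i : ℝ) / 64) := by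
  set u : ℝ := (i : ℝ) / 64 with hu
  have hi1' : (1 : ℝ) ≤ (i : ℝ) := by exact_mod_cast hi1
  have hu0 : 0 < u := by positivity
  have hD := D_pos'
  have hd := dU_pos hu0
  have h1 := Tf_ge_cf hu0.le
  have hE1 : (EL i : ℝ) / D ≤ Real.exp (-u ^ 2 / 2) := EL_le_exp hi
  have hc1 : (TL i : ℝ) * (64 ^ 17 * dU u) ≤ (EL i : ℝ) * (64 ^ 17 * rU u) := by
    rw [← dUI_cast, ← rUI_cast]
    exact_mod_cast hc.1
  have hc2 : (TL i : ℝ) * dU u ≤ (EL i : ℝ) * rU u := by nlinarith
  have hr : 0 ≤ rU u := by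
    unfold rU
    positivity
  have h2 : ph 0 * ((TL i : ℝ) / D) * dU u ≤ Tf u * dU u := by
    refine le_trans ?_ h1
    rw [ph_eq u]
    have h3 : (EL i : ℝ) / D * rU u ≤ Real.exp (-u ^ 2 / 2) * rU u :=
      mul_le_mul_of_nonneg_right hE1 hr
    have h4 : (TL i : ℝ) / D * dU u ≤ (EL i : ℝ) / D * rU u := by
      rw [div_mul_eq_mul_div, div_mul_eq_mul_div]
      exact div_le_div_of_nonneg_right hc2 hD.le
    have h5 := ph_pos 0
    nlinarith
  exact le_of_mul_le_mul_right h2 hd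

/-- The upper bound for `Tf` on the grid, continued fraction part. -/
lemma Tf_le_RH_cf {i : ℕ} (hc : ChkCF i) :
    Tf ((i : ℝ) / 64) ≤ (RH i : ℝ) / D * ph ((i : ℝ) / 64) := by
  set u : ℝ := (i : ℝ) / 64 with hu
  have hi0 : (0 : ℝ) ≤ (i : ℝ) := Nat.cast_nonneg i
  have hu0 : 0 ≤ u := by positivity
  have hD := D_pos'
  have hd := dR_pos hu0
  have h1 := Tf_le_rho hu0
  have hc2 : (rI i : ℝ) * D ≤ (RH i : ℝ) * (dI i : ℝ) := by exact_mod_cast hc.2
  rw [rI_cast, dI_cast, ← hu] at hc2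
  have hc3 : (dR u - u * pR u) * D ≤ (RH i : ℝ) * dR u := by nlinarith
  have h2 : Tf u * dR u ≤ (RH i : ℝ) / D * ph u * dR u := by
    refine h1.trans ?_
    have h5 := ph_pos u
    have h6 : dR u - u * pR u ≤ (RH i : ℝ) / D * dR u := by
      have e : (RH i : ℝ) / D * dR u = ((RH i : ℝ) * dR u) / D := by ring
      rw [e, le_div_iff₀ hD]
      exact hc3
    nlinarith
  exact le_of_mul_le_mul_right h2 hd

/-- The table bound `Tf (i / 64) ≤ (RH i / D) * ph (i / 64)`. -/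
theorem Tf_le_RH {i : ℕ} (hi : i ≤ 400) :
    Tf ((i : ℝ) / 64) ≤ (RH i : ℝ) / D * ph ((i : ℝ) / 64) := by
  by_cases h : i < 176
  · exact Tf_le_RH_ser hi (chkSer_all i (List.mem_range.mpr h))
  · obtain ⟨k, rfl⟩ : ∃ k, i = 176 + k := ⟨i - 176, by omega⟩
    exact Tf_le_RH_cf (chkCF_all k (List.mem_range.mpr (by omega)))

/-- The table bound `ph 0 * (TL i / D) ≤ Tf (i / 64)`. -/
theorem TL_le_Tf {i : ℕ} (hi : i ≤ 400) :
    ph 0 * ((TL i : ℝ) / D) ≤ Tf ((i : ℝ) / 64) := by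
  by_cases h : i < 176
  · exact TL_le_Tf_ser hi (chkSer_all i (List.mem_range.mpr h))
  · obtain ⟨k, rfl⟩ : ∃ k, i = 176 + k := ⟨i - 176, by omega⟩
    exact TL_le_Tf_cf hi (by omega) (chkCF_all k (List.mem_range.mpr (by omega)))

end Vale.Agent.P226h19

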