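import Vale.Agent.P226h19.Defs

open MeasureTheory ProbabilityTheory Real Set Filter Topology
open scoped RealInnerProductSpace ENNReal NNReal

namespace Vale.Agent.P226h19

open Vale.Agent.P226h14 Vale.Agent.P226h6

variable {E : Type*} [NormedAddCommGroup E] [InnerProductSpace ℝ E] [FiniteDimensional ℝ E]
  [MeasurableSpace E] [BorelSpace E]
variable {ι : Type*} [Fintype ι] [LinearOrder ι]

omit [FiniteDimensional ℝ E] [MeasurableSpace E] [BorelSpace E] [Fintype ι] in
lemma slice_vcell_iff (v : ι → E) {n : E} (horth : ∀ j, ⟪v j, n⟫ = 0) (x : E) (r : ℝ) (l : ι) :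
    slice n (x, r) ∈ vcell v l ↔ x ∈ vcell v l := by
  have h1 : ∀ m, ⟪v m, slice n (x, r)⟫ = ⟪v m, x⟫ := by
    intro m
    rw [inner_slice, horth]
    ring
  simp only [vcell, mem_ofPred_eq, h1]

/-- The part of the moment of the cell over one facet, along the axis. -/
lemma facet_axis (v : ι → E) {n : E} (hn : ‖n‖ = 1) (horth : ∀ j, ⟪v j, n⟫ = 0) [Nonempty ι]
    (l : ι) :
    ∫ y in {y | ∀ m, ⟪v m, y⟫ ≤ ⟪n, y⟫} ∩ vcell v l, ⟪n, y⟫ ∂(stdGaussian E) = flux v l := by
  have hnn : ⟪n, n⟫ = 1 := by rw [real_inner_self_eq_norm_sq, hn]; norm_num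
  set C : Set E := {y | ∀ m, ⟪v m, y⟫ ≤ ⟪n, y⟫} with hC
  have hmC : MeasurableSet (C ∩ vcell v l) :=
    (measurableSet_cellC v n).inter (measurableSet_vcell v l)
  have hI : Integrable ((C ∩ vcell v l).indicator fun y => ⟪n, y⟫) (stdGaussian E) :=
    (integrable_inner_std n).indicator hmC
  rw [← integral_indicator hmC, integral_slice n hn hI, flux,
    ← integral_indicator (measurableSet_vcell v l)]
  apply integral_congr_ae
  apply Eventually.of_forall
  intro x
  by_cases hx : x ∈ vcell v l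
  · have hs : ∀ r, ((C ∩ vcell v l).indicator fun y => ⟪n, y⟫) (slice n (x, r)) =
        (Ici (wid v x)).indicator (fun r => r) r := by
      intro r
      have hb2 : ⟪n, slice n (x, r)⟫ = r := by
        rw [inner_slice, hnn]
        ring
      have hv : slice n (x, r) ∈ vcell v l := (slice_vcell_iff v horth x r l).2 hx
      by_cases hr : wid v x ≤ r
      · rw [indicator_of_mem (show slice n (x, r) ∈ C ∩ vcell v l from
          ⟨(slice_cell_iff v hn horth x r).2 hr, hv⟩),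
          indicator_of_mem (show r ∈ Ici (wid v x) from hr), hb2]
      · rw [indicator_of_notMem (fun h => hr ((slice_cell_iff v hn horth x r).1 h.1)),
          indicator_of_notMem (show r ∉ Ici (wid v x) from hr)]
    simp only
    simp_rw [hs]
    rw [integral_indicator measurableSet_Ici, integral_Ici_id, indicator_of_mem hx]
  · have hs : ∀ r, ((C ∩ vcell v l).indicator fun y => ⟪n, y⟫) (slice n (x, r)) = 0 := by
      intro r
      apply indicator_of_notMem
      intro h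
      exact hx ((slice_vcell_iff v horth x r l).1 h.2)
    simp only
    simp_rw [hs]
    rw [integral_zero, indicator_of_notMem hx]

/-- The part of the moment of the cell over one facet, in the facet direction. -/
lemma facet_top (v : ι → E) {n : E} (hn : ‖n‖ = 1) (horth : ∀ j, ⟪v j, n⟫ = 0) [Nonempty ι]
    (l : ι) :
    ∫ y in {y | ∀ m, ⟪v m, y⟫ ≤ ⟪n, y⟫} ∩ vcell v l, ⟪v l, y⟫ ∂(stdGaussian E) = topM v l := by
  set C : Set E := {y | ∀ m, ⟪v m, y⟫ ≤ ⟪n, y⟫} with hC
  have hmC : MeasurableSet (C ∩ vcell v l) :=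
    (measurableSet_cellC v n).inter (measurableSet_vcell v l)
  have hI : Integrable ((C ∩ vcell v l).indicator fun y => ⟪v l, y⟫) (stdGaussian E) :=
    (integrable_inner_std (v l)).indicator hmC
  rw [← integral_indicator hmC, integral_slice n hn hI, topM,
    ← integral_indicator (measurableSet_vcell v l)]
  apply integral_congr_ae
  apply Eventually.of_forall
  intro x
  by_cases hx : x ∈ vcell v l
  · have hs : ∀ r, ((C ∩ vcell v l).indicator fun y => ⟪v l, y⟫) (slice n (x, r)) =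
        (Ici (wid v x)).indicator (fun _ => wid v x) r := by
      intro r
      have hb2 : ⟪v l, slice n (x, r)⟫ = wid v x := by
        rw [inner_slice, horth, wid_eq_of_mem hx]
        ring
      have hv : slice n (x, r) ∈ vcell v l := (slice_vcell_iff v horth x r l).2 hx
      by_cases hr : wid v x ≤ r
      · rw [indicator_of_mem (show slice n (x, r) ∈ C ∩ vcell v l from
          ⟨(slice_cell_iff v hn horth x r).2 hr, hv⟩),
          indicator_of_mem (show r ∈ Ici (wid v x) from hr), hb2]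
      · rw [indicator_of_notMem (fun h => hr ((slice_cell_iff v hn horth x r).1 h.1)),
          indicator_of_notMem (show r ∉ Ici (wid v x) from hr)]
    simp only
    simp_rw [hs]
    rw [integral_indicator measurableSet_Ici, setIntegral_const, indicator_of_mem hx]
    simp [Qf, mul_comm]
  · have hs : ∀ r, ((C ∩ vcell v l).indicator fun y => ⟪v l, y⟫) (slice n (x, r)) = 0 := by
      intro r
      apply indicator_of_notMem
      intro h
      exact hx ((slice_vcell_iff v horth x r l).1 h.2)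
    simp only
    simp_rw [hs]
    rw [integral_zero, indicator_of_notMem hx]

omit [FiniteDimensional ℝ E] [MeasurableSpace E] [BorelSpace E] in
/-- Bessel for two orthogonal directions. -/
lemma bessel_two {m n u : E} (hn : ‖n‖ = 1) (hu : ⟪u, n⟫ = 0) (hu0 : u ≠ 0) :
    ⟪n, m⟫ ^ 2 + ⟪u, m⟫ ^ 2 / ‖u‖ ^ 2 ≤ ‖m‖ ^ 2 := by
  have hnn : ⟪n, n⟫ = 1 := by rw [real_inner_self_eq_norm_sq, hn]; norm_num
  have hu2 : 0 < ‖u‖ ^ 2 := by
    have := norm_pos_iff.2 hu0
    positivity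
  have huu : ⟪u, u⟫ = ‖u‖ ^ 2 := real_inner_self_eq_norm_sq _
  set α : ℝ := ⟪n, m⟫ with hα
  set β : ℝ := ⟪u, m⟫ / ‖u‖ ^ 2 with hβ
  have h0 : 0 ≤ ‖m - α • n - β • u‖ ^ 2 := by positivity
  rw [← real_inner_self_eq_norm_sq] at h0
  have hexp : ⟪m - α • n - β • u, m - α • n - β • u⟫ =
      ‖m‖ ^ 2 - α ^ 2 - ⟪u, m⟫ ^ 2 / ‖u‖ ^ 2 := by
    have h1 : ⟪m, n⟫ = α := real_inner_comm _ _
    have h2 : ⟪m, u⟫ = ⟪u, m⟫ := real_inner_comm _ _
    have h3 : ⟪n, u⟫ = 0 := by rw [real_inner_comm]; exact hu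
    simp only [inner_sub_left, inner_sub_right, inner_smul_left, inner_smul_right, conj_trivial,
      hnn, huu, hu, h1, h2, h3, real_inner_self_eq_norm_sq m, ← hα]
    simp only [hβ]
    field_simp
    ring
  rw [hexp] at h0
  have : ⟪n, m⟫ ^ 2 = α ^ 2 := rfl
  linarith

/-- The geometric data of a fixed point at the deleted vertex, and the reduction of the deletion
step to the one inequality in the facet moments. -/
theorem setup_fixed {w : ι → E} {i0 : ι}
    (hfix : ∀ i, mom (vcell w i) = w i)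
    (hobt : ∀ i j, i ≠ j → ⟪w i, w j⟫ < 0)
    (_hmin : ∀ j, ‖w i0‖ ≤ ‖w j‖)
    (hcard : 2 ≤ Fintype.card {l // l ≠ i0}) :
    ∃ (z : ℝ) (a : {l // l ≠ i0} → ℝ) (v : {l // l ≠ i0} → E) (n : E),
      z = ‖w i0‖ ∧ 0 < z ∧ (∀ l, 0 < a l) ∧ ∑ l, a l = 1 ∧ ‖n‖ = 1 ∧
      (∀ j, ⟪v j, n⟫ = 0) ∧ (∀ j l, j ≠ l → ⟪v j, v l⟫ < 0) ∧
      ∑ j, (1 + a j) • v j = 0 ∧
      (∀ j : {l // l ≠ i0}, ‖w j.1‖ ^ 2 = ((1 + a j) * z) ^ 2 * ‖v j‖ ^ 2 + (a j * z) ^ 2) ∧
      (∫ x, ph (wid v x) ∂(stdGaussian E) = z) ∧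
      (∀ j, flux v j = (1 + a j) * z / ((Fintype.card {l // l ≠ i0} : ℝ) + 1)) ∧
      (z ^ 2 * ((2 / ((Fintype.card {l // l ≠ i0} : ℝ) + 1) -
            1 / ((Fintype.card {l // l ≠ i0} : ℝ) + 1) ^ 2) * ∑ j, (1 + a j) ^ 2 - 1) ≤
          2 * z * ∑ j, (1 + a j) * topM v j + ∑ j, (topM v j) ^ 2 / ‖v j‖ ^ 2 →
        ∃ B' : {l // l ≠ i0} → Set E, IsPart B' ∧ Fval (vcell w) ≤ Fval B') := by
  classical
  have hne' : Nonempty {l // l ≠ i0} := Fintype.card_pos_iff.1 (by omega)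
  set ι' := {l // l ≠ i0} with hι'
  have hne : Nonempty ι := ⟨i0⟩
  set w' : ι' → E := fun l => w l.1 with hw'
  set z : ℝ := ‖w i0‖ with hz
  have hz0 : 0 < z := by
    rw [hz, norm_pos_iff]
    intro h0
    obtain ⟨l⟩ := hne'
    have := hobt l.1 i0 l.2
    rw [h0, inner_zero_right] at this
    exact lt_irrefl _ this
  have hzz : ⟪w i0, w i0⟫ = z ^ 2 := real_inner_self_eq_norm_sq _
  have hz2 : z ^ 2 ≠ 0 := by positivity
  -- the balance
  have hsumw : w i0 + ∑ l : ι', w l.1 = 0 := by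
    have h1 := sum_mom (isPart_vcell w)
    simp_rw [hfix] at h1
    rw [Fintype.sum_eq_add_sum_subtype_ne w i0] at h1
    exact h1
  set a : ι' → ℝ := fun l => -⟪w l.1, w i0⟫ / z ^ 2 with ha_def
  have hpair : ∀ l : ι', ⟪w l.1, w i0⟫ = -(a l * z ^ 2) := by
    intro l
    simp only [ha_def]
    field_simp
  have ha_pos : ∀ l, 0 < a l := by
    intro l
    apply div_pos _ (by positivity)
    have := hobt l.1 i0 l.2
    linarith
  have ha_nonneg : ∀ l, 0 ≤ a l := fun l => (ha_pos l).le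
  have hsum : ∑ l, a l = 1 := by
    simp only [ha_def]
    rw [← Finset.sum_div, Finset.sum_neg_distrib, div_eq_iff hz2, one_mul]
    have h1 : ∑ l : ι', ⟪w l.1, w i0⟫ = ⟪∑ l : ι', w l.1, w i0⟫ := by
      rw [sum_inner]
    have h2 : ∑ l : ι', w l.1 = - w i0 := by
      rw [eq_neg_iff_add_eq_zero, add_comm]
      exact hsumw
    rw [h1, h2, inner_neg_left, hzz]
    ring
  set v : ι' → E := fun l => ((1 + a l) * z)⁻¹ • (w l.1 + a l • w i0) with hv
  set n : E := z⁻¹ • w i0 with hn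
  have hc_pos : ∀ l, 0 < (1 + a l) * z := fun l => by
    have := ha_pos l
    positivity
  have hn1 : ‖n‖ = 1 := by
    rw [hn, norm_smul, norm_inv, norm_norm, ← hz]
    field_simp
  have hinner_base : ∀ (l : ι') (y : E),
      ⟪w l.1 + a l • w i0, y⟫ = ⟪w l.1, y⟫ + a l * ⟪w i0, y⟫ := by
    intro l y
    rw [inner_add_left, inner_smul_left]
    simp
  have hvx : ∀ l y, ⟪v l, y⟫ = ((1 + a l) * z)⁻¹ * (⟪w l.1, y⟫ + a l * ⟪w i0, y⟫) := by
    intro l y
    simp only [hv]
    rw [inner_smul_left, hinner_base]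
    simp
  have hnx : ∀ y, ⟪n, y⟫ = z⁻¹ * ⟪w i0, y⟫ := by
    intro y
    rw [hn, inner_smul_left]
    simp
  have horth : ∀ j, ⟪v j, n⟫ = 0 := by
    intro j
    have hjn : ⟪w j.1, n⟫ = z⁻¹ * ⟪w j.1, w i0⟫ := by
      rw [hn, inner_smul_right]
    have hin : ⟪w i0, n⟫ = z⁻¹ * z ^ 2 := by
      rw [hn, inner_smul_right, hzz]
    rw [hvx, hjn, hin, hpair]
    ring
  -- the Gram computation
  have hgram : ∀ j l : ι', ⟪w j.1 + a j • w i0, w l.1 + a l • w i0⟫ =
      ⟪w j.1, w l.1⟫ - a j * a l * z ^ 2 := by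
    intro j l
    rw [inner_add_left, inner_add_right, inner_add_right, inner_smul_left, inner_smul_right,
      inner_smul_right, inner_smul_left, hpair j, real_inner_comm (w l.1) (w i0), hpair l, hzz]
    simp
    ring
  have hbal : ∑ j, (1 + a j) • v j = 0 := by
    have h1 : ∀ j, (1 + a j) • v j = z⁻¹ • (w j.1 + a j • w i0) := by
      intro j
      simp only [hv]
      rw [smul_smul]
      congr 1
      have := ha_pos j
      field_simp
    simp_rw [h1]
    rw [← Finset.smul_sum, Finset.sum_add_distrib, ← Finset.sum_smul, hsum, one_smul]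
    have h2 : ∑ l : ι', w l.1 = - w i0 := by
      rw [eq_neg_iff_add_eq_zero, add_comm]
      exact hsumw
    rw [h2]
    simp
  have hnormv : ∀ j : ι', ‖w j.1‖ ^ 2 = ((1 + a j) * z) ^ 2 * ‖v j‖ ^ 2 + (a j * z) ^ 2 := by
    intro j
    have h1 : ‖v j‖ ^ 2 = ((1 + a j) * z)⁻¹ ^ 2 * (‖w j.1‖ ^ 2 - a j ^ 2 * z ^ 2) := by
      simp only [hv]
      rw [norm_smul, mul_pow, norm_inv, Real.norm_eq_abs, abs_of_pos (hc_pos j),
        ← real_inner_self_eq_norm_sq (w j.1 + a j • w i0), hgram, real_inner_self_eq_norm_sq]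
      ring
    rw [h1, ← mul_assoc, ← mul_pow, mul_inv_cancel₀ (hc_pos j).ne', one_pow, one_mul]
    ring
  have hneg2 : ∀ j l : ι', j ≠ l → ⟪v j, v l⟫ < 0 := by
    intro j l hjl
    simp only [hv]
    rw [inner_smul_left, inner_smul_right, hgram]
    have hne : j.1 ≠ l.1 := fun h => hjl (Subtype.ext h)
    have h1 := hobt j.1 l.1 hne
    have h2 : 0 ≤ a j * a l * z ^ 2 := by
      have := ha_pos j
      have := ha_pos l
      positivity
    have h3 : ⟪w j.1, w l.1⟫ - a j * a l * z ^ 2 < 0 := by linarith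
    have h4 : 0 < ((1 + a j) * z)⁻¹ := inv_pos.2 (hc_pos j)
    have h5 : 0 < ((1 + a l) * z)⁻¹ := inv_pos.2 (hc_pos l)
    have h6 := mul_neg_of_pos_of_neg h5 h3
    simpa using mul_neg_of_pos_of_neg h4 h6
  -- identify the cell
  set Ct : Set E := {y | ∀ l, ⟪v l, y⟫ ≤ ⟪n, y⟫} with hCt
  have hCtiff : ∀ y, y ∈ Ct ↔ ∀ l : ι', ⟪w l.1, y⟫ ≤ ⟪w i0, y⟫ := by
    intro y
    have h1 : ∀ l : ι', ⟪n, y⟫ - ⟪v l, y⟫ = ((1 + a l) * z)⁻¹ * (⟪w i0, y⟫ - ⟪w l.1, y⟫) := by
      intro l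
      rw [hvx, hnx]
      have := ha_pos l
      field_simp
      ring
    constructor
    · intro hy l
      have h2 : 0 ≤ ⟪n, y⟫ - ⟪v l, y⟫ := by linarith [hy l]
      rw [h1] at h2
      have h3 := inv_pos.2 (hc_pos l)
      have h4 := (mul_nonneg_iff_of_pos_left h3).1 h2
      linarith
    · intro hy l
      have h2 := h1 l
      have h3 := inv_pos.2 (hc_pos l)
      have h4 : 0 ≤ ⟪w i0, y⟫ - ⟪w l.1, y⟫ := by linarith [hy l]
      have h5 := mul_nonneg h3.le h4
      linarith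
  have hmCt : MeasurableSet Ct := measurableSet_cellC v n
  have hsub1 : vcell w i0 ⊆ Ct := by
    intro y hy
    rw [hCtiff]
    intro l
    exact hy.1 l.1
  have hsub2 : Ct \ vcell w i0 ⊆ ⋃ j : ι', {y | ⟪w j.1 - w i0, y⟫ = 0} := by
    intro y hy
    have h1 := (hCtiff y).1 hy.1
    have h2 : ¬ y ∈ vcell w i0 := hy.2
    have hfirst : ∀ j, ⟪w j, y⟫ ≤ ⟪w i0, y⟫ := by
      intro j
      by_cases hj : j = i0
      · rw [hj]
      · exact h1 ⟨j, hj⟩
    have h3 : ¬ ∀ j, j < i0 → ⟪w j, y⟫ < ⟪w i0, y⟫ := fun hh' => h2 ⟨hfirst, hh'⟩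
    push Not at h3
    obtain ⟨j, hj, hj2⟩ := h3
    apply mem_iUnion.2
    refine ⟨⟨j, hj.ne⟩, ?_⟩
    have h4 := hfirst j
    change ⟪w j - w i0, y⟫ = 0
    rw [inner_sub_left]
    linarith
  have hnull : stdGaussian E (Ct \ vcell w i0) = 0 := by
    apply measure_mono_null hsub2
    apply measure_iUnion_null
    intro j
    apply hyperplane_null
    intro h0
    have h1 : w j.1 = w i0 := sub_eq_zero.1 h0
    have h2 := hobt j.1 i0 j.2
    rw [h1, hzz] at h2
    have : 0 < z ^ 2 := by positivity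
    linarith
  have hae : vcell w i0 =ᵐ[stdGaussian E] Ct := by
    rw [ae_eq_set]
    refine ⟨?_, hnull⟩
    rw [sdiff_eq_empty.2 hsub1]
    simp
  have hwn : w i0 = z • n := by
    rw [hn, smul_smul]
    field_simp
    simp
  have hmomC : ∀ b : E, ∫ y in Ct, ⟪b, y⟫ ∂(stdGaussian E) = ⟪b, w i0⟫ := by
    intro b
    rw [← setIntegral_congr_set hae, ← inner_mom, hfix]
  have hperp : ∀ b : E, ⟪b, n⟫ = 0 →
      ∫ y in {y | ∀ l, ⟪v l, y⟫ ≤ ⟪n, y⟫}, ⟪b, y⟫ ∂(stdGaussian E) = 0 := by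
    intro b hb
    rw [hmomC, hwn, inner_smul_right, hb, mul_zero]
  have hZ : ∫ x, ph (wid v x) ∂(stdGaussian E) = z := by
    rw [← cell_moment_axis v hn1 horth, hmomC, hn, inner_smul_left, hzz]
    simp only [conj_trivial]
    field_simp
  have hflux : ∀ j, flux v j = (1 + a j) * z / ((Fintype.card ι' : ℝ) + 1) := by
    intro j
    rw [flux_eq v a hn1 horth ha_nonneg hsum hneg2 hbal hperp j, hZ]
    ring
  refine ⟨z, a, v, n, rfl, hz0, ha_pos, hsum, hn1, horth, hneg2, hbal, hnormv, hZ, hflux, ?_⟩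
  intro hKEY
  -- the reassignment
  set B := vcell w with hB
  have hBP : IsPart B := isPart_vcell w
  set C : ι' → Set E := fun l => B i0 ∩ vcell v l with hC
  have hCm : ∀ l, MeasurableSet (C l) := fun l => (hBP.1 i0).inter (measurableSet_vcell v l)
  have hCd : Pairwise (Function.onFun Disjoint C) := by
    intro l m hlm
    exact (disjoint_vcell v hlm).mono inter_subset_right inter_subset_right
  have hCu : ⋃ l, C l = B i0 := by
    apply Set.Subset.antisymm
    · exact iUnion_subset fun l => inter_subset_left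
    · intro x hx
      obtain ⟨l, hl⟩ := exists_mem_vcell v x
      exact mem_iUnion.2 ⟨l, hx, hl⟩
  obtain ⟨hP, hF⟩ := reassign hBP i0 hCm hCd hCu
  refine ⟨_, hP, ?_⟩
  rw [hF]
  -- the moments of the pieces
  have hCae : ∀ l, C l =ᵐ[stdGaussian E] (Ct ∩ vcell v l : Set E) := fun l =>
    ae_eq_set_inter hae (ae_eq_refl _)
  have hmomn : ∀ l, ⟪n, mom (C l)⟫ = flux v l := by
    intro l
    rw [inner_mom, setIntegral_congr_set (hCae l)]
    exact facet_axis v hn1 horth l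
  have hmomv : ∀ l, ⟪v l, mom (C l)⟫ = topM v l := by
    intro l
    rw [inner_mom, setIntegral_congr_set (hCae l)]
    exact facet_top v hn1 horth l
  have hv0 : ∀ l, v l ≠ 0 := by
    intro l h0
    obtain ⟨m, hm⟩ := Fintype.exists_ne_of_one_lt_card (show 1 < Fintype.card ι' from hcard) l
    have := hneg2 l m hm.symm
    rw [h0, inner_zero_left] at this
    exact lt_irrefl _ this
  have hwl : ∀ l : ι', w l.1 = ((1 + a l) * z) • v l - (a l * z) • n := by
    intro l
    simp only [hv]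
    rw [smul_smul, mul_inv_cancel₀ (hc_pos l).ne', one_smul, hn, smul_smul]
    have : a l * z * z⁻¹ = a l := by field_simp
    rw [this]
    abel
  have hterm : ∀ l : ι', 2 * ⟪mom (B l.1), mom (C l)⟫ + ‖mom (C l)‖ ^ 2 ≥
      2 * z * ((1 + a l) * topM v l) - 2 * a l * (1 + a l) * z ^ 2 / ((Fintype.card ι' : ℝ) + 1) +
        (1 + a l) ^ 2 * z ^ 2 / ((Fintype.card ι' : ℝ) + 1) ^ 2 + topM v l ^ 2 / ‖v l‖ ^ 2 := by
    intro l
    have h1 := bessel_two (m := mom (C l)) hn1 (horth l) (hv0 l)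
    rw [hmomn, hmomv, hflux] at h1
    have h2 : ⟪mom (B l.1), mom (C l)⟫ =
        (1 + a l) * z * topM v l - a l * z * flux v l := by
      rw [hfix, hwl, inner_sub_left, real_inner_smul_left (v l) _ ((1 + a l) * z),
        real_inner_smul_left n _ (a l * z), hmomv, hmomn]
    rw [h2, hflux]
    have hN0 : (0 : ℝ) < (Fintype.card ι' : ℝ) + 1 := by positivity
    have e1 : ((1 + a l) * z / ((Fintype.card ι' : ℝ) + 1)) ^ 2 =
        (1 + a l) ^ 2 * z ^ 2 / ((Fintype.card ι' : ℝ) + 1) ^ 2 := by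
      field_simp
    have e2 : 2 * ((1 + a l) * z * topM v l - a l * z * ((1 + a l) * z / ((Fintype.card ι' : ℝ) + 1))) =
        2 * z * ((1 + a l) * topM v l) - 2 * a l * (1 + a l) * z ^ 2 / ((Fintype.card ι' : ℝ) + 1) := by
      field_simp
    rw [e1] at h1
    rw [e2]
    linarith
  have hsumW : ∑ l : ι', (1 + a l) = (Fintype.card ι' : ℝ) + 1 := by
    rw [Finset.sum_add_distrib, hsum]
    simp
  set K : ℝ := (Fintype.card ι' : ℝ) + 1 with hK
  have hK0 : 0 < K := by positivity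
  have hsumaW : ∑ l : ι', a l * (1 + a l) = ∑ l : ι', (1 + a l) ^ 2 - K := by
    rw [← hsumW, ← Finset.sum_sub_distrib]
    apply Finset.sum_congr rfl
    intro l _
    ring
  have htot : ∑ l : ι', (2 * ⟪mom (B l.1), mom (C l)⟫ + ‖mom (C l)‖ ^ 2) ≥
      2 * z * ∑ l, (1 + a l) * topM v l - 2 * z ^ 2 / K * (∑ l : ι', (1 + a l) ^ 2 - K) +
        z ^ 2 / K ^ 2 * ∑ l : ι', (1 + a l) ^ 2 + ∑ l, topM v l ^ 2 / ‖v l‖ ^ 2 := by
    have h1 := Finset.sum_le_sum (s := Finset.univ) fun l _ => hterm l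
    refine ge_trans h1 (le_of_eq ?_)
    rw [Finset.sum_add_distrib, Finset.sum_add_distrib, Finset.sum_sub_distrib,
      ← Finset.mul_sum, ← hsumaW, Finset.mul_sum, Finset.mul_sum, Finset.mul_sum]
    congr 2
    · congr 1
      apply Finset.sum_congr rfl
      intro l _
      field_simp
    · apply Finset.sum_congr rfl
      intro l _
      field_simp
  have h3 : mom (B i0) = w i0 := hfix i0
  rw [h3]
  have hk1 : ‖w i0‖ ^ 2 = z ^ 2 := rfl
  rw [hk1]
  have e : z ^ 2 * ((2 / K - 1 / K ^ 2) * ∑ j : ι', (1 + a j) ^ 2 - 1) =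
      2 * z ^ 2 / K * (∑ l : ι', (1 + a l) ^ 2 - K) - z ^ 2 / K ^ 2 * ∑ l : ι', (1 + a l) ^ 2 + z ^ 2 := by
    field_simp
    ring
  rw [e] at hKEY
  linarith

end Vale.Agent.P226h19
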